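import Vale.Agent.P247N.Mon0

/-!
# P247, block N: monotonicity
-/

set_option linter.all false

open scoped ContDiff Topology
open Set MeasureTheory Filter Metric

noncomputable section

namespace Vale.Agent.P247N

open Vale.Agent.P247.H74 (R4 Data)

theorem sqrt_lim : Tendsto (fun a : ℝ => √a) (𝓝[>] 0) (𝓝 0) := by
  simpa using (Real.continuous_sqrt.tendsto 0).mono_left nhdsWithin_le_nhds

theorem sqrt2_lim : Tendsto (fun a : ℝ => √(√a)) (𝓝[>] 0) (𝓝 0) := by
  simpa [Function.comp_def] using (Real.continuous_sqrt.tendsto 0).comp sqrt_lim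

theorem ev_Ioc : ∀ᶠ a in 𝓝[>] (0 : ℝ), 0 < a ∧ a ≤ 1 := Ioc_mem_nhdsGT one_pos

theorem alm_mono {f : ℝ → ℝ} {K B : ℝ} (hK : 0 ≤ K)
    (h : ∀ a a', 0 < a' → a' ≤ a → a ≤ 1 → f a' ≤ f a + K * √a) (hb : ∀ a, 0 < a → |f a| ≤ B) :
    ∃ L, Tendsto f (𝓝[>] 0) (𝓝 L) ∧ ∀ a, 0 < a → a ≤ 1 → L ≤ f a + K * √a := by
  have bd : BddBelow ((fun a => f a + K * √a) '' Ioc 0 1) := ⟨-B, by
    rintro _ ⟨a, ha, rfl⟩
    have := neg_le_of_abs_le (hb a ha.1)
    have : 0 ≤ K * √a := by positivity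
    show -B ≤ f a + K * √a
    linarith⟩
  have le := fun a (h0 : 0 < a) (h1 : a ≤ 1) => csInf_le bd ⟨a, ⟨h0, h1⟩, rfl⟩
  refine ⟨_, tendsto_order.2 ⟨fun b hb => ?_, fun b hb => ?_⟩, le⟩
  · have h1 := (sqrt_lim.const_mul K).eventually (gt_mem_nhds (by simpa using sub_pos.2 hb :
      K * 0 < sInf ((fun a => f a + K * √a) '' Ioc 0 1) - b))
    filter_upwards [h1, ev_Ioc] with a h1 h2
    linarith [le a h2.1 h2.2]
  · obtain ⟨_, ⟨a, ha, rfl⟩, h1⟩ := exists_lt_of_csInf_lt ((nonempty_Ioc.2 one_pos).image _) hb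
    filter_upwards [Ioc_mem_nhdsGT ha.1] with a' h2
    exact (h a a' h2.1 h2.2 ha.2).trans_lt h1

variable {D : Data} {W U : Set R4} {A : R4 → R4 →L[ℝ] R4} {χ : R4 → ℝ} {ε C : ℝ}
  {μ : Measure (R4 × R4)} {x : R4} {r : Measure R4} {w : Fin 2 → R4 → R4}

theorem PC.th_eq (h : PC D W r w) (F : Fr D W U A χ ε C) (hx : x ∈ U) {a : ℝ} (ha : 0 < a) :
    Th D r x a = ∫ q, a * rk a (A x (q.1 - x)) ^ 2 * qf D q.1 q.2 ∂vm r w := by
  rw [h.integral_vm (by fun_prop (disch := assumption))]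
  refine integral_congr_ae (h.ae.mono fun y hy => ?_)
  simp only [← Finset.mul_sum, h.nrm y hy, kn, F.qA x hx, rk, inv_pow, div_eq_mul_inv, mul_one]

theorem PC.lim (h : PC D W r w) (F : Fr D W U A χ ε C) (hx : x ∈ U) :
    Tendsto (Tq D A χ (vm r w) x) (𝓝[>] 0) (𝓝 (nu D r x)) ∧
    Tendsto (Th D r x) (𝓝[>] 0) (𝓝 (nu D r x)) ∧ ∀ a, 0 < a → a ≤ 1 →
      Th D r x a ≤ 312 * C ^ 6 * r.real univ ∧
      nu D r x ≤ Th D r x a + 312 * C ^ 6 * r.real univ * √(√a) := by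
  have := F.C1
  obtain ⟨L, h1, h2⟩ := alm_mono (by positivity) (fun a a' => h.vc.m2 F hx)
    fun a => h.vc.m4 F hx
  have h3 := fun a (h0 : 0 < a) (h1 : a ≤ 1) => h.th_eq F hx h0 ▸ h.vc.m3 F hx h0 h1
  have h4 : Tendsto (Th D r x) (𝓝[>] 0) (𝓝 L) := by
    have h5 := squeeze_zero_norm' (f := fun a => Tq D A χ (vm r w) x a - Th D r x a)
      (ev_Ioc.mono fun a ha => h3 a ha.1 ha.2)
      (by simpa using sqrt2_lim.const_mul (106 * C ^ 6 * (vm r w).real univ))
    simpa using h1.sub h5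
  rw [show nu D r x = L from h4.limUnder_eq]
  refine ⟨h1, h4, fun a a0 a1 => ?_⟩
  have h5 := abs_le.1 (h3 a a0 a1)
  have h6 := abs_le.1 (h.vc.m4 F hx a0)
  have h7 := h2 a a0 a1
  have s1 : √a ≤ 1 := Real.sqrt_le_one.2 a1
  have s2 : √(√a) ≤ 1 := Real.sqrt_le_one.2 s1
  have s3 : √a ≤ √(√a) := Real.le_sqrt_of_sq_le (by nlinarith [Real.sqrt_nonneg a])
  rw [h.mass] at h5 h6 h7
  have m0 : 0 ≤ r.real univ := measureReal_nonneg
  have b1 := mul_le_mul_of_nonneg_left s2 (show 0 ≤ C ^ 6 * r.real univ by positivity)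
  have b2 := mul_le_mul_of_nonneg_left s3 (show 0 ≤ C ^ 6 * r.real univ by positivity)
  have b3 := mul_le_mul_of_nonneg_left (pow_le_pow_right₀ F.C1 (show 5 ≤ 6 by norm_num)) m0
  have b4 : 0 ≤ C ^ 6 * r.real univ := by positivity
  constructor <;> nlinarith

theorem mon : MON := by
  intro D W K hW hK hKW
  refine hK.induction_on (p := fun K => ∃ C, 0 ≤ C ∧
    ∀ r w, PC D W r w → ∀ x ∈ K, Tendsto (Th D r x) (𝓝[>] 0) (𝓝 (nu D r x)) ∧
    ∀ a, 0 < a → a ≤ 1 → Th D r x a ≤ C * r.real univ ∧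
      nu D r x ≤ Th D r x a + C * r.real univ * √(√a)) ⟨0, le_rfl, fun _ _ _ _ h => h.elim⟩
    (fun s t hs ⟨C, h0, h⟩ => ⟨C, h0, fun r w hr x hx => h r w hr x (hs hx)⟩)
    (fun s t ⟨C, h0, h⟩ ⟨C', h0', h'⟩ => ⟨C + C', by positivity, fun r w hr x hx => ?_⟩)
    fun x hx => ?_
  · have m0 : 0 ≤ r.real univ := measureReal_nonneg
    rcases hx with hx | hx
    · refine ⟨(h r w hr x hx).1, fun a a0 a1 => ((h r w hr x hx).2 a a0 a1).imp
        (fun h => h.trans ?_) fun h => h.trans ?_⟩ <;> gcongr <;> linarith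
    · refine ⟨(h' r w hr x hx).1, fun a a0 a1 => ((h' r w hr x hx).2 a a0 a1).imp
        (fun h => h.trans ?_) fun h => h.trans ?_⟩ <;> gcongr <;> linarith
  · obtain ⟨U, A, χ, ε, C, h1, -, F⟩ := exists_fr D hW (hKW hx)
    exact ⟨U, mem_nhdsWithin_of_mem_nhds (F.opn.mem_nhds h1), 312 * C ^ 6, by positivity,
      fun r w hr y hy => (hr.lim F hy).2⟩

theorem cd_zero {z : R4} (h : 0 = n2 z) (w : R4) : cd z w = 0 :=
  le_antisymm (by simpa [← h] using cd_le z w) (cd_nonneg _ _)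

/-- the excess is integrable -/
theorem VC.exc_int (h : VC D W μ) (F : Fr D W U A χ ε C) (hx : x ∈ U) : Integrable
    (fun q : R4 × R4 => χ q.1 * (n2 (A x (q.1 - x)))⁻¹ ^ 2 * cd (A x (q.1 - x)) (A x q.2)) μ := by
  have := F.cχ
  have m1 : Measurable fun q : R4 × R4 => n2 (A x (q.1 - x)) := (by fun_prop : Continuous _).measurable
  have m2 : Measurable fun q : R4 × R4 => cd (A x (q.1 - x)) (A x q.2) :=
    (by fun_prop : Continuous _).measurable
  have p0 : ∀ n : ℕ, (0 : ℝ) < 1 / (n + 1) := fun n => Nat.one_div_pos_of_nat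
  have n0 : ∀ (q : R4 × R4) (k : ℝ), 0 ≤ χ q.1 * k ^ 2 * cd (A x (q.1 - x)) (A x q.2) := fun q k => by
    have := F.χ0 q.1; have := cd_nonneg (A x (q.1 - x)) (A x q.2); positivity
  refine ⟨(((F.cχ.measurable.comp measurable_fst).mul (m1.inv.pow_const 2)).mul
    m2).aestronglyMeasurable, (hasFiniteIntegral_iff_ofReal (.of_forall fun q => n0 q _)).2 ?_⟩
  have h1 := lintegral_liminf_le (μ := μ) (u := atTop) (f := fun (n : ℕ) q => ENNReal.ofReal (χ q.1 *
    rk (1 / (n + 1)) (A x (q.1 - x)) ^ 2 * cd (A x (q.1 - x)) (A x q.2))) fun n => by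
      have := p0 n
      exact (by fun_prop (disch := assumption) : Continuous _).measurable.ennreal_ofReal
  refine lt_of_le_of_lt (le_trans (le_of_eq (lintegral_congr fun q => (Tendsto.liminf_eq
    (ENNReal.tendsto_ofReal ?_)).symm)) (h1.trans (liminf_le_of_frequently_le' (Frequently.of_forall
      fun n => ?_)))) (ENNReal.ofReal_lt_top (r := 10 * C ^ 5 * μ.real univ))
  · rcases (n2_nonneg (A x (q.1 - x))).eq_or_lt with h0 | h0
    · simp only [cd_zero h0, mul_zero, tendsto_const_nhds]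
    · refine (Tendsto.const_mul _ (Tendsto.pow ?_ 2)).mul_const _
      simpa [rk] using (tendsto_one_div_add_atTop_nhds_zero_nat.const_add
        (n2 (A x (q.1 - x)))).inv₀ (by simpa using h0.ne')
  · have := p0 n
    rw [← ofReal_integral_eq_lintegral_ofReal (h.int (by fun_prop (disch := assumption)))
      (.of_forall fun q => n0 q _)]
    exact ENNReal.ofReal_le_ofReal (h.Ex_le F hx (p0 n))

/-- the excess tends to zero -/
theorem VC.exc (h : VC D W μ) (F : Fr D W U A χ ε C) (hx : x ∈ U) {δ : ℝ} (hδ : 0 < δ) :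
    ∀ᶠ ρ in 𝓝[>] (0 : ℝ), ∫ q in {q | n2 (A x (q.1 - x)) < ρ}, cd (A x (q.1 - x)) (A x q.2) ∂μ ≤
      δ * ρ ^ 2 := by
  have hi := h.exc_int F hx
  have m1 : ∀ ρ, MeasurableSet {q : R4 × R4 | n2 (A x (q.1 - x)) < ρ} := fun ρ =>
    (isOpen_lt (by fun_prop) continuous_const).measurableSet
  have h1 := tendsto_integral_filter_of_dominated_convergence (l := 𝓝[>] (0 : ℝ)) (f := fun _ => 0)
    _ (.of_forall fun ρ => (hi.indicator (m1 ρ)).1) (.of_forall fun ρ => .of_forall fun q =>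
      norm_indicator_le_norm_self _ _) hi.norm (.of_forall fun q => by
        rcases (n2_nonneg (A x (q.1 - x))).eq_or_lt with h0 | h0
        · simp only [indicator, cd_zero h0, mul_zero, ite_self, tendsto_const_nhds]
        · refine tendsto_const_nhds.congr' ?_
          filter_upwards [Ioc_mem_nhdsGT h0] with ρ hρ
          rw [indicator_of_notMem (by simpa using hρ.2)])
  have C0 : 0 < C := lt_of_lt_of_le one_pos F.C1
  filter_upwards [h1.eventually (gt_mem_nhds (by simpa using hδ)), Ioc_mem_nhdsGT (inv_pos.2 C0)]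
    with ρ h2 h3
  rw [integral_indicator (m1 ρ)] at h2
  refine le_trans ?_ (mul_le_mul_of_nonneg_right h2.le (sq_nonneg ρ))
  rw [← integral_mul_const]
  refine setIntegral_mono_on (h.int (by fun_prop)).integrableOn (hi.mul_const _).integrableOn
    (m1 ρ) fun q hq => ?_
  have hq : n2 (A x (q.1 - x)) < ρ := hq
  have c1 : χ q.1 = 1 := ((F.far x hx q.1).resolve_right (not_le.2 (by
    have := (le_inv_comm₀ h3.1 C0).1 h3.2
    rw [mul_comm, ← lt_div_iff₀ C0, one_div]; exact hq.trans_le h3.2))).1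
  rcases (n2_nonneg (A x (q.1 - x))).eq_or_lt with h0 | h0
  · simp only [cd_zero h0, mul_zero, zero_mul, le_refl]
  · rw [c1, one_mul, mul_right_comm, ← mul_pow]
    refine le_mul_of_one_le_left (cd_nonneg _ _) (one_le_pow₀ ?_)
    rw [← div_eq_inv_mul, le_div_iff₀ h0]; linarith

end Vale.Agent.P247N
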