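import Vale.Agent.P247N.Ker
import Vale.Agent.P247N.Mon

/-!
# P247, block N, row `INT`: the tangent line of a current of density one
-/

set_option linter.all false

open scoped ContDiff Topology
open Set MeasureTheory Filter Metric Asymptotics

noncomputable section

namespace Vale.Agent.P247N.It

open Vale.Agent.P247.H74 (R4 Data cm)
open Vale.Agent.P247.H574 (F2)
open Vale.Agent.P247N.Kr

variable {D : Data} {W U : Set R4} {A : R4 → R4 →L[ℝ] R4} {χ : R4 → ℝ} {ε C : ℝ}
  {x : R4} {r : Measure R4} {w : Fin 2 → R4 → R4}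

theorem sc_lim {m : ℝ} (hm : 0 < m) : Tendsto (fun a : ℝ => m * a) (𝓝[>] 0) (𝓝[>] 0) :=
  tendsto_nhdsWithin_iff.2 ⟨by
    simpa using ((continuous_const_mul m).tendsto (0 : ℝ)).mono_left nhdsWithin_le_nhds,
    eventually_mem_nhdsWithin.mono fun a ha => mul_pos hm ha⟩

/-- lower bound for the mass of balls -/
theorem low (h : PC D W r w) (F : Fr D W U A χ ε C) : ∃ M, 1 ≤ M ∧ ∀ᶠ a in 𝓝[>] (0 : ℝ), ∀ y ∈ U,
    nu D r y = Real.pi → a ≤ r.real {z | qf D y (z - y) < M * a} := by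
  have := h.fin
  have := F.C1
  set B := 312 * C ^ 6 * r.real univ with hB
  have B0 : 0 ≤ B := by positivity
  have M0 : 0 < 4 * B + 1 := by positivity
  refine ⟨4 * B + 1, by linarith, ?_⟩
  filter_upwards [ev_Ioc, (sc_lim M0).eventually ev_Ioc, (sqrt2_lim.const_mul B).eventually
    (gt_mem_nhds (show B * 0 < 1 by simp))] with a ha hM h1 y hy hn
  have h2 := ((h.lim F hy).2.2 a ha.1 ha.2).2
  have h3 := ((h.lim F hy).2.2 _ hM.1 hM.2).1
  have mS : MeasurableSet {z | qf D y (z - y) < (4 * B + 1) * a} :=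
    (isOpen_lt (by fun_prop) continuous_const).measurableSet
  have i1 := (integrable_const (μ := r) (1 / a)).indicator mS
  have i2 := (integrable_Th D y r hM.1).const_mul (4 / (4 * B + 1))
  have h4 := integral_mono (integrable_Th D y r ha.1) (i1.add i2) fun z => by
    have k1 := kn_nonneg hM.1 (qf D y (z - y))
    by_cases hz : z ∈ {z | qf D y (z - y) < (4 * B + 1) * a}
    · simp only [Pi.add_apply, indicator_of_mem hz]
      exact le_add_of_le_of_nonneg (kn_le ha.1 (qf_nonneg _ _ _)) (by positivity)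
    · simp only [Pi.add_apply, indicator_of_notMem hz, zero_add]
      exact kn_tail ha.1 M0 (not_lt.1 hz)
  simp only [Pi.add_apply] at h4
  rw [integral_add i1 i2, integral_const_mul, integral_indicator_const _ mS, smul_eq_mul] at h4
  have h5 : 4 / (4 * B + 1) * Th D r y ((4 * B + 1) * a) ≤ 1 := by
    rw [div_mul_eq_mul_div, div_le_one M0]; linarith
  have h6 : 1 ≤ r.real {z | qf D y (z - y) < (4 * B + 1) * a} * (1 / a) := by
    unfold Th at h2 h5; linarith [Real.pi_gt_three]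
  rwa [mul_one_div, one_le_div ha.1] at h6

theorem set_vm (h : PC D W r w) {Φ : R4 × R4 → ℝ} (hΦ : Continuous Φ) {S : Set R4}
    (hS : MeasurableSet S) :
    ∫ q in {q | q.1 ∈ S}, Φ q ∂vm r w = ∫ y in S, ∑ i, Φ (y, w i y) ∂r := by
  have h1 := integrable_add_measure.1 (h.cs.int hΦ)
  have m : MeasurableSet {q : R4 × R4 | q.1 ∈ S} := measurable_fst hS
  rw [vm, Measure.restrict_add, integral_add_measure h1.1.integrableOn h1.2.integrableOn,
    setIntegral_map m hΦ.aestronglyMeasurable (h.mp 0).aemeasurable,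
    setIntegral_map m hΦ.aestronglyMeasurable (h.mp 1).aemeasurable]
  simp only [Fin.sum_univ_two]
  exact (integral_add (h.int hΦ 0).integrableOn (h.int hΦ 1).integrableOn).symm

theorem w_le (h : PC D W r w) : ∃ R, ∀ y ∈ W, ‖fun i => w i y‖ ≤ R := by
  obtain ⟨c, c0, hc⟩ := qf_lo D
  refine ⟨c⁻¹ + 1, fun y hy => (pi_norm_le_iff_of_nonneg (by positivity)).2 fun i => ?_⟩
  have h1 := (hc y (w i y)).trans (h.le_one hy i)
  have h2 : ‖w i y‖ ^ 2 ≤ c⁻¹ := by rw [← one_div, le_div_iff₀ c0]; linarith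
  nlinarith [sq_nonneg (‖w i y‖ - 1), inv_pos.2 c0]

/-- the excess -/
def ex (A : R4 →L[ℝ] R4) (w : Fin 2 → R4) (v : R4) : ℝ := ∑ i, cd (A v) (A (w i))

theorem exc (h : PC D W r w) (F : Fr D W U A χ ε C) (hx : x ∈ U) (hW : x ∈ W)
    (hL : Tendsto (fun ρ => ⨍ y in closedBall x ρ, ‖(fun i => w i y) - fun i => w i x‖ ∂r) (𝓝[>] 0)
      (𝓝 0)) {δ : ℝ} (hδ : 0 < δ) : ∀ᶠ ρ in 𝓝[>] (0 : ℝ),
    ∫ y in {y | n2 (A x (y - x)) < ρ}, ex (A x) (fun i => w i x) (y - x) ∂r ≤ δ * ρ ^ 2 := by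
  have := h.fin
  have := F.C1
  obtain ⟨R, hR⟩ := w_le h
  set f : R4 → ℝ := fun y => ‖(fun i => w i y) - fun i => w i x‖ with hf
  have mf : AEStronglyMeasurable f r :=
    ((measurable_pi_lambda _ h.meas).sub_const _).norm.aestronglyMeasurable
  have bf : ∀ᵐ y ∂r, 0 ≤ f y ∧ f y ≤ 2 * R := h.ae.mono fun y hy =>
    ⟨norm_nonneg _, (norm_sub_le _ _).trans (by linarith [hR y hy, hR x hW])⟩
  have R0 : 0 ≤ R := (norm_nonneg _).trans (hR x hW)
  have h1 := (LEB D x r (ev_Ioc.mono fun a ha => ((h.lim F hx).2.2 a ha.1 ha.2).1) mf bf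
    hL).const_mul (128 * C * R)
  rw [mul_zero] at h1
  filter_upwards [h.vc.exc F hx (show 0 < δ / 4 by positivity), self_mem_nhdsWithin,
    h1.eventually (gt_mem_nhds (half_pos hδ))] with ρ h2 (ρ0 : 0 < ρ) h3
  have mS : MeasurableSet {y | n2 (A x (y - x)) < ρ} :=
    (isOpen_lt (by fun_prop) continuous_const).measurableSet
  have c1 : Continuous fun q : R4 × R4 => cd (A x (q.1 - x)) (A x q.2) := by fun_prop
  have h4 := (set_vm h c1 mS).ge.trans h2
  have i1 := integrable_finset_sum Finset.univ fun i _ => h.int c1 i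
  have i2 := (integrable_Th D x r ρ0).mul_bdd mf (bf.mono fun y hy => by
    rw [Real.norm_of_nonneg hy.1]; exact hy.2)
  have i3 : Integrable (fun y => ex (A x) (fun i => w i x) (y - x)) r :=
    h.int (Φ := fun q => ex (A x) (fun i => w i x) (q.1 - x)) (by unfold ex; fun_prop) 0
  have h5 := setIntegral_mono_ae_restrict i3.integrableOn ((i1.const_mul 2).add
      (i2.const_mul (ρ ^ 2 * (128 * C * R)))).integrableOn (s := {y | n2 (A x (y - x)) < ρ}) (by
    filter_upwards [ae_restrict_mem mS, ae_restrict_of_ae bf] with y (hy : n2 _ < ρ) hb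
    have k1 := kn_ge ρ0 (n2_nonneg _) hy.le
    rw [div_le_iff₀ (by positivity), ← F.qA x hx] at k1
    have k2 : ∀ i, cd (A x (y - x)) (A x (w i x)) ≤ 2 * cd (A x (y - x)) (A x (w i y)) +
        ρ ^ 2 * (64 * C * R) * (kn ρ (qf D x (y - x)) * f y) := fun i => by
      have k3 := cd_sub_le (A x (y - x)) (A x (w i y)) (A x (w i y - w i x))
      rw [← map_sub, sub_sub_cancel] at k3
      have k4 : ‖w i y - w i x‖ ≤ f y := norm_le_pi_norm ((fun i => w i y) - fun i => w i x) i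
      have k5 : n2 (A x (w i y - w i x)) ≤ C * (4 * (f y * (2 * R))) :=
        (F.hi x hx _).trans (mul_le_mul_of_nonneg_left ((n2_le _).trans (by
          linarith [mul_le_mul k4 (k4.trans hb.2) (norm_nonneg _) hb.1])) (by linarith))
      have k6 := (cd_le _ _).trans (mul_le_mul hy.le k5 (n2_nonneg _) ρ0.le)
      have k7 := mul_le_mul_of_nonneg_left k1 (show 0 ≤ ρ * (C * (4 * (f y * (2 * R)))) by
        have := hb.1; positivity)
      nlinarith
    simp only [ex, Fin.sum_univ_two, Pi.add_apply]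
    linarith [k2 0, k2 1])
  simp only [Pi.add_apply] at h5
  rw [integral_add (i1.const_mul 2).integrableOn (i2.const_mul _).integrableOn, integral_const_mul,
    integral_const_mul] at h5
  have h6 := setIntegral_le_integral (s := {y | n2 (A x (y - x)) < ρ}) i2
    (bf.mono fun y hy => mul_nonneg (kn_nonneg ρ0 _) hy.1)
  have h7 := mul_le_mul_of_nonneg_left h6 (show 0 ≤ 128 * C * R by positivity)
  nlinarith [mul_le_mul_of_nonneg_left (h7.trans h3.le) (sq_nonneg ρ)]

theorem ex_nonneg (A : R4 →L[ℝ] R4) (w : Fin 2 → R4) (v : R4) : 0 ≤ ex A w v :=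
  Finset.sum_nonneg fun _ _ => cd_nonneg _ _

theorem cone (h : PC D W r w) (F : Fr D W U A χ ε C) (hx : x ∈ U) (hW : x ∈ W)
    (hL : Tendsto (fun ρ => ⨍ y in closedBall x ρ, ‖(fun i => w i y) - fun i => w i x‖ ∂r) (𝓝[>] 0)
      (𝓝 0)) {η : ℝ} (hη : 0 < η) (η1 : η ≤ 1) : ∀ᶠ y in 𝓝 x, nu D r y = Real.pi →
    ex (A x) (fun i => w i x) (y - x) ≤ 4 * η * n2 (A x (y - x)) := by
  have := h.fin
  have := F.C1
  obtain ⟨M, M1, h1⟩ := low h F
  have s1 : ∑ i, n2 (A x (w i x)) = 1 := by simp only [← F.qA x hx, h.nrm x hW]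
  have h2 := ((sc_lim (show 0 < η / (M * C) by positivity)).eventually h1).and
    ((sc_lim four_pos).eventually (exc h F hx hW hL (show 0 < η ^ 2 / (M * C) / 32 by positivity)))
  have h3 : Tendsto (fun y => n2 (A x (y - x))) (𝓝 x) (𝓝 0) :=
    Continuous.tendsto' (by fun_prop) _ _ (by simp [n2])
  filter_upwards [h3.eventually (eventually_nhdsWithin_iff.1 h2), F.opn.mem_nhds hx]
    with y hy hU hn
  set t := n2 (A x (y - x)) with ht
  rcases (n2_nonneg (A x (y - x))).eq_or_lt with h0 | h0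
  · simp only [ex, cd_zero h0, ht, ← h0, mul_zero, Finset.sum_const_zero, le_refl]
  obtain ⟨h4, h5⟩ := hy h0
  have h6 := h4 y hU hn
  set S := {z | qf D y (z - y) < M * (η / (M * C) * t)}
  have mS : MeasurableSet S := (isOpen_lt (by fun_prop) continuous_const).measurableSet
  have k1 : ∀ z ∈ S, n2 (A x (z - y)) < η * t := fun z hz => (F.cq x hx y _).trans_lt
    ((mul_lt_mul_of_pos_left hz (by linarith)).trans_eq (by field_simp))
  have i3 : Integrable (fun y => ex (A x) (fun i => w i x) (y - x)) r :=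
    h.int (Φ := fun q => ex (A x) (fun i => w i x) (q.1 - x)) (by unfold ex; fun_prop) 0
  by_contra! hc
  have h7 := setIntegral_mono_on (integrable_const (η * t)) i3.integrableOn mS fun z hz => by
    have k2 : ∀ i, cd (A x (y - x)) (A x (w i x)) ≤ 2 * cd (A x (z - x)) (A x (w i x)) +
        2 * (η * t * n2 (A x (w i x))) := fun i => by
      have k3 := cd_sub_le (A x (w i x)) (A x (z - x)) (A x (z - y))
      rw [← map_sub, sub_sub_sub_cancel_left, cd_comm, cd_comm _ (A x (z - x)),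
        cd_comm _ (A x (z - y))] at k3
      linarith [cd_le (A x (z - y)) (A x (w i x)),
        mul_le_mul_of_nonneg_right (k1 z hz).le (n2_nonneg (A x (w i x)))]
    simp only [ex, Fin.sum_univ_two] at hc s1 ⊢
    have k4 := congrArg (η * t * ·) s1
    simp only [mul_add] at k4
    linarith [k2 0, k2 1]
  have h8 := (setIntegral_mono_set i3.integrableOn (.of_forall fun _ => ex_nonneg _ _ _)
    (HasSubset.Subset.eventuallyLE (s := S) fun z hz => by
      have k2 := n2_add_le (A x (z - y)) (A x (y - x))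
      rw [← map_add, sub_add_sub_cancel] at k2
      show n2 (A x (z - x)) < 4 * t
      nlinarith [k1 z hz])).trans h5
  rw [setIntegral_const, smul_eq_mul] at h7
  have h9 := (mul_le_mul_of_nonneg_right h6 (show 0 ≤ η * t by positivity)).trans (h7.trans h8)
  have h10 : 0 < η ^ 2 / (M * C) * t ^ 2 := by positivity
  have h11 : η / (M * C) * t * (η * t) = η ^ 2 / (M * C) * t ^ 2 := by ring
  linarith

theorem line (h : PC D W r w) (F : Fr D W U A χ ε C) (hx : x ∈ U) (hW : x ∈ W)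
    (hn : ∀ᵐ x ∂r, nu D r x = Real.pi) (hs : x ∈ r.support)
    (hL : Tendsto (fun ρ => ⨍ y in closedBall x ρ, ‖(fun i => w i y) - fun i => w i x‖ ∂r) (𝓝[>] 0)
      (𝓝 0)) : ∃ u, n2 (A x u) = 1 ∧ ∀ i, cd (A x u) (A x (w i x)) = 0 := by
  have := h.fin
  have := F.C1
  have h0 : r {x} = 0 := by
    have h1 : Tendsto (fun a : ℝ => 4 * a * (312 * C ^ 6 * r.real univ)) (𝓝[>] 0) (𝓝 0) :=
      (Continuous.tendsto' (by fun_prop) _ _ (by simp)).mono_left nhdsWithin_le_nhds
    rw [← measureReal_eq_zero_iff, ← closedBall_zero]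
    refine le_antisymm (ge_of_tendsto h1 (ev_Ioc.mono fun a ha => ?_)) measureReal_nonneg
    exact (real_ball_le D x r ha.1 (by simpa using ha.1.le)).trans (mul_le_mul_of_nonneg_left
      ((h.lim F hx).2.2 a ha.1 ha.2).1 (by linarith [ha.1]))
  have hom : ∀ (c : ℝ) v, ex (A x) (fun i => w i x) (c • v) = c ^ 2 * ex (A x) (fun i => w i x) v :=
    fun c v => by simp [ex, cd, c1, c2]; ring
  obtain ⟨v, hv, hm⟩ := (isCompact_sphere (0 : R4) 1).exists_isMinOn
    (NormedSpace.sphere_nonempty.2 zero_le_one)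
    (show Continuous (ex (A x) fun i => w i x) by unfold ex; fun_prop).continuousOn
  rw [mem_sphere_zero_iff_norm] at hv
  have h1 : ex (A x) (fun i => w i x) v = 0 := by
    refine le_antisymm (le_of_forall_pos_le_add fun δ hδ => ?_) (ex_nonneg _ _ _)
    have h2 := cone h F hx hW hL (η := min 1 (δ / (16 * C))) (by positivity) (min_le_left _ _)
    obtain ⟨y, h3, h4, h5⟩ := Measure.exists_mem_of_measure_ne_zero_of_ae
      (Measure.mem_support_iff_forall x |>.1 hs _ h2).ne' (ae_restrict_of_ae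
        (hn.and (measure_eq_zero_iff_ae_notMem.1 h0)))
    have hu := norm_pos_iff.2 (sub_ne_zero.2 h5)
    have h6 : ex (A x) (fun i => w i x) v ≤ _ := hm (a := ‖y - x‖⁻¹ • (y - x))
      (by simp [norm_smul, hu.ne'])
    rw [hom, inv_pow, ← div_eq_inv_mul, le_div_iff₀ (by positivity)] at h6
    have h7 := (F.hi x hx _).trans (mul_le_mul_of_nonneg_left (n2_le (y - x)) (by linarith))
    have h8 := (h6.trans (h3 h4)).trans (mul_le_mul (mul_le_mul_of_nonneg_left (min_le_right _ _)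
      four_pos.le) h7 (n2_nonneg _) (by positivity))
    rw [show 4 * (δ / (16 * C)) * (C * (4 * ‖y - x‖ ^ 2)) = δ * ‖y - x‖ ^ 2 by field_simp; ring] at h8
    rw [zero_add]
    exact le_of_mul_le_mul_right h8 (by positivity)
  have h2 : 0 < n2 (A x v) := F.qA x hx v ▸ D.tame x v (norm_pos_iff.1 (by simp [hv]))
  refine ⟨(√(n2 (A x v)))⁻¹ • v, ?_, fun i => ?_⟩
  · rw [← F.qA x hx, qf_smul, F.qA x hx, inv_pow, Real.sq_sqrt h2.le, inv_mul_cancel₀ h2.ne']
  · exact (Finset.sum_eq_zero_iff_of_nonneg fun _ _ => cd_nonneg _ _).1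
      ((hom _ v).trans (by rw [h1, mul_zero])) i (Finset.mem_univ i)

/-- the tangent line -/
theorem tan (h : PC D W r w) (hn : ∀ᵐ x ∂r, nu D r x = Real.pi) : ∀ᵐ x ∂r,
    Tendsto (Th D r x) (𝓝[>] 0) (𝓝 Real.pi) ∧ ∃ (u : R4) (Z : R4 →L[ℝ] ℂ),
    (∀ φ : F2, (∀ a b, φ a b = -φ b a) → ∑ i, φ (w i x) (D.J x (w i x)) = φ u (D.J x u)) ∧
    (∀ v, qf D x v = ‖Z v‖ ^ 2 + qf D x (v - cm D x (Z v) u)) ∧
    (fun y => qf D x (y - x - cm D x (Z (y - x)) u)) =o[𝓝[{y | nu D r y = Real.pi}] x]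
      fun y => qf D x (y - x) := by
  have := h.fin
  obtain ⟨R, hR⟩ := w_le h
  filter_upwards [h.ae, hn, r.support_mem_ae, ae_leb r ((integrable_const R).mono'
    (measurable_pi_lambda _ h.meas).aestronglyMeasurable (h.ae.mono hR))] with x hW h1 hs hL
  obtain ⟨U, A, χ, ε, C, hx, -, F⟩ := exists_fr D h.opn hW
  obtain ⟨u, h2, h3⟩ := line h F hx hW hn hs hL
  obtain ⟨Z, z1, z2⟩ : ∃ Z : R4 →L[ℝ] ℂ, (∀ v, (Z v).re = ip (A x u) (A x v)) ∧
      ∀ v, (Z v).im = ip (i0 (A x u)) (A x v) := ⟨Complex.equivRealProdCLM.symm ∘L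
        ((ipL (A x u) ∘L A x).prod (ipL (i0 (A x u)) ∘L A x)), fun v => ipL_apply _ _,
        fun v => ipL_apply _ _⟩
  have e0 : ∀ ζ, A x (cm D x ζ u) = ζ.re • A x u - (-ζ.im) • i0 (A x u) := fun ζ => by
    simp [cm, F.cx x hx]
  have e1 : ∀ v, ‖Z v‖ ^ 2 = ip (A x u) (A x v) ^ 2 + ip (i0 (A x u)) (A x v) ^ 2 := fun v => by
    rw [Complex.sq_norm, Complex.normSq_apply, z1, z2]; ring
  have e2 : ∀ v, qf D x v = ‖Z v‖ ^ 2 + cd (A x u) (A x v) := fun v => by
    have := lagr (A x u) (A x v)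
    rw [h2, one_mul] at this
    rw [F.qA x hx, e1]; linarith
  have e3 : ∀ v, qf D x (v - cm D x (Z v) u) = cd (A x u) (A x v) := fun v => by
    have k : ∀ a z : R4, n2 (z - (ip a z • a - (-ip (i0 a) z) • i0 a)) =
        n2 z - (ip a z ^ 2 + ip (i0 a) z ^ 2) * (2 - n2 a) := fun a z => by simp [n2, ip]; ring
    rw [F.qA x hx, map_sub, e0, z1, z2, k, h2, ← F.qA x hx, e2, e1]; ring
  have e4 : ∀ i, w i x = cm D x (Z (w i x)) u := fun i => by
    by_contra k
    exact (D.tame x _ (sub_ne_zero.2 k)).ne' ((e3 _).trans (h3 i))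
  have e5 : ∑ i, ‖Z (w i x)‖ ^ 2 = 1 := by simpa only [e2, h3, add_zero] using h.nrm x hW
  refine ⟨h1 ▸ (h.lim F hx).2.1, u, Z, fun φ hφ => ?_, fun v => by rw [e3, e2], ?_⟩
  · rw [← one_mul (φ u _), ← e5, Finset.sum_mul]
    refine Finset.sum_congr rfl fun i _ => ?_
    conv_lhs => rw [e4 i]
    have k1 : φ u u = 0 := by linarith [hφ u u]
    have k2 : φ (D.J x u) (D.J x u) = 0 := by linarith [hφ (D.J x u) (D.J x u)]
    simp [cm, D.J_sq, k1, k2, hφ (D.J x u) u, Complex.sq_norm, Complex.normSq_apply]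
    ring
  · refine isLittleO_iff.2 fun c hc => eventually_nhdsWithin_iff.2 ?_
    filter_upwards [cone h F hx hW hL (η := min 1 (c / 4)) (by positivity) (min_le_left _ _)]
      with y k1 k2
    have k3 : ex (A x) (fun i => w i x) (y - x) = cd (A x u) (A x (y - x)) := by
      rw [← one_mul (cd _ _), ← e5, Finset.sum_mul, cd_comm]
      refine Finset.sum_congr rfl fun i _ => ?_
      beta_reduce
      conv_lhs => rw [e4 i, e0, cd_cx]
      rw [Complex.sq_norm, Complex.normSq_apply]; ring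
    rw [Real.norm_of_nonneg (qf_nonneg _ _ _), Real.norm_of_nonneg (qf_nonneg _ _ _), e3, ← k3,
      F.qA x hx]
    exact (k1 k2).trans (mul_le_mul_of_nonneg_right (by linarith [min_le_right 1 (c / 4)])
      (n2_nonneg _))

end Vale.Agent.P247N.It
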