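import Vale.Agent.P247N.Int1
import Vale.Agent.P247N.Int2
import Vale.Agent.P247.H899.Sheets

/-!
# P247, block N, row `INT`: a current of density one has integral slices
-/

set_option linter.all false

open scoped ContDiff Topology
open Set MeasureTheory Filter Metric Asymptotics

noncomputable section

namespace Vale.Agent.P247N.It

open Vale.Agent.P247.H74 (R4 Data cm)
open Vale.Agent.P247.H574 (F2 Box PD IsPush IntM dd)
open Vale.Agent.P247.H899
open Vale.Agent.P247N.Kr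

variable {D : Data} {W : Set R4} {r : Measure R4} {w : Fin 2 → R4 → R4} (b : Box D)

/-- the inverse chart, extended by zero -/
def iv : R4 → ℂ × ℂ := (b.Θ '' PD 2).indicator (inv b)

/-- the density of the area form of the first coordinate -/
def h0 (w : Fin 2 → R4 → R4) (y : R4) : ℝ :=
  ∑ i, lam (fderiv ℝ (inv b) y (w i y)) (fderiv ℝ (inv b) y (D.J y (w i y)))

/-- the same, cut off -/
def hd (w : Fin 2 → R4 → R4) : R4 → ℝ := (b.Θ '' PD 1).indicator (h0 b w)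

/-- the measure in the box -/
def mu (r : Measure R4) (w : Fin 2 → R4 → R4) : Measure (ℂ × ℂ) :=
  (r.withDensity fun y => ENNReal.ofReal (hd b w y)).map (iv b)

theorem PD12 : PD 1 ⊆ PD 2 := PD_mono one_le_two

theorem meas_iv : Measurable (iv b) := by
  classical
  rw [iv, ← piecewise_eq_indicator]
  exact (contDiffOn_inv b).continuousOn.measurable_piecewise continuousOn_const
    (isOpen_image b (isOpen_PD 2) le_rfl).measurableSet

theorem iv_Θ {p : ℂ × ℂ} (hp : p ∈ PD 2) : iv b (b.Θ p) = p := by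
  rw [iv, indicator_of_mem (mem_image_of_mem _ hp), inv_Θ b hp]

theorem dΘ_inv {p : ℂ × ℂ} (hp : p ∈ PD 2) (u : R4) :
    fderiv ℝ b.Θ p (fderiv ℝ (inv b) (b.Θ p) u) = u := by
  obtain ⟨v, rfl⟩ := surj_dΘ b hp u
  rw [fderiv_inv_comp b hp]

theorem ld_eq {p : ℂ × ℂ} (hp : p ∈ PD 2) {φ : R4 → F2} {t : ℝ}
    (h : ∀ a c, φ (b.Θ p) (fderiv ℝ b.Θ p a) (fderiv ℝ b.Θ p c) = t * lam a c) :
    ld D w φ (b.Θ p) = t * h0 b w (b.Θ p) := by
  simp only [ld, h0, Finset.mul_sum, ← h, dΘ_inv b hp]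

theorem hd_nonneg (y : R4) : 0 ≤ hd b w y := by
  refine indicator_nonneg ?_ y
  rintro _ ⟨p, hp, rfl⟩
  refine Finset.sum_nonneg fun i _ => ?_
  obtain ⟨v, hv⟩ := surj_dΘ b (PD12 hp) (w i (b.Θ p))
  obtain ⟨c, h1, h2, h3⟩ := exists_J b (PD12 hp) v
  have h4 := (Hm_a b p 1 v c).symm.trans (Hm_J b p 1 0 0 h1 h2)
  rw [← hv, h3, fderiv_inv_comp b (PD12 hp), fderiv_inv_comp b (PD12 hp), lam_apply]
  refine nonneg_of_mul_nonneg_right ?_ (one_sub_pos b (PD12 hp))
  simp only [one_mul, zero_mul, Complex.zero_re, mul_zero, add_zero] at h4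
  rw [h4]; positivity

theorem meas_hd (h : PC D W r w) : Measurable (hd b w) := by
  refine (Finset.measurable_sum _ fun i _ => ?_).indicator
    (isOpen_image b (isOpen_PD 1) PD12).measurableSet
  have c : Continuous fun q : (R4 →L[ℝ] ℂ × ℂ) × R4 × R4 => lam (q.1 q.2.2)
      (q.1 (D.J q.2.1 q.2.2)) := (lam.continuous.comp (continuous_fst.clm_apply
    continuous_snd.snd)).clm_apply (continuous_fst.clm_apply
      (cont_J continuous_snd.fst continuous_snd.snd))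
  have m := c.measurable.comp ((measurable_fderiv ℝ (inv b)).prodMk (h.mp i))
  exact m

theorem hd_le (h : PC D W r w) (hb : b.Θ '' PD 2 ⊆ W) : ∃ B, ∀ y, hd b w y ≤ B := by
  obtain ⟨R, hR⟩ := w_le h
  have k : closedBall 0 1 ×ˢ closedBall 0 1 ⊆ PD 2 :=
    prod_mono (closedBall_subset_ball one_lt_two) (closedBall_subset_ball one_lt_two)
  have c1 : ContinuousOn (fun q : R4 × R4 => fderiv ℝ (inv b) q.1)
      ((b.Θ '' (closedBall 0 1 ×ˢ closedBall 0 1)) ×ˢ closedBall 0 R) :=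
    ((contDiffOn_inv b).continuousOn_fderiv_of_isOpen (isOpen_image b (isOpen_PD 2) le_rfl)
      (by simp)).comp continuousOn_fst fun q hq => image_mono k hq.1
  obtain ⟨B, hB⟩ := ((isCompact_image b ((isCompact_closedBall _ _).prod (isCompact_closedBall _ _))
    k).prod (isCompact_closedBall (0 : R4) R)).exists_bound_of_continuousOn
    ((lam.continuous.comp_continuousOn (c1.clm_apply continuousOn_snd)).clm_apply
      (c1.clm_apply (cont_J (D := D) continuous_fst continuous_snd).continuousOn))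
  refine ⟨∑ _i : Fin 2, |B|, fun y => indicator_le' (fun y hy => Finset.sum_le_sum fun i _ =>
    ((le_abs_self _).trans (hB (y, w i y) ⟨image_mono (Set.prod_mono ball_subset_closedBall
      ball_subset_closedBall) hy, mem_closedBall_zero_iff.2 ((norm_le_pi_norm (fun i => w i y)
        i).trans (hR y (hb (image_mono PD12 hy))))⟩)).trans (le_abs_self B))
    (fun _ _ => by positivity) y⟩

theorem int_hd (h : PC D W r w) (hb : b.Θ '' PD 2 ⊆ W) : Integrable (hd b w) r := by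
  obtain ⟨B, hB⟩ := hd_le b h hb
  have := h.fin
  exact (integrable_const B).mono' (meas_hd b h).aestronglyMeasurable (.of_forall fun y => by
    rw [Real.norm_of_nonneg (hd_nonneg b y)]; exact hB y)

theorem fin_mu (h : PC D W r w) (hb : b.Θ '' PD 2 ⊆ W) : IsFiniteMeasure (mu b r w) := by
  have := isFiniteMeasure_withDensity_ofReal (int_hd b h hb).2
  unfold mu; infer_instance

theorem int_mu (h : PC D W r w) {f : ℂ × ℂ → ℝ} (hf : Measurable f) :
    ∫ p, f p ∂mu b r w = ∫ y, hd b w y * f (iv b y) ∂r := by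
  rw [mu, integral_map (meas_iv b).aemeasurable hf.aestronglyMeasurable,
    integral_withDensity_eq_integral_toReal_smul (meas_hd b h).ennreal_ofReal
      (.of_forall fun _ => ENNReal.ofReal_lt_top)]
  simp only [ENNReal.toReal_ofReal (hd_nonneg b _), smul_eq_mul]

theorem int_box (h : PC D W r w) {S : Set (ℂ × ℂ)} (hS : MeasurableSet S) {g : ℂ → ℝ}
    (hg : Measurable g) : ∫ z, g z ∂((mu b r w).restrict S).fst =
      ∫ y, hd b w y * S.indicator (fun p => g p.1) (iv b y) ∂r := by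
  rw [Measure.fst, integral_map measurable_fst.aemeasurable hg.aestronglyMeasurable,
    ← integral_indicator hS]
  exact int_mu b h ((hg.comp measurable_fst).indicator hS)

/-- the projection of one sheet is closed -/
theorem clo (h : PC D W r w) (hb : b.Θ '' PD 2 ⊆ W) {K : Set R4} (hK : ∀ᵐ y ∂r, y ∈ K) {z₀ y₀ : ℂ}
    {ρ δ : ℝ} (hδ : 0 < δ) (h1 : ball z₀ ρ ×ˢ ball y₀ δ ⊆ PD 1)
    (h2 : ∀ p ∈ ball z₀ ρ ×ˢ ball y₀ δ, b.Θ p ∈ K → p.2 ∈ ball y₀ (δ / 2)) (ζ : ℂ → ℝ)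
    (hζ : ContDiff ℝ ∞ ζ) (hs : tsupport ζ ⊆ ball z₀ ρ) (v : ℂ) :
    ∫ z, fderiv ℝ ζ z v ∂((mu b r w).restrict (ball z₀ ρ ×ˢ ball y₀ δ)).fst = 0 := by
  obtain ⟨L, hL⟩ : ∃ L : ℂ →L[ℝ] ℝ, ∀ (E : ℂ →L[ℝ] ℝ) (a c : ℂ × ℂ),
      E a.1 * L c.1 - E c.1 * L a.1 = E v * lam a c := by
    refine ⟨v.re • Complex.imCLM - v.im • Complex.reCLM, fun E a c => ?_⟩
    have hE : ∀ x : ℂ, E x = x.re * E 1 + x.im * E Complex.I := fun x => by
      rw [← smul_eq_mul, ← smul_eq_mul, ← map_smul, ← map_smul, ← map_add]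
      congr 1
      apply Complex.ext <;> simp
    rw [hE a.1, hE c.1, hE v, lam_apply]
    simp
    ring
  let ψ : ContDiffBump y₀ := ⟨δ / 2, 3 * δ / 4, by positivity, by linarith⟩
  have s2 : tsupport ψ ⊆ ball y₀ δ := ψ.tsupport_eq ▸ closedBall_subset_ball
    (show 3 * δ / 4 < δ by linarith)
  have hal : ContDiff ℝ ∞ (alf ζ ψ L) :=
    ((hζ.comp contDiff_fst).mul (ψ.contDiff.comp contDiff_snd)).smul contDiff_const
  have kc : IsCompact (tsupport ζ ×ˢ tsupport ψ) := ((isCompact_closedBall _ _).of_isClosed_subset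
    (isClosed_tsupport _) (hs.trans ball_subset_closedBall)).prod ψ.hasCompactSupport
  have k2 := ((prod_mono hs s2).trans h1).trans PD12
  have k0 : ∀ p, p ∉ tsupport ζ ×ˢ tsupport ψ → alf ζ ψ L p = 0 := fun p hp => by
    rcases not_and_or.1 hp with k | k <;> simp [alf, image_eq_zero_of_notMem_tsupport k]
  have k3 := push1_contDiff b hal.contDiffOn kc k2 k0
  have k4 : tsupport (push1 b (alf ζ ψ L)) ⊆ b.Θ '' PD 2 := (closure_minimal (fun x
    (hx : push1 b (alf ζ ψ L) x ≠ 0) => by_contra fun k => hx (push1_zero_off b k0 fun k' =>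
      k (image_mono inter_subset_left k'))) (isCompact_image b kc k2).isClosed).trans (image_mono k2)
  rw [int_box b h (measurableSet_ball.prod measurableSet_ball) (measurable_fderiv_apply_const _ _ _),
    ← h.closed _ ⟨k3.1, k3.2, k4.trans hb⟩]
  refine integral_congr_ae (hK.mono fun y hy => ?_)
  beta_reduce
  by_cases hO : y ∈ b.Θ '' PD 2
  · obtain ⟨p, hp, rfl⟩ := hO
    rw [iv_Θ b hp]
    by_cases hS : p ∈ ball z₀ ρ ×ˢ ball y₀ δ
    · have k5 := ψ.eventuallyEq_one_of_mem_ball (h2 p hS hy)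
      rw [indicator_of_mem hS, hd, indicator_of_mem (mem_image_of_mem _ (h1 hS)), mul_comm]
      refine (ld_eq b hp fun a c => ?_).symm
      rw [dd_push1 b hal.contDiffOn kc k2 k0 hp, fderiv_alf hζ ψ.contDiff, fderiv_alf hζ ψ.contDiff,
        k5.fderiv_eq, k5.eq_of_nhds, ← hL]
      simp
    · rw [indicator_of_notMem hS, mul_zero, ld_eq b hp (t := 0) fun a c => ?_, zero_mul]
      rw [dd_push1 b hal.contDiffOn kc k2 k0 hp, fderiv_alf hζ ψ.contDiff, fderiv_alf hζ ψ.contDiff]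
      rcases not_and_or.1 (mt (@Set.prod_mono _ _ _ _ _ _ hs s2 p) hS) with k | k <;>
        simp [image_eq_zero_of_notMem_tsupport k, fderiv_of_notMem_tsupport ℝ k]
  · simp [hd, indicator_of_notMem (mt (@image_mono _ _ _ _ _ PD12 y) hO), ld, dd_apply,
      fderiv_of_notMem_tsupport ℝ (mt (@k4 y) hO)]

/-- the density of the projection of one sheet -/
theorem den2 (h : PC D W r w) (hb : b.Θ '' PD 2 ⊆ W) {K : Set R4} (hK : ∀ᵐ y ∂r, y ∈ K) {x : R4}
    {p₀ : ℂ × ℂ} (hp₀ : p₀ ∈ PD 1) (hx : b.Θ p₀ = x) (hT : Tendsto (Th D r x) (𝓝[>] 0) (𝓝 Real.pi))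
    (hL : Tendsto (fun ρ => ⨍ y in closedBall x ρ, ‖hd b w y - hd b w x‖ ∂r) (𝓝[>] 0) (𝓝 0))
    {S : Set (ℂ × ℂ)} (hS : IsOpen S) (hpS : p₀ ∈ S) (χ : ContDiffBump (0 : ℂ)) (N : ℂ →L[ℝ] ℂ)
    (h1 : ∀ p ∈ S, p ∈ PD 2 → b.Θ p ∈ K → qf D x (b.Θ p - x) ≤ 2 * ‖N (p.1 - p₀.1)‖ ^ 2)
    (h2 : (fun y => ‖N ((iv b y).1 - p₀.1)‖ ^ 2 - qf D x (y - x)) =o[𝓝[K] x]
      fun y => qf D x (y - x)) :
    Tendsto (fun a => ∫ z, χ (z - p₀.1) * kn a (‖N (z - p₀.1)‖ ^ 2) ∂((mu b r w).restrict S).fst)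
      (𝓝[>] 0) (𝓝 (hd b w x * Real.pi)) := by
  have := h.fin
  obtain ⟨B, hB⟩ := hd_le b h hb
  obtain ⟨c, c0, hc⟩ := qf_lo D
  have mi := meas_iv b
  set g : R4 → ℝ := fun y => hd b w y * S.indicator (fun p => χ (p.1 - p₀.1)) (iv b y) with hg
  have mg : Measurable g := (meas_hd b h).mul (((χ.continuous.measurable.comp
    (measurable_fst.sub_const _)).indicator hS.measurableSet).comp mi)
  have g0 : ∀ y, 0 ≤ g y := fun y => mul_nonneg (hd_nonneg b y)
    (indicator_nonneg (fun _ _ => χ.nonneg) _)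
  have gB : ∀ y, |g y| ≤ B := fun y => (abs_of_nonneg (g0 y)).trans_le ((mul_le_of_le_one_right
    (hd_nonneg b y) (indicator_le' (fun _ _ => χ.le_one) (fun _ _ => zero_le_one) _)).trans (hB y))
  have g1 : g =ᶠ[𝓝 x] hd b w := by
    have k := image_mem_nhds b (PD12 hp₀) (inter_mem (inter_mem (hS.mem_nhds hpS)
      ((isOpen_PD 2).mem_nhds (PD12 hp₀))) (Tendsto.eventually (Continuous.tendsto'
        (continuous_fst.sub continuous_const) p₀ 0 (sub_self p₀.1)) χ.eventuallyEq_one))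
    filter_upwards [hx ▸ k]
    rintro _ ⟨p, ⟨⟨k1, k2⟩, k3 : χ (p.1 - p₀.1) = 1⟩, rfl⟩
    rw [hg]
    beta_reduce
    rw [iv_Θ b k2, indicator_of_mem k1, k3, mul_one]
  have h3 := LEB' D x r hT mg.aestronglyMeasurable (.of_forall gB) (hL.congr' (by
    filter_upwards [((eventually_closedBall_subset g1).filter_mono nhdsWithin_le_nhds)] with ρ hρ
    exact setAverage_congr_fun measurableSet_closedBall (.of_forall fun y hy => by
      rw [hρ hy, g1.eq_of_nhds])))
  rw [g1.eq_of_nhds] at h3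
  refine (KER1 (k' := fun a y => kn a (‖N ((iv b y).1 - p₀.1)‖ ^ 2) * g y) (fun a ha =>
    (integrable_Th D x r ha).mul_bdd mg.aestronglyMeasurable (.of_forall gB)) (fun a ha =>
    (integrable_kn (Measurable.aemeasurable (by fun_prop)) (.of_forall fun _ => sq_nonneg _)
      ha).mul_bdd mg.aestronglyMeasurable (.of_forall gB)) (fun ε hε => ?_) h3).congr fun a => ?_
  · obtain ⟨η, η0, hη⟩ := Metric.eventually_nhds_iff.1 (eventually_nhdsWithin_iff.1
      (h2.def (show 0 < min (ε / 12) (1 / 2) by positivity)))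
    refine ⟨1 / (c * η ^ 2 / 2) ^ 2 * B, fun a ha => hK.mono fun y hy => ?_⟩
    rcases (g0 y).eq_or_lt with k | k
    · rw [← k]; have := (abs_nonneg _).trans (gB y); simp; positivity
    obtain ⟨p, hp, rfl⟩ := mem_of_indicator_ne_zero (left_ne_zero_of_mul k.ne')
    have k1 := mem_of_indicator_ne_zero (right_ne_zero_of_mul k.ne')
    have k2 := kn_cmp (s := ‖N ((iv b (b.Θ p)).1 - p₀.1)‖ ^ 2) ha (qf_nonneg D x (b.Θ p - x)) hε
      (show 0 < c * η ^ 2 / 2 by positivity) (by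
        rcases lt_or_ge (dist (b.Θ p) x) η with k3 | k3
        · exact .inl ((hη k3 hy).trans_eq (by rw [Real.norm_of_nonneg (qf_nonneg D x _)]))
        · rw [iv_Θ b (PD12 hp)] at k1 ⊢
          have k4 := (mul_le_mul_of_nonneg_left (pow_le_pow_left₀ η0.le (k3.trans_eq
            (dist_eq_norm _ _)) 2) c0.le).trans (hc x _)
          exact .inr ⟨by linarith [qf_nonneg D x (b.Θ p - x)],
            by linarith [h1 p k1 (PD12 hp) hy]⟩)
    rw [← sub_mul, abs_mul, abs_of_pos k]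
    nlinarith [mul_le_mul_of_nonneg_right k2 k.le, mul_le_mul_of_nonneg_left
      (le_of_abs_le (gB (b.Θ p))) (show 0 ≤ 1 / (c * η ^ 2 / 2) ^ 2 * a by positivity)]
  · refine (integral_congr_ae (.of_forall fun y => ?_)).trans (int_box b h hS.measurableSet
      ((χ.continuous.measurable.comp (measurable_id.sub_const _)).mul
      ((measurable_kn a).comp (by fun_prop)))).symm
    by_cases k : iv b y ∈ S <;> simp [hg, k]
    ring

theorem loc (h : PC D W r w) (hb : b.Θ '' PD 2 ⊆ W) {K : Set R4} (hK : ∀ᵐ y ∂r, y ∈ K) {x : R4}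
    {p₀ : ℂ × ℂ} (hp₀ : p₀ ∈ PD 1) (hx : b.Θ p₀ = x) (hT : Tendsto (Th D r x) (𝓝[>] 0) (𝓝 Real.pi))
    (hL : Tendsto (fun ρ => ⨍ y in closedBall x ρ, ‖hd b w y - hd b w x‖ ∂r) (𝓝[>] 0) (𝓝 0))
    (h0' : hd b w x ≠ 0) {u : R4} {Z : R4 →L[ℝ] ℂ}
    (t1 : ∀ φ : F2, (∀ a b, φ a b = -φ b a) → ∑ i, φ (w i x) (D.J x (w i x)) = φ u (D.J x u))
    (t2 : ∀ v, qf D x v = ‖Z v‖ ^ 2 + qf D x (v - cm D x (Z v) u))
    (t3 : (fun y => qf D x (y - x - cm D x (Z (y - x)) u)) =o[𝓝[K] x] fun y => qf D x (y - x))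
    {ε : ℝ} (hε : 0 < ε) : ∃ B, GB (mu b r w) ε B ∧ p₀ ∈ B.1 ×ˢ B.2 := by
  have := fin_mu b h hb
  obtain ⟨c, c0, hc⟩ := qf_lo D
  have p2 := PD12 hp₀
  set P := fderiv ℝ (inv b) x
  set M : ℂ →L[ℝ] ℂ := .fst ℝ ℂ ℂ ∘L P ∘L (Complex.reCLM.smulRight u +
    Complex.imCLM.smulRight (D.J x u)) with hM
  have m1 : ∀ ζ, M ζ = (P (cm D x ζ u)).1 := fun ζ => rfl
  have m2 : M.det = hd b w x := by
    rw [hd, indicator_of_mem (hx ▸ mem_image_of_mem _ hp₀), h0]
    refine Eq.trans ?_ (t1 (lam.bilinearComp P P) fun a c => by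
      simp [lam_apply, mul_comm]).symm
    rw [ContinuousLinearMap.det, ← LinearMap.det_toMatrix Complex.basisOneI, Matrix.det_fin_two]
    simp [LinearMap.toMatrix_apply, m1, cm, lam_apply, mul_comm]
  set E := M.toContinuousLinearEquivOfDetNeZero (m2 ▸ h0')
  set N : ℂ →L[ℝ] ℂ := E.symm.toContinuousLinearMap
  have n1 : N.det⁻¹ = hd b w x := by
    rw [ContinuousLinearEquiv.det_coe_symm, inv_inv, ← m2]; rfl
  have dP : HasFDerivAt (iv b) P x := ((contDiffAt_inv b (hx ▸ mem_image_of_mem _ p2)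
    ).differentiableAt (by simp)).hasFDerivAt.congr_of_eventuallyEq (mem_of_superset
      (hx ▸ image_mem_nhds b p2 ((isOpen_PD 2).mem_nhds p2)) fun y hy => indicator_of_mem hy _)
  have ix : iv b x = p₀ := hx ▸ iv_Θ b p2
  have q1 : ∀ (f : R4 → R4), (fun y => ‖f y‖ ^ 2) =O[𝓝[K] x] fun y => qf D x (f y) := fun f =>
    .of_bound c⁻¹ (.of_forall fun y => by
      rw [Real.norm_of_nonneg (sq_nonneg _), Real.norm_of_nonneg (qf_nonneg _ _ _),
        le_inv_mul_iff₀ c0]; exact hc _ _)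
  have q2 : (fun y => qf D x (y - x)) =O[𝓝[K] x] fun y => ‖y - x‖ ^ 2 :=
    .of_bound _ (.of_forall fun y => by
      rw [Real.norm_of_nonneg (sq_nonneg _), Real.norm_of_nonneg (qf_nonneg _ _ _)]
      exact qf_le D x _)
  have o1 : (fun y => y - x - cm D x (Z (y - x)) u) =o[𝓝[K] x] fun y => y - x :=
    isLittleO_norm_norm.1 (IsLittleO.of_pow (((q1 _).trans_isLittleO t3).trans_isBigO q2) two_ne_zero)
  set T : (ℂ × ℂ) →L[ℝ] ℂ := N ∘L .fst ℝ ℂ ℂ
  have o2 : (fun y => N ((iv b y).1 - p₀.1) - Z (y - x)) =o[𝓝[K] x] fun y => y - x := by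
    refine (((T.isBigO_comp _ _).trans_isLittleO (dP.isLittleO.mono nhdsWithin_le_nhds)).add
      (((T ∘L P).isBigO_comp _ _).trans_isLittleO o1)).congr_left fun y => ?_
    have k : T (P (cm D x (Z (y - x)) u)) = Z (y - x) := E.symm_apply_apply _
    rw [ContinuousLinearMap.comp_apply T P, map_sub P (y - x), map_sub T (P _), k, map_sub T, ix]
    exact sub_add_sub_cancel _ _ _
  have o3 : (fun y => ‖N ((iv b y).1 - p₀.1)‖ ^ 2 - qf D x (y - x)) =o[𝓝[K] x]
      fun y => qf D x (y - x) := by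
    have k1 := Z.isBigO_comp (fun y => y - x) (𝓝[K] x)
    have k2 := (o2.isBigO.add k1).congr_left fun y => sub_add_cancel _ _
    have k3 : (fun y => ‖N ((iv b y).1 - p₀.1)‖ - ‖Z (y - x)‖) =o[𝓝[K] x] fun y => ‖y - x‖ :=
      (isBigO_of_le _ fun y => abs_norm_sub_norm_le _ _).trans_isLittleO o2.norm_right
    refine ((((k3.mul_isBigO (k2.norm_norm.add k1.norm_norm)).congr_right fun y =>
      (sq _).symm).trans_isBigO (q1 _)).sub t3).congr_left fun y => ?_
    rw [t2 (y - x)]; ring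
  have o4 : ∀ᶠ y in 𝓝[K] x, qf D x (y - x) ≤ 2 * ‖N ((iv b y).1 - p₀.1)‖ ^ 2 :=
    (o3.def one_half_pos).mono fun y hy => by
      rw [Real.norm_of_nonneg (qf_nonneg _ _ _)] at hy
      linarith [neg_le_of_abs_le hy]
  have o5 : (fun y => iv b y - p₀) =O[𝓝[K] x] fun y => (iv b y).1 - p₀.1 := by
    refine (ix ▸ dP.isBigO_sub.mono nhdsWithin_le_nhds).trans (.trans ?_ (N.isBigO_comp _ _))
    refine isBigO_norm_norm.1 (.of_pow two_ne_zero ((q1 _).trans (.of_bound 2 (o4.mono fun y hy => ?_))))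
    rwa [Real.norm_of_nonneg (qf_nonneg _ _ _), Pi.pow_apply, Real.norm_of_nonneg (sq_nonneg _)]
  obtain ⟨C, C1, o6⟩ := (o5.exists_pos)
  obtain ⟨δ₁, δ0, hδ⟩ := Metric.eventually_nhds_iff_ball.1 (((hx ▸ (contDiffAt_Θ b
    p2).continuousAt.tendsto).eventually (eventually_nhdsWithin_iff.1 (o4.and o6.bound))).and
    ((isOpen_PD 1).mem_nhds hp₀))
  set δ := min δ₁ (ε / 2) with hδ'
  have δ1 : 0 < δ := by positivity
  set ρ := δ / (8 * (C + 1)) with hρ
  have ρ0 : 0 < ρ := by positivity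
  have e1 : (C + 1) * (4 * ρ) = δ / 2 := by rw [hρ]; field_simp; ring
  have s1 : ball p₀.1 (4 * ρ) ×ˢ ball p₀.2 δ ⊆ ball p₀ δ₁ := (Set.prod_mono (ball_subset_ball
    (by nlinarith)) le_rfl).trans ((ball_prod_same _ _ _).le.trans (ball_subset_ball (min_le_left _ _)))
  have k := const (m := ((mu b r w).restrict (ball p₀.1 (4 * ρ) ×ˢ ball p₀.2 δ)).fst)
    ⟨ρ / 2, ρ, by positivity, by linarith⟩ rfl (N := N) (fun k => h0' (by rw [← n1, k, inv_zero]))
    (clo b h hb hK δ1 (fun p hp => (hδ p (s1 hp)).2) fun p hp k => ?_) (by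
      rw [n1, abs_of_nonneg (hd_nonneg b x)]
      refine den2 b h hb hK hp₀ hx hT hL (isOpen_ball.prod isOpen_ball) ⟨mem_ball_self
        (by positivity), mem_ball_self δ1⟩ _ N (fun p hp k1 k2 => ?_) o3
      simpa only [iv_Θ b k1] using ((hδ p (s1 hp)).1 k2).1)
  · refine ⟨(ball p₀.1 ρ, ball p₀.2 δ), ⟨isOpen_ball, isOpen_ball, fun y hy => ball_subset ?_, ?_⟩,
      mem_ball_self ρ0, mem_ball_self δ1⟩
    · rw [mem_ball'] at hy
      linarith [min_le_right δ₁ (ε / 2)]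
    · rw [← k, Measure.fst, Measure.fst, Measure.restrict_map measurable_fst measurableSet_ball,
        Measure.restrict_restrict (measurable_fst measurableSet_ball)]
      congr 2
      ext p
      exact ⟨fun k => ⟨k.1, ball_subset_ball (by linarith) k.1, k.2⟩, fun k => ⟨k.1, k.2.2⟩⟩
  · have k1 := ((hδ p (s1 hp)).1 k).2
    rw [iv_Θ b (PD12 (hδ p (s1 hp)).2)] at k1
    have k2 := mem_ball_iff_norm.1 hp.1
    exact mem_ball_iff_norm.2 (((norm_snd_le (p - p₀)).trans k1).trans_lt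
      (by nlinarith [norm_nonneg (p.1 - p₀.1)]))

end Vale.Agent.P247N.It

namespace Vale.Agent.P247N

open Vale.Agent.P247.H574 (PD)
open It

theorem int : INT := by
  intro D W r w h hn b hb
  have := h.fin
  have := fin_mu b h hb
  obtain ⟨ν, h1, h2⟩ := dis (μ := mu b r w) fun ε hε => by
    have o : IsOpen {p | ∃ B, GB (mu b r w) ε B ∧ p ∈ B.1 ×ˢ B.2} := isOpen_iff_forall_mem_open.2
      fun p ⟨B, k1, k2⟩ => ⟨_, fun q hq => ⟨B, k1, hq⟩, k1.1.prod k1.2.1, k2⟩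
    refine (ae_map_iff (meas_iv b).aemeasurable o.measurableSet).2
      ((ae_withDensity_iff (meas_hd b h).ennreal_ofReal).2 ?_)
    filter_upwards [tan h hn, Kr.ae_leb r (int_hd b h hb)] with x ⟨hT, u, Z, t1, t2, t3⟩ hL k
    have k1 : hd b w x ≠ 0 := fun k1 => k (by simp [k1])
    obtain ⟨p, hp, hx⟩ := mem_of_indicator_ne_zero k1
    exact hx ▸ (iv_Θ b (PD12 hp)).symm ▸ loc b h hb hn hp hx hT hL k1 t1 t2 t3 hε
  refine ⟨ν, ae_restrict_of_ae h1, fun f hf hc hs => ?_⟩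
  obtain ⟨h3, h4⟩ := h2 f (hf.integrable_of_hasCompactSupport hc)
  have f0 : ∀ p, p ∉ PD 1 → f p = 0 := fun p hp => image_eq_zero_of_notMem_tsupport (mt (@hs p) hp)
  refine ⟨h3.integrableOn, fun φ hφ => ?_⟩
  rw [setIntegral_eq_integral_of_forall_compl_eq_zero fun z hz => by
    simp [f0 (z, _) fun k => hz k.1], ← h4, int_mu b h hf.measurable]
  refine integral_congr_ae (.of_forall fun y => ?_)
  beta_reduce
  by_cases hO : y ∈ b.Θ '' PD 2
  · obtain ⟨p, hp, rfl⟩ := hO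
    rw [iv_Θ b hp, ld_eq b hp (hφ.on p hp), mul_comm]
    by_cases k : p ∈ PD 1
    · rw [hd, indicator_of_mem (mem_image_of_mem _ k)]
    · simp [f0 p k]
  · simp [hd, indicator_of_notMem (mt (@image_mono _ _ _ _ _ PD12 y) hO), ld, hφ.off y hO]

end Vale.Agent.P247N
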