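import Vale.Agent.P247N.Irl

/-!
# P247, block N: masses of metric balls and the kernel averages
-/

set_option linter.all false

open scoped Topology
open Set MeasureTheory Filter Metric

noncomputable section

namespace Vale.Agent.P247N.Sq

open Vale.Agent.P247.H74 (R4 Data)
open Vale.Agent.P247.H574 (F2 cf2)

variable {X : Type} [MetricSpace X] [MeasurableSpace X] [BorelSpace X]
  (κ : OpenPartialHomeomorph X R4) (σ : Measure X) [IsFiniteMeasure σ] (D : Data)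

/-- the chart is Lipschitz near `x` -/
def Lip (x : X) : Prop := ∃ L : ℝ, 0 < L ∧ ∃ ε > 0, ball x ε ⊆ κ.source ∧
  ∀ p ∈ ball x ε, ∀ q ∈ ball x ε, ‖κ p - κ q‖ ≤ L * dist p q

theorem ball_le {p : X} {r L : ℝ} (hL : 0 < L) (h1 : ball p r ⊆ κ.source)
    (h2 : ∀ q ∈ ball p r, ‖κ q - κ p‖ ≤ L * dist q p) :
    (σ (ball p r)).toReal ≤
      (Measure.map κ (σ.restrict κ.source)).real (closedBall (κ p) (L * r)) := by
  refine ENNReal.toReal_mono (measure_ne_top _ _) ?_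
  rw [Measure.map_apply_of_aemeasurable (κ.continuousOn.aemeasurable κ.open_source.measurableSet)
    measurableSet_closedBall, Measure.restrict_apply' κ.open_source.measurableSet]
  refine measure_mono fun q hq => ⟨?_, h1 hq⟩
  rw [mem_preimage, mem_closedBall, dist_eq_norm]
  exact (h2 q hq).trans (mul_le_mul_of_nonneg_left (mem_ball.1 hq).le hL.le)

theorem ball_le_Th {p : X} {r L N : ℝ} (hr : 0 < r) (hL : 0 < L) (h1 : ball p r ⊆ κ.source)
    (h2 : ∀ q ∈ ball p r, ‖κ q - κ p‖ ≤ L * dist q p) (hN : ‖Kr.qb D (κ p)‖ * L ^ 2 < N) :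
    (σ (ball p r)).toReal ≤
      4 * (N * r ^ 2) * Th D (Measure.map κ (σ.restrict κ.source)) (κ p) (N * r ^ 2) := by
  have N0 : 0 < N := lt_of_le_of_lt (by positivity) hN
  refine (ball_le κ σ hL h1 h2).trans (Kr.real_ball_le D (κ p) _ (by positivity) ?_)
  rw [mul_pow, ← mul_assoc]
  exact mul_le_mul_of_nonneg_right hN.le (by positivity)

theorem dens_zero {x : X} (hL : Lip κ x)
    (h : Tendsto (Th D (Measure.map κ (σ.restrict κ.source)) (κ x)) (𝓝[>] 0) (𝓝 0)) {c : ℝ}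
    (hc : 0 < c) :
    Tendsto (fun δ : ℝ => (δ ^ 2)⁻¹ * (σ (ball x (c * δ))).toReal) (𝓝[>] 0) (𝓝 0) := by
  obtain ⟨L, L0, ε, hε, h1, h2⟩ := hL
  set N := ‖Kr.qb D (κ x)‖ * L ^ 2 + 1 with hN
  have N0 : 0 < N := by positivity
  have t1 : Tendsto (fun δ : ℝ => N * (c * δ) ^ 2) (𝓝[>] 0) (𝓝[>] 0) :=
    tendsto_nhdsWithin_iff.2 ⟨by
      have : Continuous fun δ : ℝ => N * (c * δ) ^ 2 := by fun_prop
      simpa using (this.tendsto 0).mono_left nhdsWithin_le_nhds,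
      eventually_mem_nhdsWithin.mono fun δ hδ => by
        have : 0 < δ := hδ
        show 0 < N * (c * δ) ^ 2
        positivity⟩
  have t2 := (h.comp t1).const_mul (4 * N * c ^ 2)
  rw [mul_zero] at t2
  refine squeeze_zero' (eventually_mem_nhdsWithin.mono fun δ _ => by positivity) ?_ t2
  filter_upwards [Ioo_mem_nhdsGT (div_pos hε hc)] with δ hδ
  have δ0 : 0 < δ := hδ.1
  have h3 : ball x (c * δ) ⊆ ball x ε := ball_subset_ball (by
    have := hδ.2
    rw [lt_div_iff₀ hc] at this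
    linarith)
  have h4 := ball_le_Th κ σ D (mul_pos hc δ0) L0 (h3.trans h1)
    (fun q hq => h2 q (h3 hq) x (mem_ball_self hε)) (lt_add_one _)
  rw [← hN] at h4
  rw [inv_mul_le_iff₀ (by positivity)]
  refine h4.trans_eq ?_
  simp only [Function.comp_apply]
  ring

omit [MeasurableSpace X] [BorelSpace X] in
theorem norm_qb_le (y : R4) : ‖Kr.qb D y‖ ≤ ‖cf2 D.om y‖ * ‖D.J y‖ := by
  refine ContinuousLinearMap.opNorm_le_bound₂ _ (by positivity) fun u v => ?_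
  refine ((cf2 D.om y).le_opNorm₂ u (D.J y v)).trans ?_
  have := (D.J y).le_opNorm v
  calc _ ≤ ‖cf2 D.om y‖ * ‖u‖ * (‖D.J y‖ * ‖v‖) := by gcongr
    _ = _ := by ring

theorem loc_bound {x : X} [CompactSpace X] (hL : Lip κ x)
    (hM : ∀ K, IsCompact K → K ⊆ κ.target → ∃ C, ∀ y ∈ K, ∀ a, 0 < a → a ≤ 1 →
      Th D (Measure.map κ (σ.restrict κ.source)) y a ≤ C) :
    ∃ V ∈ 𝓝 x, ∃ C : ℝ, ∀ p ∈ V, ∀ r : ℝ, 0 < r → r ≤ 1 → (σ (ball p r)).toReal ≤ C * r ^ 2 := by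
  obtain ⟨L, L0, ε, hε, h1, h2⟩ := hL
  have s1 : closedBall x (ε / 2) ⊆ ball x ε := closedBall_subset_ball (half_lt_self hε)
  have hK : IsCompact (κ '' closedBall x (ε / 2)) :=
    isClosed_closedBall.isCompact.image_of_continuousOn (κ.continuousOn.mono (s1.trans h1))
  obtain ⟨C, hC⟩ := hM _ hK (image_subset_iff.2 fun p hp => κ.map_source (h1 (s1 hp)))
  have c1 : Continuous fun y => ‖cf2 D.om y‖ * ‖D.J y‖ :=
    ((continuous_norm (E := F2)).comp (Lt.continuous_cf2 D.om)).mul D.J_smooth.continuous.norm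
  obtain ⟨B, hB⟩ := hK.exists_bound_of_continuousOn c1.continuousOn
  set N := |B| * L ^ 2 + 1 with hN
  have N0 : 0 < N := by positivity
  set r0 := min (ε / 2) (1 / N) with hr0
  have r00 : 0 < r0 := by positivity
  refine ⟨closedBall x (ε / 2), closedBall_mem_nhds x (half_pos hε),
    4 * N * |C| + (σ univ).toReal / r0 ^ 2, fun p hp r hr hr1 => ?_⟩
  have n1 : 0 ≤ 4 * N * |C| * r ^ 2 := by positivity
  have n2 : 0 ≤ (σ univ).toReal / r0 ^ 2 * r ^ 2 := by positivity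
  rw [add_mul]
  rcases le_total r r0 with h | h
  · have h3 : ball p r ⊆ ball x ε := ball_subset_ball' (by
      linarith [h.trans (min_le_left _ _), mem_closedBall.1 hp])
    have h4 : ‖Kr.qb D (κ p)‖ * L ^ 2 < N := by
      have := (norm_qb_le D (κ p)).trans ((le_abs_self _).trans
        ((hB _ (mem_image_of_mem _ hp)).trans (le_abs_self B)))
      exact lt_of_le_of_lt (mul_le_mul_of_nonneg_right this (by positivity)) (lt_add_one _)
    have h5 := ball_le_Th κ σ D hr L0 (h3.trans h1) (fun q hq => h2 q (h3 hq) p (s1 hp)) h4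
    have h6 : N * r ≤ 1 := by
      have := h.trans (min_le_right _ _)
      rwa [le_div_iff₀ N0, mul_comm] at this
    have h7 := (hC _ (mem_image_of_mem _ hp) (N * r ^ 2) (by positivity) (by nlinarith)).trans
      (le_abs_self C)
    have h8 := mul_le_mul_of_nonneg_left h7 (by positivity : 0 ≤ 4 * (N * r ^ 2))
    linarith
  · have h3 : (σ (ball p r)).toReal ≤ (σ univ).toReal :=
      ENNReal.toReal_mono (measure_ne_top _ _) (measure_mono (subset_univ _))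
    have h4 : (σ univ).toReal ≤ (σ univ).toReal / r0 ^ 2 * r ^ 2 := by
      rw [div_mul_eq_mul_div, le_div_iff₀ (by positivity)]
      gcongr
    linarith

theorem glob_bound [CompactSpace X] (h : ∀ x : X, ∃ V ∈ 𝓝 x, ∃ C : ℝ, ∀ p ∈ V, ∀ r : ℝ, 0 < r →
    r ≤ 1 → (σ (ball p r)).toReal ≤ C * r ^ 2) :
    ∃ C : ℝ, ∀ x (r : ℝ), 0 < r → r ≤ 1 → (σ (ball x r)).toReal ≤ C * r ^ 2 := by
  have := isCompact_univ.induction_on (p := fun S : Set X => ∃ C : ℝ, ∀ p ∈ S, ∀ r : ℝ, 0 < r →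
    r ≤ 1 → (σ (ball p r)).toReal ≤ C * r ^ 2) ⟨0, by simp⟩
    (fun s t hst ⟨C, hC⟩ => ⟨C, fun p hp => hC p (hst hp)⟩)
    (fun s t ⟨C, hC⟩ ⟨C', hC'⟩ => ⟨max C C', fun p hp r h0 h1 => hp.elim
      (fun hp => (hC p hp r h0 h1).trans (by gcongr; exact le_max_left _ _))
      fun hp => (hC' p hp r h0 h1).trans (by gcongr; exact le_max_right _ _)⟩)
    fun x _ => by simpa using h x
  obtain ⟨C, hC⟩ := this
  exact ⟨C, fun x => hC x trivial⟩

omit [MeasurableSpace X] [BorelSpace X] in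
/-- a chart which is differentiable in a bi-Lipschitz parametrisation is Lipschitz -/
theorem lip_of_par {ψ : R4 → X} (hψ : Topology.IsOpenEmbedding ψ) {y : R4} {C : ℝ} (hC : 0 < C)
    (hy : ‖y‖ < 1) (hl : ∀ y z, ‖y‖ ≤ 1 → ‖z‖ ≤ 1 → ‖y - z‖ ≤ C * dist (ψ y) (ψ z))
    (hx : ψ y ∈ κ.source) (hd : ContDiffAt ℝ 1 (fun z => κ (ψ z)) y) : Lip κ (ψ y) := by
  obtain ⟨K, s, hs, hK⟩ := hd.exists_lipschitzOnWith
  have h1 : ψ '' (s ∩ ball 0 1) ∩ κ.source ∈ 𝓝 (ψ y) :=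
    inter_mem (hψ.image_mem_nhds.2 (inter_mem hs (isOpen_ball.mem_nhds (mem_ball_zero_iff.2 hy))))
      (κ.open_source.mem_nhds hx)
  obtain ⟨ε, hε, h2⟩ := Metric.mem_nhds_iff.1 h1
  refine ⟨(K + 1) * C, by positivity, ε, hε, fun p hp => (h2 hp).2, fun p hp q hq => ?_⟩
  obtain ⟨a, ⟨a1, a2⟩, rfl⟩ := (h2 hp).1
  obtain ⟨b, ⟨b1, b2⟩, rfl⟩ := (h2 hq).1
  have h3 := hK.norm_sub_le a1 b1
  have h4 := hl a b (mem_ball_zero_iff.1 a2).le (mem_ball_zero_iff.1 b2).le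
  calc _ ≤ K * ‖a - b‖ := h3
    _ ≤ (K + 1) * (C * dist (ψ a) (ψ b)) := by gcongr; linarith
    _ = _ := by ring

end Vale.Agent.P247N.Sq
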