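import Vale.Agent.P247N.Sq1
import Vale.Agent.P247N.Sq2
import Vale.Agent.P247N.Mon
import Vale.Agent.P247L.T3

/-!
# P247, block N: the row `SQ`
-/

set_option linter.all false

open scoped Manifold ContDiff Topology
open Set MeasureTheory Filter Metric

noncomputable section

namespace Vale.Agent.P247N

namespace Sq

open Vale.Agent.P204 Vale.Agent.P204.T4 Vale.Agent.P204.GX Vale.Agent.P204.Mfd
open Vale.Agent.P247.SCY Vale.Agent.P247X

theorem Q_hs_single (A : L2) (k : Fin 6) : Q A (hs (Pi.single k 1)) = A k := by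
  fin_cases k <;> simp [Q, hs]

theorem Q_hs_wd (u v : V4) (B : L2) : Q (hs (wd u v)) B = ev B u v := by
  rw [ev_eq]
  simp [Q, hs, wd]
  ring

theorem cone_hs_wd (u : V4) : Cone J0 (hs (wd u (app J0 u))) := by
  rw [cone_J0, app_J0]
  simp only [hs, wd, Matrix.cons_val_zero, Matrix.cons_val_one, Matrix.cons_val]
  refine ⟨⟨by ring, by ring⟩, by nlinarith [sq_nonneg (u 2), sq_nonneg (u 3)],
    by nlinarith [sq_nonneg (u 0), sq_nonneg (u 1)], le_of_eq (by ring)⟩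

theorem meas_of_Q {X : Type} [MetricSpace X] [MeasurableSpace X] [BorelSpace X] (M : CM X)
    {D : X → L2} (h : ∀ b ∈ M.Om, Measurable fun x => Q (D x) (b x)) : Measurable D := by
  have h2 : D = fun x => ∑ a, M.ext a (M.cut D a) x := by
    conv_lhs => rw [← M.sum_ext_cut D]
    funext x
    rw [Finset.sum_apply]
  rw [h2]
  refine Finset.measurable_sum _ fun a _ => Hil.measurable_ext M a ?_
  refine measurable_pi_lambda _ fun k => ?_
  have h3 := (h _ (M.ext_mem_Om a (γ := fun y => M.zl a y • hs (Pi.single k 1))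
    ((M.contDiff_zl a).smul contDiff_const) (M.hasCompactSupport_zl a).smul_right)).comp
    (M.measurable_ψ a)
  convert (measurable_det4.comp (M.m_meas a)).mul h3 using 1
  funext y
  rw [← Q_hs_single (M.cut D a y) k]
  simp only [Function.comp_apply, Pi.mul_apply]
  rw [M.ext_ψ_self, ← Q_pull, ← pull_mm, M.mm_m'_m, pull_one, CM.cut, Q_smul_left, Q_smul_right]
  rfl

variable {X : Type} [Cl4 X] {μ : HS.Form X 4} {w : Tri X} (A : FinAtlas X (Jw w))
  (hJ : AlmostComplex (Jw w)) (hT : Mfd.Tames (w 2) (Jw w))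

/-- the density of the current in the unitary frame -/
def Dv (v : VF X) (x : X) : L2 :=
  ∑ i, hs (wd (A.Fr (w 2) x (v i x)) (app J0 (A.Fr (w 2) x (v i x))))

include hJ hT

theorem Q_Dv (v : VF X) (b : X → L2) (x : X) :
    Q (Dv A v x) (b x) = dn w v (A.back (w 2) b) x := by
  have h : ∀ u : E4, ev (b x) (A.Fr (w 2) x u) (app J0 (A.Fr (w 2) x u)) =
      omv (A.back (w 2) b) x u (Jat (Jw w) x u) := fun u => by
    rw [← A.Fr_J (w 2) hJ hT, ← A.omv_back]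
  rw [Dv, dn, Fin.sum_univ_two, Fin.sum_univ_two, Q_add_left, Q_hs_wd, Q_hs_wd]
  exact congrArg₂ (· + ·) (h _) (h _)

theorem Q_Dv_F0 (v : VF X) (x : X) : Q (Dv A v x) F0 = dn w v (w 2) x := by
  have h : ∀ u : E4, ev F0 (A.Fr (w 2) x u) (app J0 (A.Fr (w 2) x u)) =
      omv (w 2) x u (Jat (Jw w) x u) := fun u => by
    have h1 := A.pP_omX (w 2) hJ hT x
    have h2 := A.ev_omX (w 2) x (A.Fr (w 2) x u) (app J0 (A.Fr (w 2) x u))
    rw [A.FrI_J (w 2) hJ hT, A.FrI_Fr (w 2) hJ hT] at h2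
    rw [← h1, ← h2, pP, ev_smul, ev_add, ev_pull, isCx_J0, ev_neg_right,
      ← ev_antisymm]
    ring
  rw [Dv, dn, Fin.sum_univ_two, Fin.sum_univ_two, Q_add_left, Q_hs_wd, Q_hs_wd]
  exact congrArg₂ (· + ·) (h _) (h _)

omit hJ hT in
theorem cone_Dv (v : VF X) (x : X) : Cone J0 (Dv A v x) := by
  rw [Dv, Fin.sum_univ_two]
  exact G7.cone_add (cone_hs_wd _) (cone_hs_wd _)

theorem hx_pos (hw : HS.Hypersymplectic μ w) (x : X) : 0 < hx A (w 2) μ x := by
  have h1 := (tri_of_posDef hw.posDef).rot x 1 0 0 (Or.inl one_ne_zero)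
  have h2 : 0 < HS.quot μ (w 2) (w 2) x := by linarith
  rw [quot_eq A hJ hT] at h2
  have h3 : 0 < Q (fx A (w 2) (w 2) x) (fx A (w 2) (w 2) x) := by
    have h4 : pP J0 (fx A (w 2) (w 2) x) = F0 := A.pP_omX (w 2) hJ hT x
    rw [Q_self_split isCx_J0 CM.posJ0, h4, Q_F0]
    have := CM.Q_pM_self_nonneg (fx A (w 2) (w 2) x)
    linarith
  exact (div_pos_iff_of_pos_left h3).1 h2

omit hJ hT in
theorem lip (t : LocT w) {x : X} (hx : x ∈ t.κ.source) : letI := A.metric; Lip t.κ x := by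
  letI := A.metric
  obtain ⟨a, y, hy, rfl⟩ := A.cov x
  obtain ⟨C, hC, h⟩ := A.lip a 1
  exact lip_of_par t.κ (A.P a).isOpenEmbedding hC hy (fun y z h1 h2 => (h y z h1 h2).2) hx
    ((Lt.cd_k t ((A.P a).contMDiff_psi y) hx).of_le (by simp))

end Sq

open Vale.Agent.P204 Vale.Agent.P204.GX Vale.Agent.P247.SCY Vale.Agent.P247X in
theorem sq : SQ := by
  intro X _ μ hμ w hw σ v hσ hv hc hd α hα
  have hJ : Mfd.AlmostComplex (Jw w) :=
    Jf_almostComplex (defAt hw) (hw.smooth 2) (hw.smooth 0) (hw.smooth 1)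
  have hT : Mfd.Tames (w 2) (Jw w) := Jf_tames (defAt hw)
  have hS := hw.smooth 2
  have hC := hw.closed 2
  obtain ⟨A⟩ := Mfd.exists_finAtlas hJ
  letI := A.metric
  have hpr := pair_eq A hJ hS hC hT hμ.smooth (Sq.hx_pos A hJ hT hw)
  have hfn : ∀ b, FnSys.fn σ (Sq.Dv A v) b = cur w σ v (A.back (w 2) b) := fun b =>
    congrArg (integral σ) (funext (Sq.Q_Dv A hJ hT v b))
  have hP : ∀ c ∈ (CMA A hJ hS hC hT).Om, (∀ a, T4.Closed ((CMA A hJ hS hC hT).cf a c)) →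
      FnSys.fn σ (Sq.Dv A v) c = (CMA A hJ hS hC hT).pr (fx A (w 2) α) c := fun c h1 h2 => by
    rw [hfn, hα.2 _ ⟨back_smooth A hJ hS hC hT h1, back_closed A hJ hS hC hT h1 h2⟩, hpr,
      fx_back A hJ hT]
  have hg := fx_mem A hJ hS hC hT hα.1.1
  rw [hpr, ← hP _ hg (fx_closed A hJ hS hC hT hα.1.1 hα.1.2)]
  refine Sq.cm_sq (CMA A hJ hS hC hT) ⟨hσ, Sq.meas_of_Q (CMA A hJ hS hC hT) fun b hb => ?_,
    Sq.cone_Dv A v, fun x => (Sq.Q_Dv_F0 A hJ hT v x).trans (hv.nrm x)⟩ (Sq.glob_bound σ fun x => ?_)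
    (fun c h0 => hd.mono fun x ⟨t, h1, h2⟩ => Sq.dens_zero t.κ σ t.D (Sq.lip A t h1) h2 h0)
    (fun e he => ?_) hg hP
  · rw [funext (Sq.Q_Dv A hJ hT v b)]
    exact (hv.mdn _ (cont_of_smooth (back_smooth A hJ hS hC hT hb))).1
  · obtain ⟨t, h1, -⟩ := P247L.TRANS X μ hμ w hw x univ univ_mem
    refine Sq.loc_bound t.κ σ t.D (Sq.lip A t h1) fun K hK h2 => ?_
    obtain ⟨C, -, h3⟩ := mon t.D t.κ.target K t.κ.open_target hK h2
    exact ⟨_, fun y hy a h4 h5 => ((h3 _ _ (Lt.pc_rl t σ hv hc.closed) y hy).2 a h4 h5).1⟩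
  · rw [hfn]
    exact hc.closed _ (back_smooth A hJ hS hC hT e.2) (exact_of_Ex A hJ hS hC hT e he)

end Vale.Agent.P247N
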