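import Vale.Agent.P247N.Siu
import Vale.Agent.P247N.Int3
import Vale.Agent.P247N.Sq
import Vale.Agent.P247C.Emb
import Vale.Agent.P247C.Irr

/-!
# P247, block N: the final statements
-/

namespace Vale.Agent.P247N

open Vale.Agent.P247X

theorem SIUA : SIUA_statement := siua int sq

theorem SIUD : SIUD_statement := siud int P247C.irr

theorem SIUB : SIUB_statement := siub int P247C.irr P247C.emb

end Vale.Agent.P247N
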