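import Vale.Agent.P247N.Ker
import Vale.Agent.P247C.T1
import Vale.Agent.P267.H175.Alt

/-!
# P247, block N: calculus in a transplant chart
-/

set_option linter.all false

open scoped Manifold ContDiff Topology
open Set MeasureTheory Filter Metric

noncomputable section

namespace Vale.Agent.P247N.Lt

open Vale.Agent.P247.SCY Vale.Agent.P247.SCY.HS Vale.Agent.P247X Vale.Agent.P247C
open Vale.Agent.P247.H74 (R4 Data)
open Vale.Agent.P247.H574 (F2 CF dd cf2)
open Vale.Agent.P267.H175 (contDiffAt_comp_alt contDiffAt_pullback)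

/-- alternating forms on the chart space -/
abbrev A4 (k : ℕ) := R4 [⋀^Fin k]→L[ℝ] ℝ

/-- a linear form as a one-form -/
def one : (R4 →L[ℝ] ℝ) ≃ₗᵢ[ℝ] A4 1 :=
  ContinuousAlternatingMap.ofSubsingletonLIE (𝕜 := ℝ) (E := R4) (F := ℝ) (0 : Fin 1)

theorem one_apply (a : R4 →L[ℝ] ℝ) (v : Fin 1 → R4) : one a v = a (v 0) := rfl

/-- the alternating part of a bilinear form -/
def alt2 : F2 →L[ℝ] A4 2 :=
  (1 / 2 : ℝ) • (ContinuousAlternatingMap.alternatizeUncurryFinCLM ℝ R4 ℝ (n := 1)).comp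
    (ContinuousLinearMap.compL ℝ R4 (R4 →L[ℝ] ℝ) (A4 1)
      one.toContinuousLinearEquiv.toContinuousLinearMap)

theorem alt2_apply' (φ : F2) (u v : R4) : alt2 φ ![u, v] = 1 / 2 * (φ u v - φ v u) := by
  show (1 / 2 : ℝ) * ContinuousAlternatingMap.alternatizeUncurryFin
    (one.toContinuousLinearEquiv.toContinuousLinearMap.comp φ) ![u, v] = _
  rw [ContinuousAlternatingMap.alternatizeUncurryFin_apply, Fin.sum_univ_two]
  simp [one_apply, Fin.removeNth, sub_eq_add_neg]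

theorem swap {φ : F2} (h : ∀ u, φ u u = 0) (u v : R4) : φ v u = -φ u v := by
  have h1 := h (u + v)
  simp only [map_add, ContinuousLinearMap.add_apply, h] at h1
  linarith

theorem alt2_apply {φ : F2} (h : ∀ u, φ u u = 0) (u v : R4) : alt2 φ ![u, v] = φ u v := by
  rw [alt2_apply', swap h u v]
  ring

theorem dd_apply (l : R4 → R4 →L[ℝ] ℝ) (y u v : R4) :
    dd l y u v = fderiv ℝ l y u v - fderiv ℝ l y v u := rfl

theorem extDeriv_one (l : R4 → R4 →L[ℝ] ℝ) (y u v : R4) :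
    extDeriv (fun y => one (l y)) y ![u, v] = dd l y u v := by
  have h := one.toContinuousLinearEquiv.comp_fderiv (f := l) (x := y)
  rw [extDeriv, show (fun y => one (l y)) = one.toContinuousLinearEquiv ∘ l from rfl, h,
    ContinuousAlternatingMap.alternatizeUncurryFin_apply, Fin.sum_univ_two, dd_apply]
  simp [one_apply, Fin.removeNth, sub_eq_add_neg]

theorem cf_dd {l : R4 → R4 →L[ℝ] ℝ} (hl : ContDiff ℝ ∞ l) (hc : HasCompactSupport l) :
    CF (dd l) ∧ tsupport (dd l) ⊆ tsupport l := by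
  have h1 : tsupport (dd l) ⊆ tsupport l := by
    refine (closure_mono ?_).trans (tsupport_fderiv_subset ℝ (f := l))
    intro y hy h
    apply hy
    rw [dd, h]
    ext u v
    simp
  refine ⟨⟨?_, hc.of_isClosed_subset (isClosed_tsupport _) h1, fun x u => sub_self _⟩, h1⟩
  have h2 := hl.continuous_fderiv (by simp)
  exact h2.sub ((ContinuousLinearMap.flipₗᵢ ℝ R4 R4 ℝ).continuous.comp h2)

variable {X : Type} [TopologicalSpace X] [ChartedSpace E4 X] {w : Tri X} (t : LocT w) {k : ℕ}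
  {x : X} {y : R4}

/-- the differential of the chart -/
def dk (x : X) : E4 →L[ℝ] R4 := mfderiv (𝓡 4) 𝓘(ℝ, R4) t.κ x

/-- the differential of the inverse of the chart -/
def ds (y : R4) : R4 →L[ℝ] E4 := mfderiv 𝓘(ℝ, R4) (𝓡 4) t.κ.symm y

theorem cm_k (hx : x ∈ t.κ.source) : ContMDiffAt (𝓡 4) 𝓘(ℝ, R4) ∞ t.κ x :=
  t.smooth.contMDiffAt (t.κ.open_source.mem_nhds hx)

theorem cm_s (hy : y ∈ t.κ.target) : ContMDiffAt 𝓘(ℝ, R4) (𝓡 4) ∞ t.κ.symm y :=
  t.smooth_symm.contMDiffAt (t.κ.open_target.mem_nhds hy)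

theorem mdiff : t.κ.MDifferentiable (𝓡 4) 𝓘(ℝ, R4) :=
  ⟨t.smooth.mdifferentiableOn (by simp), t.smooth_symm.mdifferentiableOn (by simp)⟩

theorem ds_dk (hx : x ∈ t.κ.source) (v : E4) : ds t (t.κ x) (dk t x v) = v :=
  DFunLike.congr_fun ((mdiff t).symm_comp_deriv hx) v

theorem dk_ds' (hy : y ∈ t.κ.target) (u : R4) : dk t (t.κ.symm y) (ds t y u) = u :=
  DFunLike.congr_fun ((mdiff t).comp_symm_deriv hy) u

theorem dk_ds (hx : x ∈ t.κ.source) (u : R4) : dk t x (ds t (t.κ x) u) = u := by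
  have h := dk_ds' t (t.κ.map_source hx) u
  rwa [t.κ.left_inv hx] at h

/-- the almost complex structure as a plain function -/
def jw (w : Tri X) (x : X) : E4 →L[ℝ] E4 := Jw w x

theorem dk_J (hx : x ∈ t.κ.source) (v : E4) :
    dk t x (jw w x v) = t.D.J (t.κ x) (dk t x v) := by
  have h : ds t (t.κ x) (t.D.J (t.κ x) (dk t x v)) =
      jw w (t.κ.symm (t.κ x)) (ds t (t.κ x) (dk t x v)) := t.J _ (t.κ.map_source hx) _
  rw [t.κ.left_inv hx, ds_dk t hx] at h
  rw [← h, dk_ds t hx]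

theorem om_dk (hx : x ∈ t.κ.source) (u v : E4) :
    w 2 x ![u, v] = cf2 t.D.om (t.κ x) (dk t x u) (dk t x v) := by
  have h : t.D.om.val (t.κ x) (dk t x u) (dk t x v) = w 2 (t.κ.symm (t.κ x))
      ![ds t (t.κ x) (dk t x u), ds t (t.κ x) (dk t x v)] := t.om _ (t.κ.map_source hx) _ _
  rw [ds_dk t hx, ds_dk t hx, Kr.val_eq] at h
  rw [h]
  exact congrArg (fun x => (w 2 x : E4 [⋀^Fin 2]→L[ℝ] ℝ) ![u, v]) (t.κ.left_inv hx).symm

theorem qf_dk (hx : x ∈ t.κ.source) (v : E4) :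
    qf t.D (t.κ x) (dk t x v) = w 2 x ![v, jw w x v] := by
  rw [om_dk t hx, dk_J t hx, qf, Kr.val_eq]

theorem vl_k (v : VF X) (i : Fin 2) (hx : x ∈ t.κ.source) :
    vl t v i (t.κ x) = dk t x (v i x) := by
  exact (if_pos (t.κ.map_source hx)).trans
    (congrArg (fun x => dk t x (v i x)) (t.κ.left_inv hx))

theorem fderiv_k {E : Type} [NormedAddCommGroup E] [NormedSpace ℝ E] {u : E → X} {z : E}
    (hu : MDifferentiableAt 𝓘(ℝ, E) (𝓡 4) u z) (hz : u z ∈ t.κ.source) (a : E) :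
    fderiv ℝ (fun z => t.κ (u z)) z a = dk t (u z) (mfderiv 𝓘(ℝ, E) (𝓡 4) u z a) := by
  have h := mfderiv_comp z ((mdiff t).mdifferentiableAt hz) hu
  rw [mfderiv_eq_fderiv] at h
  exact DFunLike.congr_fun h a

theorem cd_k {E : Type} [NormedAddCommGroup E] [NormedSpace ℝ E] {u : E → X} {z : E}
    (hu : ContMDiffAt 𝓘(ℝ, E) (𝓡 4) ∞ u z) (hz : u z ∈ t.κ.source) :
    ContDiffAt ℝ ∞ (fun z => t.κ (u z)) z := ((cm_k t hz).comp z hu).contDiffAt

open Classical in
/-- pull-back of a form by the chart, extended by zero -/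
def pb (a : R4 → A4 k) : Form X k := fun x =>
  if x ∈ t.κ.source then (a (t.κ x)).compContinuousLinearMap (dk t x) else 0

theorem pb_of_mem (a : R4 → A4 k) (hx : x ∈ t.κ.source) (v : Fin k → E4) :
    pb t a x v = a (t.κ x) fun i => dk t x (v i) := by
  rw [pb, if_pos hx]
  rfl

theorem pb_of_not (a : R4 → A4 k) (hx : x ∉ t.κ.source) : pb t a x = 0 := if_neg hx

theorem pb_zero {a : R4 → A4 k} (hx : x ∉ t.κ.symm '' tsupport a) : pb t a x = 0 := by
  by_cases h : x ∈ t.κ.source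
  · ext v
    refine (pb_of_mem t a h v).trans ?_
    rw [image_eq_zero_of_notMem_tsupport fun h' => hx ⟨_, h', t.κ.left_inv h⟩]
    rfl
  · exact pb_of_not t a h

theorem isPb_pb {a : R4 → A4 2} {φ : R4 → F2} (h : ∀ y ∈ t.κ.target, ∀ u v, a y ![u, v] = φ y u v) :
    IsPb t φ (pb t a) := by
  refine ⟨fun x => pb_of_not t a, fun x hx u v => ?_⟩
  refine (pb_of_mem t a hx _).trans (Eq.trans ?_ (h _ (t.κ.map_source hx) _ _))
  congr 1
  funext i
  fin_cases i <;> rfl

theorem isPb_unique {φ : R4 → F2} {ψ ψ' : Form X 2} (h : IsPb t φ ψ) (h' : IsPb t φ ψ') :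
    ψ = ψ' := by
  funext x
  by_cases hx : x ∈ t.κ.source
  · ext v
    have e : v = ![v 0, v 1] := by
      funext i
      fin_cases i <;> rfl
    rw [e, h.2 x hx, h'.2 x hx]
  · rw [h.1 x hx, h'.1 x hx]

theorem compact_symm {S : Set R4} (hS : IsCompact S) (h : S ⊆ t.κ.target) :
    IsCompact (t.κ.symm '' S) := hS.image_of_continuousOn (t.κ.continuousOn_symm.mono h)

variable [IsManifold (𝓡 4) ∞ X] {c : OpenPartialHomeomorph X E4} {z : E4}

theorem loc_pb (a : R4 → A4 k) (hc : c ∈ atlas E4 X) (hz : z ∈ c.target)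
    (h : c.symm z ∈ t.κ.source) : loc c (pb t a) =ᶠ[𝓝 z] fun z =>
      (a (t.κ (c.symm z))).compContinuousLinearMap (fderiv ℝ (fun z => t.κ (c.symm z)) z) := by
  filter_upwards [c.open_target.mem_nhds hz,
    (c.continuousAt_symm hz).eventually (t.κ.open_source.mem_nhds h)] with y hy hy'
  ext v
  refine (pb_of_mem t a hy' _).trans ?_
  show _ = a _ fun i => fderiv ℝ (fun z => t.κ (c.symm z)) y (v i)
  simp only [fderiv_k t ((cmd_symm hc hy).mdifferentiableAt (by simp)) hy']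
  rfl

variable [T2Space X]

theorem loc_pb_zero {a : R4 → A4 k} (h1 : HasCompactSupport a) (h2 : tsupport a ⊆ t.κ.target)
    (hz : z ∈ c.target) (h : c.symm z ∉ t.κ.source) : loc c (pb t a) =ᶠ[𝓝 z] fun _ => 0 := by
  have h3 : (t.κ.symm '' tsupport a)ᶜ ∈ 𝓝 (c.symm z) :=
    (compact_symm t h1 h2).isClosed.isOpen_compl.mem_nhds fun ⟨y, hy, e⟩ =>
      h (e ▸ t.κ.map_target (h2 hy))
  filter_upwards [(c.continuousAt_symm hz).eventually h3] with y hy
  ext v
  show pb t a (c.symm y) _ = _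
  rw [pb_zero t hy]
  rfl

theorem cd_pb {n : WithTop ℕ∞} (hn : n ≤ ∞) {a : R4 → A4 k} (ha : ContDiff ℝ n a)
    (h1 : HasCompactSupport a) (h2 : tsupport a ⊆ t.κ.target) (hc : c ∈ atlas E4 X)
    (hz : z ∈ c.target) : ContDiffAt ℝ n (loc c (pb t a)) z := by
  by_cases h : c.symm z ∈ t.κ.source
  · have h3 := cd_k t (cmd_symm hc hz) h
    exact (contDiffAt_comp_alt (ha.contDiffAt.comp z (h3.of_le hn))
      ((h3.fderiv_right (m := ∞) (by simp)).of_le hn)).congr_of_eventuallyEq (loc_pb t a hc hz h)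
  · exact contDiffAt_const.congr_of_eventuallyEq (loc_pb_zero t h1 h2 hz h)

theorem cont_pb {a : R4 → A4 k} (ha : Continuous a) (h1 : HasCompactSupport a)
    (h2 : tsupport a ⊆ t.κ.target) : Cont (pb t a) := fun c hc z hz =>
  (cd_pb t (n := 0) (by simp) (contDiff_zero.2 ha) h1 h2 hc hz).continuousAt.continuousWithinAt

theorem smooth_pb {a : R4 → A4 k} (ha : ContDiff ℝ ∞ a) (h1 : HasCompactSupport a)
    (h2 : tsupport a ⊆ t.κ.target) : Smooth (pb t a) := fun c hc z hz =>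
  (cd_pb t le_rfl ha h1 h2 hc hz).contDiffWithinAt

theorem dX_pb {a : R4 → A4 k} (ha : ContDiff ℝ ∞ a) (h1 : HasCompactSupport a)
    (h2 : tsupport a ⊆ t.κ.target) : dX (pb t a) = pb t (extDeriv a) := by
  funext x
  refine form_ext ?_
  have hc := chart_mem_atlas E4 x
  have hz := mem_chart_target E4 x
  rw [loc_dX isOpen_univ (smoothOn_univ.2 (smooth_pb t ha h1 h2)) hc hz trivial]
  by_cases h : (chartAt E4 x).symm (chartAt E4 x x) ∈ t.κ.source
  · rw [(loc_pb t a hc hz h).extDeriv_eq, (loc_pb t _ hc hz h).eq_of_nhds]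
    exact extDeriv_pullback (r := ∞) (f := fun z => t.κ ((chartAt E4 x).symm z))
      (ha.differentiable (by simp) _) (cd_k t (cmd_symm hc hz) h) minS
  · rw [(loc_pb_zero t h1 h2 hz h).extDeriv_eq]
    ext v
    show _ = pb t (extDeriv a) _ _
    rw [pb_of_not t _ h, extDeriv]
    simp [ContinuousAlternatingMap.alternatizeUncurryFin_apply]

/-- the pull-back of a test form -/
theorem exists_pb {φ : R4 → F2} (hφ : CF φ) (h : tsupport φ ⊆ t.κ.target) :
    ∃ ψ, Cont ψ ∧ IsPb t φ ψ ∧ ∀ x ∉ t.κ.symm '' tsupport φ, ψ x = 0 := by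
  have h1 : tsupport (fun y => alt2 (φ y)) ⊆ tsupport φ := tsupport_comp_subset alt2.map_zero φ
  exact ⟨pb t fun y => alt2 (φ y), cont_pb t (alt2.continuous.comp hφ.cont)
    (hφ.supp.comp_left alt2.map_zero) (h1.trans h),
    isPb_pb t fun y _ => alt2_apply (hφ.alt y), fun x hx => pb_zero t fun h => hx (image_mono h1 h)⟩

/-- the pull-back of an exact test form is exact -/
theorem pb_dd {l : R4 → R4 →L[ℝ] ℝ} (hl : TF t.κ.target l) :
    Smooth (pb t fun y => one (l y)) ∧ IsPb t (dd l) (dX (pb t fun y => one (l y))) := by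
  have h1 : tsupport (fun y => one (l y)) ⊆ t.κ.target :=
    (tsupport_comp_subset one.map_zero l).trans hl.sub
  have h2 : ContDiff ℝ ∞ fun y => one (l y) := one.contDiff.comp hl.sm
  have h3 : HasCompactSupport fun y => one (l y) := hl.cpt.comp_left one.map_zero
  refine ⟨smooth_pb t h2 h3 h1, ?_⟩
  rw [dX_pb t h2 h3 h1]
  exact isPb_pb t fun y _ => extDeriv_one l y

open Classical in
/-- push-forward of a form to the chart, extended by zero -/
def pf (α : Form X k) (y : R4) : A4 k := if y ∈ t.κ.target then pbf α t.κ.symm y else 0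

omit [T2Space X] in
theorem pb_pf (α : Form X k) (hx : x ∈ t.κ.source) : pb t (pf t α) x = α x := by
  ext v
  refine (pb_of_mem t _ hx v).trans ?_
  rw [pf, if_pos (t.κ.map_source hx)]
  show α (t.κ.symm (t.κ x)) (fun i => ds t (t.κ x) (dk t x (v i))) = _
  exact (congrArg _ (funext fun i => ds_dk t hx (v i))).trans (form_congr α (t.κ.left_inv hx) v)

omit [T2Space X] in
theorem tsupport_pf {α : Form X k} {C : Set X} (hC : IsCompact C) (h : C ⊆ t.κ.source)
    (h0 : ∀ x ∉ C, α x = 0) : IsCompact (t.κ '' C) ∧ tsupport (pf t α) ⊆ t.κ '' C := by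
  have h1 := hC.image_of_continuousOn (t.κ.continuousOn.mono h)
  refine ⟨h1, closure_minimal (fun y hy => by_contra fun h2 => hy ?_) h1.isClosed⟩
  by_cases h3 : y ∈ t.κ.target
  · rw [pf, if_pos h3, pbf, h0 _ fun h4 => h2 ⟨_, h4, t.κ.right_inv h3⟩]
    rfl
  · exact if_neg h3

omit [T2Space X] in
theorem cd_pf {n : WithTop ℕ∞} (hn : n ≤ ∞) {α : Form X k}
    (hα : ∀ c ∈ atlas E4 X, ContDiffOn ℝ n (loc c α) c.target) (hy : y ∈ t.κ.target) :
    ContDiffAt ℝ n (pf t α) y := by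
  have hc := chart_mem_atlas E4 (t.κ.symm y)
  have hz := mem_chart_source E4 (t.κ.symm y)
  have h3 := cd_chart hc (cm_s t hy) hz
  refine (contDiffAt_comp_alt (((hα _ hc).contDiffAt ((chartAt E4 (t.κ.symm y)).open_target.mem_nhds
    (mem_chart_target _ _))).comp y (h3.of_le hn))
    ((h3.fderiv_right (m := ∞) (by simp)).of_le hn)).congr_of_eventuallyEq ?_
  filter_upwards [pbf_ev α t.κ.open_target t.smooth_symm hy hc hz, t.κ.open_target.mem_nhds hy]
    with y' h1 h2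
  rw [pf, if_pos h2, h1]
  rfl

omit [T2Space X] in
theorem contDiff_pf {n : WithTop ℕ∞} (hn : n ≤ ∞) {α : Form X k}
    (hα : ∀ c ∈ atlas E4 X, ContDiffOn ℝ n (loc c α) c.target) {C : Set X} (hC : IsCompact C)
    (h : C ⊆ t.κ.source) (h0 : ∀ x ∉ C, α x = 0) : ContDiff ℝ n (pf t α) := by
  refine contDiff_iff_contDiffAt.2 fun y => ?_
  by_cases hy : y ∈ t.κ.target
  · exact cd_pf t hn hα hy
  · exact contDiffAt_const.congr_of_eventuallyEq (notMem_tsupport_iff_eventuallyEq.1 fun h1 => by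
      obtain ⟨x, hx, rfl⟩ := (tsupport_pf t hC h h0).2 h1
      exact hy (t.κ.map_source (h hx)))

end Vale.Agent.P247N.Lt
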