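import Vale.Agent.P247X.Spec

/-!
# P247, block N: closed positive currents, statements of the rows

A positive current is a finite measure together with two measurable vector fields `v 0`, `v 1`:
`T φ = ∫ ∑ i, φ (v i, J (v i)) dσ`.  The density is the limit of the averages with the kernel
`a / (t + a) ^ 2`, `t` the square of the distance; a complex line has density `π`.
-/

open scoped Manifold ContDiff Topology
open Set MeasureTheory Filter Metric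

noncomputable section

namespace Vale.Agent.P247N

open Vale.Agent.P247.SCY.HS Vale.Agent.P247X
open Vale.Agent.P247.H74 (R4 Data)
open Vale.Agent.P247.H574 (F2 Box PD IsPush IntM CF dd)

/-! ## Local objects -/

/-- the quadratic form `om (u, J u)` -/
def qf (D : Data) (x u : R4) : ℝ := D.om.val x u (D.J x u)

/-- the density of the form `φ` -/
def ld (D : Data) (w : Fin 2 → R4 → R4) (φ : R4 → F2) (y : R4) : ℝ :=
  ∑ i, φ y (w i y) (D.J y (w i y))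

/-- smooth one-forms with compact support in `U` -/
structure TF (U : Set R4) (l : R4 → R4 →L[ℝ] ℝ) : Prop where
  sm : ContDiff ℝ ∞ l
  cpt : HasCompactSupport l
  sub : tsupport l ⊆ U

/-- a positive current on the open set `W` which is closed in `W` -/
structure PC (D : Data) (W : Set R4) (r : Measure R4) (w : Fin 2 → R4 → R4) : Prop where
  opn : IsOpen W
  sub : W ⊆ ball 0 1
  fin : IsFiniteMeasure r
  ae : ∀ᵐ y ∂r, y ∈ W
  meas : ∀ i, Measurable (w i)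
  nrm : ∀ y ∈ W, ∑ i, qf D y (w i y) = 1
  closed : ∀ l, TF W l → ∫ y, ld D w (dd l) y ∂r = 0

/-- the kernel -/
def kn (a t : ℝ) : ℝ := a / (t + a) ^ 2

/-- the average at the scale `√a` -/
def Th (D : Data) (r : Measure R4) (x : R4) (a : ℝ) : ℝ := ∫ y, kn a (qf D x (y - x)) ∂r

/-- the density -/
def nu (D : Data) (r : Measure R4) (x : R4) : ℝ := limUnder (𝓝[>] 0) (Th D r x)

/-- `MON`: monotonicity, with constants which are linear in the mass -/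
def MON : Prop := ∀ (D : Data) (W K : Set R4), IsOpen W → IsCompact K → K ⊆ W → ∃ C, 0 ≤ C ∧
  ∀ r w, PC D W r w → ∀ x ∈ K, Tendsto (Th D r x) (𝓝[>] 0) (𝓝 (nu D r x)) ∧
    ∀ a, 0 < a → a ≤ 1 → Th D r x a ≤ C * r.real univ ∧
      nu D r x ≤ Th D r x a + C * r.real univ * √(√a)

/-- `CLO`: the product of a closed positive current with the density of another one is closed -/
def CLO : Prop := ∀ (D : Data) (W : Set R4) (x₀ : R4), IsOpen W → x₀ ∈ W →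
  ∃ U, IsOpen U ∧ x₀ ∈ U ∧ U ⊆ W ∧ ∀ r w r' w', PC D W r w → PC D U r' w' → ∀ l, TF U l →
    ∫ y, nu D r y * ld D w' (dd l) y ∂r' = 0

/-- `DEN`: the density of `g T` -/
def DEN : Prop := ∀ (D : Data) (W : Set R4) (r : Measure R4) (w : Fin 2 → R4 → R4),
  PC D W r w → ∀ g : R4 → ℝ, Measurable g → (∃ C, ∀ y, 0 ≤ g y ∧ g y ≤ C) →
  ∀ᵐ x ∂r, Tendsto (Th D (r.withDensity fun y => ENNReal.ofReal (g y)) x) (𝓝[>] 0)
    (𝓝 (g x * nu D r x))

/-- `INT`: a current of density one has integral slices -/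
def INT : Prop := ∀ (D : Data) (W : Set R4) (r : Measure R4) (w : Fin 2 → R4 → R4),
  PC D W r w → (∀ᵐ x ∂r, nu D r x = Real.pi) → ∀ b : Box D, b.Θ '' PD 2 ⊆ W →
  ∃ ν : ℂ → Measure ℂ, (∀ᵐ z ∂volume.restrict (ball (0 : ℂ) 1), IntM (ν z)) ∧
    ∀ f : ℂ × ℂ → ℝ, Continuous f → HasCompactSupport f → tsupport f ⊆ PD 1 →
      IntegrableOn (fun z => ∫ y, f (z, y) ∂(ν z)) (ball 0 1) ∧
      ∀ φ, IsPush b f φ → ∫ y, ld D w φ y ∂r = ∫ z in ball (0 : ℂ) 1, ∫ y, f (z, y) ∂(ν z)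

/-! ## Global objects -/

section defs

variable {X : Type} [TopologicalSpace X] [ChartedSpace E4 X]

/-- pairs of vector fields -/
abbrev VF (X : Type) [TopologicalSpace X] [ChartedSpace E4 X] :=
  Fin 2 → ∀ x : X, TangentSpace (𝓡 4) x

/-- the density of the form `φ` -/
def dn (w : Tri X) (v : VF X) (φ : Form X 2) (x : X) : ℝ :=
  ∑ i, φ x ![v i x, Jw w x (v i x)]

open Classical in
/-- the vector fields in a chart -/
def vl {w : Tri X} (t : LocT w) (v : VF X) (i : Fin 2) (y : R4) : R4 :=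
  if y ∈ t.κ.target then mfderiv (𝓡 4) 𝓘(ℝ, R4) t.κ (t.κ.symm y) (v i (t.κ.symm y)) else 0

variable [MeasurableSpace X]

/-- the current -/
def cur (w : Tri X) (σ : Measure X) (v : VF X) (φ : Form X 2) : ℝ := ∫ x, dn w v φ x ∂σ

/-- the measure in a chart -/
def rl {w : Tri X} (t : LocT w) (σ : Measure X) : Measure R4 :=
  Measure.map t.κ (σ.restrict t.κ.source)

/-- measurable normalised pairs of vector fields -/
structure VR (w : Tri X) (v : VF X) : Prop where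
  meas : ∀ (t : LocT w) i, Measurable (vl t v i)
  mdn : ∀ φ, Cont φ → Measurable (dn w v φ) ∧ ∃ C, ∀ x, |dn w v φ x| ≤ C
  nrm : ∀ x, dn w v (w 2) x = 1

end defs

/-- `REP`: representation of positive currents -/
def REP : Prop := ∀ (X : Type) [Cl4 X] (μ : Form X 4), Volume μ → ∀ w : Tri X,
  Hypersymplectic μ w → ∀ T, LinC T → PosF (Jw w) T →
  ∃ (σ : Measure X) (v : VF X), IsFiniteMeasure σ ∧ VR w v ∧ ∀ φ, Cont φ → T φ = cur w σ v φ

/-- `CHA`: reading a current in a chart; closedness is a local property -/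
def CHA : Prop := ∀ (X : Type) [Cl4 X] (μ : Form X 4), Volume μ → ∀ w : Tri X,
  Hypersymplectic μ w → ∀ (σ : Measure X) (v : VF X), IsFiniteMeasure σ → VR w v →
  (∀ (t : LocT w) φ ψ, Continuous φ → IsPb t φ ψ →
    cur w σ v ψ = ∫ y, ld t.D (vl t v) φ y ∂(rl t σ)) ∧
  (∀ (t : LocT w) φ, CF φ → tsupport φ ⊆ t.κ.target → ∃ ψ, Cont ψ ∧ IsPb t φ ψ ∧
    ∀ U, IsOpen U → (∀ x ∈ t.κ.source, t.κ x ∈ tsupport φ → x ∈ U) → SuppIn ψ U) ∧
  (PCur (Jw w) (cur w σ v) → ∀ t : LocT w, PC t.D t.κ.target (rl t σ) (vl t v)) ∧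
  ((∀ x, ∃ (t : LocT w) (U : Set R4), x ∈ t.κ.source ∧ IsOpen U ∧ t.κ x ∈ U ∧ U ⊆ t.κ.target ∧
    ∀ l, TF U l → ∫ y, ld t.D (vl t v) (dd l) y ∂(rl t σ) = 0) → PCur (Jw w) (cur w σ v))

/-- `NUI`: the density does not depend on the chart -/
def NUI : Prop := ∀ (X : Type) [Cl4 X] (μ : Form X 4), Volume μ → ∀ w : Tri X,
  Hypersymplectic μ w → ∀ (σ : Measure X), IsFiniteMeasure σ → ∀ (t t' : LocT w) (x : X) (c : ℝ),
  x ∈ t.κ.source → x ∈ t'.κ.source → Tendsto (Th t.D (rl t σ) (t.κ x)) (𝓝[>] 0) (𝓝 c) →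
  Tendsto (Th t'.D (rl t' σ) (t'.κ x)) (𝓝[>] 0) (𝓝 c)

/-- `SQ`: density zero almost everywhere implies nonnegative square -/
def SQ : Prop := ∀ (X : Type) [Cl4 X] (μ : Form X 4), Volume μ → ∀ w : Tri X,
  Hypersymplectic μ w → ∀ (σ : Measure X) (v : VF X), IsFiniteMeasure σ → VR w v →
  PCur (Jw w) (cur w σ v) → (∀ᵐ x ∂σ, ∃ t : LocT w, x ∈ t.κ.source ∧
    Tendsto (Th t.D (rl t σ) (t.κ x)) (𝓝[>] 0) (𝓝 0)) →
  ∀ α, IsCls μ (cur w σ v) α → 0 ≤ pair μ α α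

/-- `IRL`: lower bound for the density of a curve at a dense set of points -/
def IRL : Prop := ∀ (X : Type) [Cl4 X] (μ : Form X 4), Volume μ → ∀ w : Tri X,
  Hypersymplectic μ w → ∀ (K : Irr (Jw w)) (σ : Measure X) (v : VF X), IsFiniteMeasure σ →
  VR w v → (∀ φ, Cont φ → K.T φ = cur w σ v φ) → ∀ (t : LocT w), ∀ x ∈ K.K, x ∈ t.κ.source →
  ∀ V ∈ 𝓝 x, ∃ x' ∈ V, x' ∈ t.κ.source ∧
    ∀ᶠ a in 𝓝[>] (0 : ℝ), 1 / 2 ≤ Th t.D (rl t σ) (t.κ x') a

/-! ## The output of the block -/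

/-- `SIUC`: layer cake form of the decomposition -/
def SIUC_statement : Prop := ∀ (X : Type) [Cl4 X] (μ : Form X 4), Volume μ → ∀ w : Tri X,
  Hypersymplectic μ w → ∀ T, PCur (Jw w) T → 0 < T (w 2) → ∀ a, Cont a → T a ≤ 0 →
  (∃ T₀, PCur (Jw w) T₀ ∧ 0 < T₀ (w 2) ∧ T₀ a ≤ 0 ∧ ∀ α, IsCls μ T₀ α → 0 ≤ pair μ α α) ∨
  ∃ S, ICurX w S ∧ 0 < S (w 2) ∧ S a ≤ 0

/-- `SIUD`: limits of curves along an ultrafilter -/
def SIUD_statement : Prop := ∀ (X : Type) [Cl4 X] (μ : Form X 4), Volume μ → ∀ w : Tri X,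
  Hypersymplectic μ w → ∀ (ι : Type) (𝒰 : Ultrafilter ι) (K : ι → Irr (Jw w)) (M : ℝ),
  (∀ n, (K n).T (w 2) ≤ M) →
  ∃ (m : ℕ) (S : Fin m → Form X 2 → ℝ) (c : Fin m → ℝ), (∀ i, 0 < c i ∧ ICurX w (S i)) ∧
    (∀ φ, Cont φ → Tendsto (fun n => (K n).T φ) 𝒰 (𝓝 (∑ i, c i * S i φ))) ∧
    ∀ x, (∀ U ∈ 𝓝 x, ∀ᶠ n in (𝒰 : Filter ι), (U ∩ (K n).K).Nonempty) → ∃ i, x ∈ suppT (S i)

end Vale.Agent.P247N
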