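import Vale.Agent.P247N.Fr
import Vale.Agent.P247L.LX
import Vale.Agent.P247C.T1

/-!
# P247, block N, row REP: Cholesky decomposition, domination, the Riesz measure
-/

set_option linter.all false

open scoped BigOperators ContDiff Topology Manifold CompactlySupported
open Set Filter Metric MeasureTheory

noncomputable section

namespace Vale.Agent.P247N.Rep

open Vale.Agent.P204 Vale.Agent.P204.T4 Vale.Agent.P204.Mfd Vale.Agent.P247.SCY
open Vale.Agent.P247.H74 (R4 Data CForm e)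
open Vale.Agent.P247.H574 (F2 CF)
open Vale.Agent.P247X Vale.Agent.P247L

/-- the Cholesky decomposition of a nonnegative Hermitian two by two matrix -/
def ch (h : L2) : Fin 2 → V4 :=
  ![![√(h 0), 0, h 2 / √(h 0), -(h 1 / √(h 0))], ![0, 0, √(h 5 - (h 1 ^ 2 + h 2 ^ 2) / h 0), 0]]

/-- nonnegative Hermitian matrices -/
def Ok (h : L2) : Prop :=
  h 4 = h 1 ∧ h 3 = - h 2 ∧ 0 ≤ h 0 ∧ 0 ≤ h 5 ∧ h 1 ^ 2 + h 2 ^ 2 ≤ h 0 * h 5

theorem ev_i0 (q : L2) (z : V4) : ev q z (i0 z) = q 0 * (z 0 ^ 2 + z 1 ^ 2) +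
    (q 1 + q 4) * (z 1 * z 2 - z 0 * z 3) + (q 2 - q 3) * (z 0 * z 2 + z 1 * z 3) +
    q 5 * (z 2 ^ 2 + z 3 ^ 2) := by
  simp only [ev_eq, i0_0, i0_1, i0_2, i0_3]; ring

theorem ch_spec {h : L2} (hk : Ok h) (q : L2) :
    ∑ k, q k * h k = ∑ i, ev q (ch h i) (i0 (ch h i)) := by
  obtain ⟨h4, h3, h0, h5, hd⟩ := hk
  have a0 : ch h 0 0 = √(h 0) := rfl
  have a1 : ch h 0 1 = 0 := rfl
  have a2 : ch h 0 2 = h 2 / √(h 0) := rfl
  have a3 : ch h 0 3 = -(h 1 / √(h 0)) := rfl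
  have b0 : ch h 1 0 = 0 := rfl
  have b1 : ch h 1 1 = 0 := rfl
  have b2 : ch h 1 2 = √(h 5 - (h 1 ^ 2 + h 2 ^ 2) / h 0) := rfl
  have b3 : ch h 1 3 = 0 := rfl
  rw [Fin.sum_univ_two, ev_i0, ev_i0, a0, a1, a2, a3, b0, b1, b2, b3, Fin.sum_univ_six, h4, h3]
  rcases h0.eq_or_lt with h0 | h0
  · rw [← h0, zero_mul] at hd
    have e1 : h 1 = 0 := by nlinarith [sq_nonneg (h 1), sq_nonneg (h 2)]
    have e2 : h 2 = 0 := by nlinarith [sq_nonneg (h 1), sq_nonneg (h 2)]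
    rw [← h0, e1, e2]
    simp [Real.sq_sqrt h5]
  · have e1 : 0 ≤ h 5 - (h 1 ^ 2 + h 2 ^ 2) / h 0 := by
      rw [sub_nonneg, div_le_iff₀ h0]; linarith
    have e2 : √(h 0) ≠ 0 := (Real.sqrt_pos.2 h0).ne'
    have e3 : √(h 0) ^ 2 = h 0 := Real.sq_sqrt h0.le
    rw [Real.sq_sqrt e1]
    set s := √(h 0)
    rw [← e3]
    field_simp
    ring

theorem measurable_ch (i : Fin 2) : Measurable fun h => ch h i := by
  refine measurable_pi_lambda _ fun j => ?_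
  fin_cases i <;> fin_cases j <;>
    simp only [ch, Fin.zero_eta, Fin.mk_one, Fin.reduceFinMk, Matrix.cons_val_zero,
      Matrix.cons_val_one, Matrix.cons_val, Fin.isValue] <;> fun_prop

theorem measurableSet_ok : MeasurableSet {h : L2 | Ok h} := by
  refine IsClosed.measurableSet ?_
  unfold Ok
  simp only [setOf_and]
  refine IsClosed.inter (isClosed_eq ?_ ?_) (IsClosed.inter (isClosed_eq ?_ ?_) (IsClosed.inter
    (isClosed_le ?_ ?_) (IsClosed.inter (isClosed_le ?_ ?_) (isClosed_le ?_ ?_)))) <;> fun_prop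

theorem ok_of_tests {h : L2} (H : ∀ q : Fin 6 → ℚ,
    (∀ z, 0 ≤ ev (fun k => (q k : ℝ)) z (i0 z)) → 0 ≤ ∑ k, (q k : ℝ) * h k) : Ok h := by
  have t1 := H ![0, 1, 0, 0, -1, 0] fun z => by rw [ev_i0]; simp
  have t2 := H ![0, -1, 0, 0, 1, 0] fun z => by rw [ev_i0]; simp
  have t3 := H ![0, 0, 1, 1, 0, 0] fun z => by rw [ev_i0]; simp
  have t4 := H ![0, 0, -1, -1, 0, 0] fun z => by rw [ev_i0]; simp
  have t5 := H ![0, 0, 0, 0, 0, 1] fun z => by rw [ev_i0]; simp; positivity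
  simp [Fin.sum_univ_six] at t1 t2 t3 t4 t5
  have h4 : h 4 = h 1 := by linarith
  have h3 : h 3 = - h 2 := by linarith
  have t6 : ∀ p : ℝ × ℝ, 0 ≤ h 0 + 2 * p.1 * h 1 + 2 * p.2 * h 2 + (p.1 ^ 2 + p.2 ^ 2) * h 5 := by
    intro p
    refine (Rat.denseRange_cast.prodMap Rat.denseRange_cast).induction_on p
      (isClosed_le (by fun_prop) (by fun_prop)) fun r => ?_
    have := H ![1, r.1, r.2, -r.2, r.1, r.1 ^ 2 + r.2 ^ 2] fun z => by
      rw [ev_i0]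
      simp
      nlinarith [sq_nonneg (z 0 + r.2 * z 2 - r.1 * z 3), sq_nonneg (z 1 + r.1 * z 2 + r.2 * z 3)]
    simp [Fin.sum_univ_six, h4, h3] at this ⊢
    linarith
  have h0 : 0 ≤ h 0 := by simpa using t6 (0, 0)
  refine ⟨h4, h3, h0, t5, ?_⟩
  rcases t5.eq_or_lt with h5 | h5
  · rw [← h5, mul_zero]
    by_contra hn
    push Not at hn
    have := t6 (-(h 0 + 1) / (h 1 ^ 2 + h 2 ^ 2) * h 1, -(h 0 + 1) / (h 1 ^ 2 + h 2 ^ 2) * h 2)
    rw [← h5] at this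
    have e : h 0 + 2 * (-(h 0 + 1) / (h 1 ^ 2 + h 2 ^ 2) * h 1) * h 1 +
        2 * (-(h 0 + 1) / (h 1 ^ 2 + h 2 ^ 2) * h 2) * h 2 = - h 0 - 2 := by
      field_simp; ring
    simp only [mul_zero, add_zero] at this
    linarith
  · have := mul_nonneg h5.le (t6 (-h 1 / h 5, -h 2 / h 5))
    have e : h 5 * (h 0 + 2 * (-h 1 / h 5) * h 1 + 2 * (-h 2 / h 5) * h 2 +
        ((-h 1 / h 5) ^ 2 + (-h 2 / h 5) ^ 2) * h 5) = h 0 * h 5 - (h 1 ^ 2 + h 2 ^ 2) := by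
      field_simp; ring
    simp only at this
    linarith

variable {X : Type} [Cl4 X] {w : Tri X}

theorem vl_chart (t : LocT w) (φ : HS.Form X 2) {x : X} (hx : x ∈ t.κ.source) (u v : E4) :
    P247L.vl φ x ![u, v] = pf t φ (t.κ x) (dk t x u) (dk t x v) := by
  rw [pf_apply t φ (t.κ.map_source hx), dki_dk t hx, dki_dk t hx, t.κ.left_inv hx]

theorem w2_chart (t : LocT w) {x : X} (hx : x ∈ t.κ.source) (v : E4) :
    P247L.vl (w 2) x ![v, Jat (Jw w) x v] = qf t.D (t.κ x) (dk t x v) := by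
  rw [vl_chart t _ hx, dk_J t hx, pf_apply t _ (t.κ.map_source hx)]
  exact (t.om _ (t.κ.map_source hx) _ _).symm

variable {μ : HS.Form X 4} (hμ : HS.Volume μ) (hw : HS.Hypersymplectic μ w)
include hμ hw

theorem w2_nonneg (x : X) (v : E4) : 0 ≤ P247L.vl (w 2) x ![v, Jat (Jw w) x v] := by
  obtain ⟨t, hx, -⟩ := TRANS X μ hμ w hw x univ univ_mem
  rw [w2_chart t hx]
  exact qf_nonneg _ _ _

/-- continuous forms are dominated by the taming form -/
theorem dom {φ : HS.Form X 2} (hφ : Cont φ) : ∃ C, 0 < C ∧ ∀ x (v : E4),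
    |P247L.vl φ x ![v, Jat (Jw w) x v]| ≤ C * P247L.vl (w 2) x ![v, Jat (Jw w) x v] := by
  have key : ∃ C, 0 < C ∧ ∀ x ∈ (univ : Set X), ∀ v : E4,
      |P247L.vl φ x ![v, Jat (Jw w) x v]| ≤ C * P247L.vl (w 2) x ![v, Jat (Jw w) x v] := by
    refine isCompact_univ.induction_on (p := fun s => ∃ C, 0 < C ∧ ∀ x ∈ s, ∀ v : E4,
      |P247L.vl φ x ![v, Jat (Jw w) x v]| ≤ C * P247L.vl (w 2) x ![v, Jat (Jw w) x v])
      ⟨1, one_pos, fun x hx => hx.elim⟩ (fun s s' hs ⟨C, h0, h⟩ => ⟨C, h0, fun x hx => h x (hs hx)⟩)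
      ?_ fun x _ => ?_
    · rintro s s' ⟨C, h0, h⟩ ⟨C', h0', h'⟩
      refine ⟨C + C', by positivity, fun x hx v => ?_⟩
      have h1 := w2_nonneg hμ hw x v
      rcases hx with hx | hx
      · nlinarith [h x hx v]
      · nlinarith [h' x hx v]
    · obtain ⟨t, hx, -⟩ := TRANS X μ hμ w hw x univ univ_mem
      obtain ⟨c, c0, hc⟩ := qf_lo t.D
      have h1 : ContinuousAt (fun x => ‖pf t φ (t.κ x)‖ * ‖t.D.J (t.κ x)‖) x := by
        have h2 := t.κ.continuousAt hx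
        have h3 : ContinuousAt (fun x => pf t φ (t.κ x)) x := ContinuousAt.comp (f := t.κ)
          ((continuousOn_pf t hφ).continuousAt (t.κ.open_target.mem_nhds (t.κ.map_source hx))) h2
        have h4 : ContinuousAt (fun x => ‖pf t φ (t.κ x)‖) x :=
          ContinuousAt.comp (g := fun f : F2 => ‖f‖) P247.H264.continuous_norm_F2.continuousAt h3
        have h5 : ContinuousAt (fun x => t.D.J (t.κ x)) x :=
          ContinuousAt.comp (f := t.κ) t.D.J_smooth.continuous.continuousAt h2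
        exact h4.mul h5.norm
      set B := ‖pf t φ (t.κ x)‖ * ‖t.D.J (t.κ x)‖ + 1 with hB
      have B0 : 0 < B := by positivity
      refine ⟨_, mem_nhdsWithin_of_mem_nhds (inter_mem (t.κ.open_source.mem_nhds hx)
        (h1.eventually (gt_mem_nhds (lt_add_one _)))), B / c, by positivity, fun y hy v => ?_⟩
      rw [w2_chart t hy.1, vl_chart t φ hy.1, dk_J t hy.1]
      set u := dk t y v
      have h3 : ‖pf t φ (t.κ y)‖ * ‖t.D.J (t.κ y)‖ < B := hy.2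
      calc _ ≤ ‖pf t φ (t.κ y)‖ * ‖u‖ * ‖t.D.J (t.κ y) u‖ := (pf t φ (t.κ y)).le_opNorm₂ _ _
        _ ≤ ‖pf t φ (t.κ y)‖ * ‖u‖ * (‖t.D.J (t.κ y)‖ * ‖u‖) := by
          gcongr; exact (t.D.J _).le_opNorm _
        _ = ‖pf t φ (t.κ y)‖ * ‖t.D.J (t.κ y)‖ * ‖u‖ ^ 2 := by ring
        _ ≤ B * ‖u‖ ^ 2 := by gcongr
        _ = B / c * (c * ‖u‖ ^ 2) := by field_simp
        _ ≤ _ := by gcongr; exact hc _ _
  obtain ⟨C, h0, h⟩ := key
  exact ⟨C, h0, fun x => h x trivial⟩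

omit hμ hw in
/-- the functional `f ↦ T (f φ)` -/
def sc {T : HS.Form X 2 → ℝ} (hT : LinC T) {φ : HS.Form X 2} (hφ : Cont φ) :
    C_c(X, ℝ) →ₗ[ℝ] ℝ where
  toFun f := T fun x => f x • φ x
  map_add' f g := by
    rw [← hT.add _ _ (P247C.cont_fsmul (map_continuous f) hφ) (P247C.cont_fsmul (map_continuous g) hφ)]
    congr 1; funext x
    exact add_smul (f x) (g x) (φ x)
  map_smul' r f := by
    rw [RingHom.id_apply, smul_eq_mul, ← hT.smul _ _ (P247C.cont_fsmul (map_continuous f) hφ)]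
    congr 1; funext x
    exact mul_smul r (f x) (φ x)

omit hμ hw in
/-- continuous functions on a compact space have compact support -/
def cc (f : X → ℝ) (hf : Continuous f) : C_c(X, ℝ) :=
  ⟨⟨f, hf⟩, HasCompactSupport.of_compactSpace _⟩

omit hμ hw in
theorem ae_nonneg (σ : Measure X) [IsFiniteMeasure σ] {h : X → ℝ} (hm : Measurable h) {C : ℝ}
    (hb : ∀ y, |h y| ≤ C)
    (hT : ∀ f : X → ℝ, Continuous f → (∀ y, 0 ≤ f y) → 0 ≤ ∫ y, f y * h y ∂σ) :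
    ∀ᵐ y ∂σ, 0 ≤ h y := by
  haveI : TopologicalSpace.MetrizableSpace X := Manifold.metrizableSpace (𝓡 4) X
  letI := TopologicalSpace.metrizableSpaceMetric X
  exact ae_nonneg_of_test σ hm continuous_const hb fun f hf => hT f f.continuous hf

/-- the Riesz measure and the densities -/
theorem riesz {T : HS.Form X 2 → ℝ} (hT : LinC T) (hp : PosF (Jw w) T) :
    ∃ σ : Measure X, IsFiniteMeasure σ ∧
      (∀ f : X → ℝ, Continuous f → T (fun x => f x • w 2 x) = ∫ x, f x ∂σ) ∧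
      ∀ φ, Cont φ → ∃ g : X → ℝ, Measurable g ∧ (∃ C, ∀ x, |g x| ≤ C) ∧
        ∀ f : X → ℝ, Continuous f → T (fun x => f x • φ x) = ∫ x, f x * g x ∂σ := by
  haveI : TopologicalSpace.MetrizableSpace X := Manifold.metrizableSpace (𝓡 4) X
  letI := TopologicalSpace.metrizableSpaceMetric X
  have c2 : Cont (w 2) := cont_of_smooth (hw.smooth 2)
  have hpos : ∀ {φ} (hφ : Cont φ), (∀ x (v : E4), 0 ≤ P247L.vl φ x ![v, Jat (Jw w) x v]) →
      ∀ f : C_c(X, ℝ), (∀ y, 0 ≤ f y) → 0 ≤ sc hT hφ f := fun hφ h f hf =>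
    hp _ (P247C.cont_fsmul (map_continuous f) hφ) fun x v => mul_nonneg (hf x) (h x v)
  obtain ⟨σ, hσ, hi⟩ := exists_riesz (sc hT c2) (hpos c2 (w2_nonneg hμ hw))
  refine ⟨σ, inferInstance, fun f hf => (hi (cc f hf)).symm, fun φ hφ => ?_⟩
  obtain ⟨C, C0, hC⟩ := dom hμ hw hφ
  have e : ∀ (r : ℝ) (f : C_c(X, ℝ)), sc hT (c2.add (hφ.smul r)) f =
      sc hT c2 f + r * sc hT hφ f := by
    intro r f
    show T _ = T _ + r * T _
    rw [← hT.smul _ _ (P247C.cont_fsmul (map_continuous f) hφ), ← hT.add _ _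
      (P247C.cont_fsmul (map_continuous f) c2) ((P247C.cont_fsmul (map_continuous f) hφ).smul r)]
    congr 1; funext x
    beta_reduce
    rw [smul_add, smul_comm]
  have p : ∀ r : ℝ, |r| = C⁻¹ → ∀ x (v : E4),
      0 ≤ P247L.vl (fun x => w 2 x + r • φ x) x ![v, Jat (Jw w) x v] := by
    intro r hr x v
    show 0 ≤ P247L.vl (w 2) x ![v, Jat (Jw w) x v] + r * P247L.vl φ x ![v, Jat (Jw w) x v]
    have h1 : |r * P247L.vl φ x ![v, Jat (Jw w) x v]| ≤ P247L.vl (w 2) x ![v, Jat (Jw w) x v] := by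
      rw [abs_mul, hr, inv_mul_le_iff₀ C0]; exact hC x v
    linarith [neg_abs_le (r * P247L.vl φ x ![v, Jat (Jw w) x v])]
  obtain ⟨ρ, h1, h2, h3⟩ := exists_density σ (sc hT (c2.add (hφ.smul C⁻¹)))
    (sc hT (c2.add (hφ.smul (-C⁻¹)))) (hpos _ (p _ (abs_of_pos (inv_pos.2 C0))))
    (hpos _ (p _ (by rw [abs_neg, abs_of_pos (inv_pos.2 C0)])))
    (fun f => by rw [e, e, hi]; ring)
  refine ⟨fun x => C * ρ x, h1.const_mul C, ⟨C, fun x => ?_⟩, fun f hf => ?_⟩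
  · rw [abs_mul, abs_of_pos C0]; exact mul_le_of_le_one_right C0.le (h2 x)
  · have h4 := h3 (cc f hf)
    rw [e, hi, add_sub_cancel_left, inv_mul_eq_iff_eq_mul₀ C0.ne', ← integral_const_mul] at h4
    refine h4.trans (integral_congr_ae (Eventually.of_forall fun x => ?_))
    show C * (f x * ρ x) = f x * (C * ρ x)
    ring

end Vale.Agent.P247N.Rep
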