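import Vale.Agent.P247N.Sta

/-!
# P247, block N: algebra in `ℝ⁴ = ℂ²`
-/

set_option linter.all false

open Set

noncomputable section

namespace Vale.Agent.P247N

open Vale.Agent.P247.H74 (R4)

/-- the Euclidean product -/
def ip (u v : R4) : ℝ := u 0 * v 0 + u 1 * v 1 + u 2 * v 2 + u 3 * v 3
/-- the square of the length -/
def n2 (u : R4) : ℝ := u 0 ^ 2 + u 1 ^ 2 + u 2 ^ 2 + u 3 ^ 2
/-- the standard complex structure -/
def i0 (u : R4) : R4 := ![-u 1, u 0, -u 3, u 2]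
/-- real and imaginary part of the complex determinant -/
def c1 (u w : R4) : ℝ := u 0 * w 2 - u 1 * w 3 - u 2 * w 0 + u 3 * w 1
def c2 (u w : R4) : ℝ := u 0 * w 3 + u 1 * w 2 - u 2 * w 1 - u 3 * w 0
/-- the square of the modulus of the complex determinant -/
def cd (u w : R4) : ℝ := c1 u w ^ 2 + c2 u w ^ 2
/-- the triple product -/
def tc (a b c : R4) : R4 :=
  ![-(a 1 * (b 2 * c 3 - b 3 * c 2) - a 2 * (b 1 * c 3 - b 3 * c 1) + a 3 * (b 1 * c 2 - b 2 * c 1)),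
    a 0 * (b 2 * c 3 - b 3 * c 2) - a 2 * (b 0 * c 3 - b 3 * c 0) + a 3 * (b 0 * c 2 - b 2 * c 0),
    -(a 0 * (b 1 * c 3 - b 3 * c 1) - a 1 * (b 0 * c 3 - b 3 * c 0) + a 3 * (b 0 * c 1 - b 1 * c 0)),
    a 0 * (b 1 * c 2 - b 2 * c 1) - a 1 * (b 0 * c 2 - b 2 * c 0) + a 2 * (b 0 * c 1 - b 1 * c 0)]
/-- the volume form -/
def vo (a b c d : R4) : ℝ := ip (tc a b c) d

@[simp] theorem i0_0 (u : R4) : i0 u 0 = -u 1 := rfl
@[simp] theorem i0_1 (u : R4) : i0 u 1 = u 0 := rfl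
@[simp] theorem i0_2 (u : R4) : i0 u 2 = -u 3 := rfl
@[simp] theorem i0_3 (u : R4) : i0 u 3 = u 2 := rfl

theorem vo_eq (a b c d : R4) : vo a b c d =
    -(a 1 * (b 2 * c 3 - b 3 * c 2) - a 2 * (b 1 * c 3 - b 3 * c 1) +
      a 3 * (b 1 * c 2 - b 2 * c 1)) * d 0 +
    (a 0 * (b 2 * c 3 - b 3 * c 2) - a 2 * (b 0 * c 3 - b 3 * c 0) +
      a 3 * (b 0 * c 2 - b 2 * c 0)) * d 1 +
    -(a 0 * (b 1 * c 3 - b 3 * c 1) - a 1 * (b 0 * c 3 - b 3 * c 0) +
      a 3 * (b 0 * c 1 - b 1 * c 0)) * d 2 +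
    (a 0 * (b 1 * c 2 - b 2 * c 1) - a 1 * (b 0 * c 2 - b 2 * c 0) +
      a 2 * (b 0 * c 1 - b 1 * c 0)) * d 3 := rfl

theorem n2_nonneg (u : R4) : 0 ≤ n2 u := by unfold n2; positivity
theorem cd_nonneg (u w : R4) : 0 ≤ cd u w := by unfold cd; positivity
theorem n2_i0 (u : R4) : n2 (i0 u) = n2 u := by simp only [n2, i0_0, i0_1, i0_2, i0_3]; ring
theorem ip_self (u : R4) : ip u u = n2 u := by unfold ip n2; ring
theorem cd_comm (u w : R4) : cd u w = cd w u := by unfold cd c1 c2; ring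
theorem cd_i0 (u w : R4) : cd u (i0 w) = cd u w := by
  simp only [cd, c1, c2, i0_0, i0_1, i0_2, i0_3]; ring

theorem lagr (u w : R4) : cd u w + ip u w ^ 2 + ip (i0 u) w ^ 2 = n2 u * n2 w := by
  simp only [cd, c1, c2, ip, n2, i0_0, i0_1, i0_2, i0_3]; ring

theorem cd_le (u w : R4) : cd u w ≤ n2 u * n2 w := by
  nlinarith [lagr u w, sq_nonneg (ip u w), sq_nonneg (ip (i0 u) w)]

theorem ip_sq (u w : R4) : ip u w ^ 2 ≤ n2 u * n2 w := by
  nlinarith [lagr u w, cd_nonneg u w, sq_nonneg (ip (i0 u) w)]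

theorem n2_add_le (u w : R4) : n2 (u + w) ≤ 2 * n2 u + 2 * n2 w := by
  simp only [n2, Pi.add_apply]
  nlinarith [sq_nonneg (u 0 - w 0), sq_nonneg (u 1 - w 1), sq_nonneg (u 2 - w 2),
    sq_nonneg (u 3 - w 3)]

theorem n2_sub_le (u w : R4) : n2 (u - w) ≤ 2 * n2 u + 2 * n2 w := by
  simp only [n2, Pi.sub_apply]
  nlinarith [sq_nonneg (u 0 + w 0), sq_nonneg (u 1 + w 1), sq_nonneg (u 2 + w 2),
    sq_nonneg (u 3 + w 3)]

theorem n2_cx (α β : ℝ) (v : R4) : n2 (α • v - β • i0 v) = (α ^ 2 + β ^ 2) * n2 v := by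
  simp only [n2, Pi.sub_apply, Pi.smul_apply, smul_eq_mul, i0_0, i0_1, i0_2, i0_3]; ring

theorem cd_cx (α β : ℝ) (w v : R4) : cd w (α • v - β • i0 v) = (α ^ 2 + β ^ 2) * cd w v := by
  simp only [cd, c1, c2, Pi.sub_apply, Pi.smul_apply, smul_eq_mul, i0_0, i0_1, i0_2, i0_3]; ring

theorem cd_sub_le (w u v : R4) : cd w (u - v) ≤ 2 * cd w u + 2 * cd w v := by
  have h1 : c1 w (u - v) = c1 w u - c1 w v := by simp only [c1, Pi.sub_apply]; ring
  have h2 : c2 w (u - v) = c2 w u - c2 w v := by simp only [c2, Pi.sub_apply]; ring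
  simp only [cd, h1, h2]
  nlinarith [sq_nonneg (c1 w u + c1 w v), sq_nonneg (c2 w u + c2 w v)]

theorem vo_cx (z u v : R4) : vo z (i0 z) u v = c1 z u * c2 z v - c2 z u * c1 z v := by
  simp only [vo_eq, c1, c2, i0_0, i0_1, i0_2, i0_3]; ring

/-- almost positivity -/
theorem vo_ge (z w ρ : R4) : cd z w / 2 - n2 z * n2 ρ / 2 ≤ vo z (i0 z) w (i0 w + ρ) := by
  have h : vo z (i0 z) w (i0 w + ρ) = cd z w + (c1 z w * c2 z ρ - c2 z w * c1 z ρ) := by
    simp only [vo_eq, cd, c1, c2, Pi.add_apply, i0_0, i0_1, i0_2, i0_3]; ring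
  have h2 := cd_le z ρ
  rw [h]
  unfold cd at *
  nlinarith [sq_nonneg (c1 z w + c2 z ρ), sq_nonneg (c2 z w - c1 z ρ)]

theorem vo_sq0 (u b w ρ : R4) :
    vo u b w ρ ^ 2 ≤ 2 * n2 ρ * (n2 u * cd w b + cd w u * n2 b) := by
  rcases (n2_nonneg w).eq_or_lt with h0 | h0
  · have h : ∀ i, w i = 0 := by
      unfold n2 at h0
      intro i
      fin_cases i <;> simp only [Fin.zero_eta, Fin.mk_one, Fin.reduceFinMk] <;>
        nlinarith [sq_nonneg (w 0), sq_nonneg (w 1), sq_nonneg (w 2), sq_nonneg (w 3)]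
    have := n2_nonneg ρ; have := n2_nonneg u; have := n2_nonneg b
    have := cd_nonneg w b; have := cd_nonneg w u
    have h1 : vo u b w ρ = 0 := by simp [vo_eq, h]
    rw [h1, sq, mul_zero]; positivity
  have e : n2 w * vo u b w ρ =
      ip (i0 w) ρ * (c1 w u * c2 w b - c2 w u * c1 w b) +
      c1 w ρ * (c2 w u * ip (i0 w) b - ip (i0 w) u * c2 w b) +
      c2 w ρ * (ip (i0 w) u * c1 w b - c1 w u * ip (i0 w) b) := by
    simp only [vo_eq, ip, n2, c1, c2, i0_0, i0_1, i0_2, i0_3]; ring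
  have cs : ∀ p q r x y z : ℝ, (p * x + q * y + r * z) ^ 2 ≤
      (p ^ 2 + q ^ 2 + r ^ 2) * (x ^ 2 + y ^ 2 + z ^ 2) := fun p q r x y z => by
    nlinarith [sq_nonneg (p * y - q * x), sq_nonneg (p * z - r * x), sq_nonneg (q * z - r * y)]
  have l1 := lagr w ρ
  have l2 := lagr w u
  have l3 := lagr w b
  have h1 : ip (i0 w) ρ ^ 2 + c1 w ρ ^ 2 + c2 w ρ ^ 2 ≤ n2 w * n2 ρ := by
    unfold cd at l1; nlinarith [sq_nonneg (ip w ρ)]
  have h2 : (c1 w u * c2 w b - c2 w u * c1 w b) ^ 2 +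
      (c2 w u * ip (i0 w) b - ip (i0 w) u * c2 w b) ^ 2 +
      (ip (i0 w) u * c1 w b - c1 w u * ip (i0 w) b) ^ 2 ≤
      2 * (cd w u * (cd w b + ip (i0 w) b ^ 2) + ip (i0 w) u ^ 2 * cd w b) := by
    unfold cd
    nlinarith [sq_nonneg (c1 w u * c1 w b + c2 w u * c2 w b),
      sq_nonneg (c1 w u * c2 w b - c2 w u * c1 w b),
      sq_nonneg (c2 w u * ip (i0 w) b + ip (i0 w) u * c2 w b),
      sq_nonneg (ip (i0 w) u * c1 w b + c1 w u * ip (i0 w) b)]
  have h3 : cd w u * (cd w b + ip (i0 w) b ^ 2) ≤ cd w u * (n2 w * n2 b) :=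
    mul_le_mul_of_nonneg_left (by nlinarith [sq_nonneg (ip w b)]) (cd_nonneg _ _)
  have h4 : ip (i0 w) u ^ 2 * cd w b ≤ n2 w * n2 u * cd w b :=
    mul_le_mul_of_nonneg_right (by nlinarith [sq_nonneg (ip w u), cd_nonneg w u]) (cd_nonneg _ _)
  have h5 : (n2 w * vo u b w ρ) ^ 2 ≤
      (n2 w * n2 ρ) * (2 * (cd w u * (n2 w * n2 b) + n2 w * n2 u * cd w b)) := by
    rw [e]
    exact (cs _ _ _ _ _ _).trans (mul_le_mul h1 (by linarith) (by positivity)
      (mul_nonneg h0.le (n2_nonneg _)))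
  refine le_of_mul_le_mul_left ?_ (pow_pos h0 2)
  calc n2 w ^ 2 * vo u b w ρ ^ 2 = (n2 w * vo u b w ρ) ^ 2 := by ring
    _ ≤ _ := h5
    _ = _ := by ring

/-- the basic bound -/
theorem vo_sq (u b w ρ : R4) : vo u b w (i0 w + ρ) ^ 2 ≤
    2 * (cd w u * cd w b) + 4 * n2 ρ * (n2 u * cd w b + cd w u * n2 b) := by
  have h : vo u b w (i0 w + ρ) = (c1 w u * c2 w b - c2 w u * c1 w b) + vo u b w ρ := by
    simp only [vo_eq, c1, c2, Pi.add_apply, i0_0, i0_1, i0_2, i0_3]; ring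
  have h1 : (c1 w u * c2 w b - c2 w u * c1 w b) ^ 2 ≤ cd w u * cd w b := by
    unfold cd; nlinarith [sq_nonneg (c1 w u * c1 w b + c2 w u * c2 w b)]
  rw [h]
  nlinarith [vo_sq0 u b w ρ, sq_nonneg ((c1 w u * c2 w b - c2 w u * c1 w b) - vo u b w ρ)]

/-- the bound in terms of the excess and of the intersection density -/
theorem vo_ep {C t : ℝ} {z u v b w ρ : R4} (hC : 1 ≤ C) (ht : t = n2 z)
    (hρ : n2 ρ ≤ C * t * n2 w) (hu : n2 u = t) (hu' : cd w u = cd z w) {L : ℝ} (hL : 0 ≤ L)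
    (hb : n2 b ≤ L * n2 v ^ 2) (hb' : cd w b ≤ L * n2 v * (cd v w + t * n2 v * n2 w)) :
    vo u b w (i0 w + ρ) ^ 2 ≤
      6 * C * L * (((cd z w + t ^ 2 * n2 w) * n2 v) * (cd v w + t * n2 v * n2 w)) := by
  have t0 : 0 ≤ t := ht ▸ n2_nonneg z
  have := n2_nonneg w; have := n2_nonneg v; have := cd_nonneg z w; have := cd_nonneg v w
  have := n2_nonneg ρ
  refine (vo_sq u b w ρ).trans ?_
  rw [hu, hu']
  set P := cd v w + t * n2 v * n2 w with hP
  have P0 : t * n2 v * n2 w ≤ P := by linarith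
  have P1 : 0 ≤ P := by positivity
  have a1 : cd z w * cd w b ≤ cd z w * (L * n2 v * P) := by gcongr
  have a2 : n2 ρ * (t * cd w b) ≤ (C * t * n2 w) * (t * (L * n2 v * P)) := by
    have := cd_nonneg w b
    gcongr
  have a3 : n2 ρ * (cd z w * n2 b) ≤ (C * t * n2 w) * (cd z w * (L * n2 v ^ 2)) := by
    have := n2_nonneg b
    gcongr
  have a4 : (C * t * n2 w) * (cd z w * (L * n2 v ^ 2)) ≤ C * L * (cd z w * n2 v) * P := by
    calc _ = C * L * (cd z w * n2 v) * (t * n2 v * n2 w) := by ring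
      _ ≤ _ := by gcongr
  have a5 : cd z w * (L * n2 v * P) ≤ C * (cd z w * (L * n2 v * P)) :=
    le_mul_of_one_le_left (by positivity) hC
  have a6 : 0 ≤ C * L * (t ^ 2 * n2 w * n2 v * P) := by positivity
  nlinarith

theorem am_gm {x E P τ : ℝ} (h : x ^ 2 ≤ E * P) (hE : 0 ≤ E) (hP : 0 ≤ P) (hτ : 0 < τ) :
    |x| ≤ τ * P + E / τ := by
  refine abs_le_of_sq_le_sq ?_ (by positivity) |>.trans le_rfl
  have : (τ * P + E / τ) ^ 2 = (τ * P - E / τ) ^ 2 + 4 * (E * P) := by field_simp; ring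
  nlinarith [sq_nonneg (τ * P - E / τ), mul_nonneg hE hP]

/-- the trace identity -/
theorem vo_tr (z v q w p : R4) : ip z v * vo z q w p + ip z q * vo v z w p +
    ip z w * vo v q z p + ip z p * vo v q w z = n2 z * vo v q w p := by
  simp only [vo_eq, ip, n2]; ring

theorem vo_rad (z u v : R4) : ip z u * ip (i0 z) v - ip z v * ip (i0 z) u =
    n2 z * ip (i0 u) v - vo z (i0 z) u v := by
  simp only [vo_eq, ip, n2, i0_0, i0_1, i0_2, i0_3]; ring

theorem vo_three (z Z u v : R4) : ip z Z * ip (i0 u) v - ip z u * ip (i0 Z) v +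
    ip z v * ip (i0 Z) u = -vo (i0 z) Z u v := by
  simp only [vo_eq, ip, i0_0, i0_1, i0_2, i0_3]; ring

/-- `ip` as a continuous bilinear map -/
def ipL : R4 →L[ℝ] R4 →L[ℝ] ℝ := ∑ i, (ContinuousLinearMap.proj i : R4 →L[ℝ] ℝ).smulRight
  (ContinuousLinearMap.proj i)

theorem ipL_apply (u v : R4) : ipL u v = ip u v := by
  simp [ipL, ip, Fin.sum_univ_four]

/-- `i0` as a continuous linear map -/
def i0L : R4 →L[ℝ] R4 := LinearMap.toContinuousLinearMap
  { toFun := i0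
    map_add' := fun u v => by ext i; fin_cases i <;> simp [i0, add_comm]
    map_smul' := fun c v => by ext i; fin_cases i <;> simp [i0] }

theorem i0L_apply (u : R4) : i0L u = i0 u := rfl

/-- `tc` as a continuous linear map of the first argument -/
def tcL (b c : R4) : R4 →L[ℝ] R4 := LinearMap.toContinuousLinearMap
  { toFun := fun a => tc a b c
    map_add' := fun u v => by ext i; fin_cases i <;> simp [tc] <;> ring
    map_smul' := fun c v => by ext i; fin_cases i <;> simp [tc] <;> ring }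

theorem tcL_apply (a b c : R4) : tcL b c a = tc a b c := rfl

section
variable {X : Type*} [TopologicalSpace X] {a b c d : X → R4}

@[fun_prop] theorem cont_ip (ha : Continuous a) (hb : Continuous b) :
    Continuous fun x => ip (a x) (b x) := by unfold ip; fun_prop
@[fun_prop] theorem cont_n2 (ha : Continuous a) : Continuous fun x => n2 (a x) := by
  unfold n2; fun_prop
@[fun_prop] theorem cont_i0 (ha : Continuous a) : Continuous fun x => i0 (a x) :=
  i0L.continuous.comp ha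
@[fun_prop] theorem cont_cd (ha : Continuous a) (hb : Continuous b) :
    Continuous fun x => cd (a x) (b x) := by unfold cd c1 c2; fun_prop
@[fun_prop] theorem cont_vo (ha : Continuous a) (hb : Continuous b) (hc : Continuous c)
    (hd : Continuous d) : Continuous fun x => vo (a x) (b x) (c x) (d x) := by
  simp only [vo_eq]; fun_prop
end

theorem n2_le (u : R4) : n2 u ≤ 4 * ‖u‖ ^ 2 := by
  have h : ∀ i, u i ^ 2 ≤ ‖u‖ ^ 2 := fun i =>
    sq_le_sq' (neg_le_of_abs_le (norm_le_pi_norm u i)) (le_of_abs_le (norm_le_pi_norm u i))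
  unfold n2; linarith [h 0, h 1, h 2, h 3]

theorem le_n2 (u : R4) : ‖u‖ ^ 2 ≤ n2 u := by
  rw [← Real.sq_sqrt (n2_nonneg u)]
  refine pow_le_pow_left₀ (norm_nonneg _) ((pi_norm_le_iff_of_nonneg (Real.sqrt_nonneg _)).2
    fun i => Real.abs_le_sqrt ?_) 2
  unfold n2
  fin_cases i <;> simp only [Fin.zero_eta, Fin.mk_one, Fin.reduceFinMk] <;>
    nlinarith [sq_nonneg (u 0), sq_nonneg (u 1), sq_nonneg (u 2), sq_nonneg (u 3)]

end Vale.Agent.P247N
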