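import Vale.Agent.P247N.Lt

/-!
# P247, block N: the rows `CHA` and `NUI`
-/

set_option linter.all false

open scoped Manifold ContDiff Topology
open Set MeasureTheory Filter Metric

noncomputable section

namespace Vale.Agent.P247N

open Vale.Agent.P247.SCY Vale.Agent.P247.SCY.HS Vale.Agent.P247X Vale.Agent.P247C
open Vale.Agent.P247.H74 (R4 Data)
open Vale.Agent.P247.H574 (F2 CF dd cf2)

namespace Lt

theorem measurable_ld (D : Data) {u : Fin 2 → R4 → R4} (hu : ∀ i, Measurable (u i)) {φ : R4 → F2}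
    (hφ : Continuous φ) : Measurable (ld D u φ) := by
  have h1 : Continuous fun p : R4 × R4 => φ p.1 p.2 (D.J p.1 p.2) :=
    ((hφ.comp continuous_fst).clm_apply continuous_snd).clm_apply
      ((D.J_smooth.continuous.comp continuous_fst).clm_apply continuous_snd)
  exact Finset.measurable_sum _ fun i _ => h1.measurable.comp (measurable_id.prodMk (hu i))

variable {X : Type} [Cl4 X] {w : Tri X} (t : LocT w) (σ : Measure X) {v : VF X}

theorem aem_k : AEMeasurable t.κ (σ.restrict t.κ.source) :=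
  t.κ.continuousOn.aemeasurable t.κ.open_source.measurableSet

theorem integral_rl {f : R4 → ℝ} (hf : Measurable f) :
    ∫ y, f y ∂(rl t σ) = ∫ x in t.κ.source, f (t.κ x) ∂σ :=
  integral_map (aem_k t σ) hf.aestronglyMeasurable

theorem fin_rl [IsFiniteMeasure σ] : IsFiniteMeasure (rl t σ) := by
  unfold rl
  infer_instance

theorem ae_rl : ∀ᵐ y ∂(rl t σ), y ∈ t.κ.target :=
  (ae_map_iff (aem_k t σ) t.κ.open_target.measurableSet).2
    ((ae_restrict_mem t.κ.open_source.measurableSet).mono fun _ hx => t.κ.map_source hx)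

theorem dn_pb {φ : R4 → F2} {ψ : Form X 2} (h : IsPb t φ ψ) (v : VF X) {x : X}
    (hx : x ∈ t.κ.source) : dn w v ψ x = ld t.D (vl t v) φ (t.κ x) := by
  refine Finset.sum_congr rfl fun i _ => (h.2 x hx _ _).trans ?_
  rw [vl_k t v i hx]
  exact congrArg (φ (t.κ x) (dk t x (v i x))) (dk_J t hx (v i x))

theorem cur_pb (hv : VR w v) {φ : R4 → F2} {ψ : Form X 2} (hφ : Continuous φ) (h : IsPb t φ ψ) :
    cur w σ v ψ = ∫ y, ld t.D (vl t v) φ y ∂(rl t σ) := by
  rw [integral_rl t σ (measurable_ld _ (hv.meas t) hφ), cur,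
    ← setIntegral_eq_integral_of_forall_compl_eq_zero (s := t.κ.source) fun x hx => by
      simp [dn, h.1 x hx]]
  exact setIntegral_congr_fun t.κ.open_source.measurableSet fun x hx => dn_pb t h v hx

theorem nrm_vl (hv : VR w v) {y : R4} (hy : y ∈ t.κ.target) :
    ∑ i, qf t.D y (vl t v i y) = 1 := by
  have hx := t.κ.map_target hy
  rw [← hv.nrm (t.κ.symm y), ← t.κ.right_inv hy, t.κ.left_inv hx]
  exact Finset.sum_congr rfl fun i _ => by rw [vl_k t v i hx]; exact qf_dk t hx _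

variable [IsFiniteMeasure σ]

theorem integrable_dn (hv : VR w v) {φ : Form X 2} (hφ : Cont φ) : Integrable (dn w v φ) σ := by
  obtain ⟨h1, C, h2⟩ := hv.mdn φ hφ
  exact (integrable_const C).mono' h1.aestronglyMeasurable (.of_forall h2)

theorem linC_cur (hv : VR w v) : LinC (cur w σ v) := by
  refine ⟨fun φ ψ hφ hψ => ?_, fun c φ _ => ?_⟩
  · rw [cur, cur, cur, ← integral_add (integrable_dn σ hv hφ) (integrable_dn σ hv hψ)]
    simp only [dn, ContinuousAlternatingMap.add_apply, Finset.sum_add_distrib]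
  · rw [cur, cur, ← integral_const_mul]
    simp only [dn, ContinuousAlternatingMap.smul_apply, smul_eq_mul, Finset.mul_sum]

omit [IsFiniteMeasure σ] in
theorem posF_cur : PosF (Jw w) (cur w σ v) := fun φ _ h =>
  integral_nonneg fun x => Finset.sum_nonneg fun i _ => h x _

theorem linC_sum {T : Form X 2 → ℝ} (hT : LinC T) {ι : Type} (s : Finset ι) {α : ι → Form X 2}
    (h : ∀ i, Cont (α i)) : T (fun x => ∑ i ∈ s, α i x) = ∑ i ∈ s, T (α i) := by
  classical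
  induction s using Finset.induction_on with
  | empty => simpa using hT.smul 0 _ cont_zero
  | insert a s ha ih =>
    simp only [Finset.sum_insert ha]
    rw [hT.add _ _ (h a) (cont_sum s fun i _ => h i), ih]

theorem pc_rl (hv : VR w v) (h : ∀ φ, Smooth φ → Exact φ → cur w σ v φ = 0) :
    PC t.D t.κ.target (rl t σ) (vl t v) := by
  refine ⟨t.κ.open_target, t.small.trans (ball_subset_ball (by norm_num)), fin_rl t σ, ae_rl t σ,
    hv.meas t, fun y => nrm_vl t hv, fun l hl => ?_⟩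
  obtain ⟨h1, h2⟩ := pb_dd t hl
  rw [← cur_pb t σ hv (cf_dd hl.sm hl.cpt).1.cont h2]
  exact h _ (smooth_dX h1) (exact_dX h1)

/-- finite smooth partitions of unity -/
theorem exists_pu (V : X → Set X) (hV : ∀ x, IsOpen (V x)) (hx : ∀ x, x ∈ V x) :
    ∃ (s : Finset X) (f : s → X → ℝ), (∀ i, ContMDiff (𝓡 4) 𝓘(ℝ, ℝ) ∞ (f i)) ∧
      (∀ i, tsupport (f i) ⊆ V i) ∧ (∀ i x, 0 ≤ f i x) ∧ ∀ x, ∑ i, f i x = 1 := by
  obtain ⟨s, hs⟩ := isCompact_univ.elim_finite_subcover V hV fun x _ => mem_iUnion.2 ⟨x, hx x⟩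
  obtain ⟨f, hf⟩ := SmoothPartitionOfUnity.exists_isSubordinate (𝓡 4) isClosed_univ
    (fun i : s => V i) (fun i => hV i) fun x h => by simpa using hs h
  exact ⟨s, fun i => f i, fun i => (f i).contMDiff, hf, f.nonneg, fun x => by
    rw [← finsum_eq_sum_of_fintype]; exact f.sum_eq_one trivial⟩

theorem closed_of_loc (hv : VR w v) (h : ∀ x, ∃ (t : LocT w) (U : Set R4), x ∈ t.κ.source ∧
    IsOpen U ∧ t.κ x ∈ U ∧ U ⊆ t.κ.target ∧
      ∀ l, TF U l → ∫ y, ld t.D (vl t v) (dd l) y ∂(rl t σ) = 0) (φ : Form X 2) (hφ : Exact φ) :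
    cur w σ v φ = 0 := by
  choose t U h1 h2 h3 h4 h5 using h
  obtain ⟨η, hη, rfl⟩ := exact_iff hφ
  obtain ⟨s, f, f1, f2, -, f3⟩ := exists_pu (fun x => (t x).κ.source ∩ (t x).κ ⁻¹' U x)
    (fun x => (t x).κ.isOpen_inter_preimage (h2 x)) fun x => ⟨h1 x, h3 x⟩
  have e1 : η = fun x => ∑ i, f i x • η x := funext fun x => by
    rw [← Finset.sum_smul, f3, one_smul]
  have s1 : ∀ i, Smooth fun x => f i x • η x := fun i => smooth_fsmul (f1 i) hη
  rw [e1, show dX (fun x => ∑ i, f i x • η x) = fun x => ∑ i, dX (fun x => f i x • η x) x from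
    funext (dX_sum _ fun i _ => s1 i),
    linC_sum (linC_cur σ hv) _ fun i => cont_of_smooth (smooth_dX (s1 i))]
  refine Finset.sum_eq_zero fun i _ => ?_
  have c1 : IsCompact (tsupport (f i)) := (isClosed_tsupport _).isCompact
  have c2 : tsupport (f i) ⊆ (t i).κ.source := fun x hx => (f2 i hx).1
  have c3 : ∀ x ∉ tsupport (f i), f i x • η x = 0 := fun x hx => by
    rw [image_eq_zero_of_notMem_tsupport hx, zero_smul]
  obtain ⟨k1, k2⟩ := tsupport_pf (t i) c1 c2 c3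
  have k3 := (tsupport_comp_subset one.symm.map_zero (pf (t i) fun x => f i x • η x)).trans k2
  have hl : TF (U i) fun y => one.symm (pf (t i) (fun x => f i x • η x) y) :=
    ⟨one.symm.contDiff.comp (contDiff_pf (t i) le_rfl (s1 i) c1 c2 c3),
      k1.of_isClosed_subset (isClosed_tsupport _) k3,
      k3.trans (image_subset_iff.2 fun x hx => (f2 i hx).2)⟩
  have p1 := (pb_dd (t i) ⟨hl.sm, hl.cpt, hl.sub.trans (h4 i)⟩).2
  have e2 : pb (t i) (pf (t i) fun x => f i x • η x) = fun x => f i x • η x := funext fun x => by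
    by_cases hx : x ∈ (t i).κ.source
    · exact pb_pf _ _ hx
    · rw [pb_of_not _ _ hx, c3 x fun h => hx (c2 h)]
  simp only [one.apply_symm_apply] at p1
  rw [e2] at p1
  rw [cur_pb (t i) σ hv (cf_dd hl.sm hl.cpt).1.cont p1]
  exact h5 i _ hl

/-! ### change of charts -/

theorem quad_near {E : Type} [NormedAddCommGroup E] [NormedSpace ℝ E] {Q : E → ℝ} {B : F2}
    {L : E →L[ℝ] R4} {c : ℝ} (hc : 0 < c) (hQ : ∀ u, c * ‖u‖ ^ 2 ≤ Q u)
    (hL : ∀ u, B (L u) (L u) = Q u) {ε : ℝ} (hε : 0 < ε) :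
    ∃ η > 0, ∀ u z, ‖z - L u‖ ≤ η * ‖u‖ → |B z z - Q u| ≤ ε * Q u := by
  set N := ‖B‖ * (2 * ‖L‖ + 1) + 1 with hN
  have N0 : 0 < N := by positivity
  refine ⟨min 1 (ε * c / N), by positivity, fun u z h => ?_⟩
  have h1 : ‖z - L u‖ ≤ ‖u‖ := h.trans (mul_le_of_le_one_left (norm_nonneg _) (min_le_left _ _))
  have h2 : ‖z - L u‖ ≤ ε * c / N * ‖u‖ :=
    h.trans (mul_le_mul_of_nonneg_right (min_le_right _ _) (norm_nonneg _))
  have h3 := L.le_opNorm u
  have h4 : ‖z‖ ≤ (‖L‖ + 1) * ‖u‖ := by linarith [norm_le_norm_add_norm_sub' z (L u)]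
  have e : B z z - Q u = B z (z - L u) + B (z - L u) (L u) := by
    simp only [← hL, map_sub, ContinuousLinearMap.sub_apply]
    ring
  calc _ ≤ ‖B‖ * ‖z‖ * ‖z - L u‖ + ‖B‖ * ‖z - L u‖ * ‖L u‖ := by
        rw [e]
        exact (abs_add_le _ _).trans (add_le_add (B.le_opNorm₂ _ _) (B.le_opNorm₂ _ _))
    _ ≤ ‖B‖ * ((‖L‖ + 1) * ‖u‖) * (ε * c / N * ‖u‖) +
        ‖B‖ * (ε * c / N * ‖u‖) * (‖L‖ * ‖u‖) := by gcongr
    _ = (N - 1) / N * (ε * (c * ‖u‖ ^ 2)) := by rw [hN]; ring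
    _ ≤ ε * (c * ‖u‖ ^ 2) := mul_le_of_le_one_left (by positivity) ((div_le_one N0).2 (by linarith))
    _ ≤ _ := mul_le_mul_of_nonneg_left (hQ u) hε.le

omit [IsFiniteMeasure σ] in
theorem far_k {x : X} (hx : x ∈ t.κ.source) {V : Set X} (hV : V ∈ 𝓝 x) :
    ∃ δ > 0, ∀ p ∈ t.κ.source, p ∉ V → δ ≤ qf t.D (t.κ x) (t.κ p - t.κ x) := by
  obtain ⟨c, hc, hq⟩ := Kr.qf_ge t.D (t.κ x)
  have h1 := t.κ.continuousAt_symm (t.κ.map_source hx)
  rw [ContinuousAt, t.κ.left_inv hx] at h1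
  obtain ⟨ρ, hρ, h2⟩ := Metric.mem_nhds_iff.1 (h1 hV)
  refine ⟨c * ρ ^ 2, by positivity, fun p hp h => le_trans ?_ (hq _)⟩
  have h3 : ρ ≤ ‖t.κ p - t.κ x‖ := not_lt.1 fun h3 => h (by
    have h4 := h2 (mem_ball_iff_norm.2 h3)
    rwa [mem_preimage, t.κ.left_inv hp] at h4)
  gcongr

omit [IsFiniteMeasure σ] in
theorem near_k (t' : LocT w) {x : X} (hx : x ∈ t.κ.source) (hx' : x ∈ t'.κ.source) {ε : ℝ}
    (hε : 0 < ε) : ∀ᶠ p in 𝓝 x, |qf t'.D (t'.κ x) (t'.κ p - t'.κ x) -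
      qf t.D (t.κ x) (t.κ p - t.κ x)| ≤ ε * qf t.D (t.κ x) (t.κ p - t.κ x) := by
  obtain ⟨c, hc, hq⟩ := Kr.qf_ge t.D (t.κ x)
  have hy := t.κ.map_source hx
  have hz : t.κ.symm (t.κ x) ∈ t'.κ.source := by rwa [t.κ.left_inv hx]
  have h1 := ((cd_k t' (cm_s t hy) hz).differentiableAt (by simp)).hasFDerivAt
  obtain ⟨η, hη, h2⟩ := quad_near (B := Kr.qb t'.D (t'.κ x))
    (L := fderiv ℝ (fun z => t'.κ (t.κ.symm z)) (t.κ x)) hc hq (fun u => by
      rw [fderiv_k t' ((cm_s t hy).mdifferentiableAt (by simp)) hz, ← Kr.qf_eq]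
      show qf _ _ (dk t' (t.κ.symm (t.κ x)) (ds t (t.κ x) u)) = _
      rw [t.κ.left_inv hx, qf_dk t' hx', ← qf_dk t hx, dk_ds t hx]) hε
  filter_upwards [(t.κ.continuousAt hx).eventually (h1.isLittleO.def hη),
    t.κ.open_source.mem_nhds hx] with p h3 hp
  rw [t.κ.left_inv hp, t.κ.left_inv hx] at h3
  rw [Kr.qf_eq]
  exact h2 _ _ h3

omit [IsFiniteMeasure σ] in
theorem Th_rl (x : R4) (a : ℝ) : Th t.D (rl t σ) x a =
    ∫ p, t.κ.source.indicator (fun p => kn a (qf t.D x (t.κ p - x))) p ∂σ := by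
  rw [integral_indicator t.κ.open_source.measurableSet]
  exact integral_rl t σ ((Kr.measurable_kn a).comp
    ((Kr.continuous_qf _ _).comp (continuous_id.sub continuous_const)).measurable)

theorem integrable_kk (x : R4) {a : ℝ} (ha : 0 < a) :
    Integrable (t.κ.source.indicator fun p => kn a (qf t.D x (t.κ p - x))) σ :=
  (integrable_indicator_iff t.κ.open_source.measurableSet).2 (Kr.integrable_kn
    (((Kr.continuous_qf _ _).comp (continuous_id.sub continuous_const)).measurable.comp_aemeasurable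
      (aem_k t σ)) (.of_forall fun _ => Kr.qf_nonneg _ _ _) ha)

end Lt

theorem cha : CHA := by
  intro X _ μ _ w _ σ v _ hv
  refine ⟨fun t φ ψ => Lt.cur_pb t σ hv, fun t φ hφ h => ?_, fun h t => Lt.pc_rl t σ hv h.closed,
    fun h => ⟨Lt.linC_cur σ hv, fun φ _ => Lt.closed_of_loc σ hv h φ, Lt.posF_cur σ⟩⟩
  obtain ⟨ψ, h1, h2, h3⟩ := Lt.exists_pb t hφ h
  refine ⟨ψ, h1, h2, fun U _ hU => ⟨_, Lt.compact_symm t hφ.supp h, ?_, h3⟩⟩
  rintro _ ⟨y, hy, rfl⟩
  exact hU _ (t.κ.map_target (h hy)) (by rwa [t.κ.right_inv (h hy)])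

theorem nui : NUI := by
  intro X _ μ _ w _ σ _ t t' x c hx hx' h
  rw [funext (Lt.Th_rl t σ _)] at h
  rw [funext (Lt.Th_rl t' σ _)]
  refine Kr.KER1 (fun a => Lt.integrable_kk t σ _) (fun a => Lt.integrable_kk t' σ _)
    (fun ε hε => ?_) h
  have hV := (Lt.near_k t t' hx hx' (ε := min (ε / 12) (1 / 2)) (by positivity)).and
    ((t.κ.open_source.inter t'.κ.open_source).eventually_mem ⟨hx, hx'⟩)
  obtain ⟨δ, hδ, h1⟩ := Lt.far_k t hx hV
  obtain ⟨δ', hδ', h2⟩ := Lt.far_k t' hx' hV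
  refine ⟨1 / δ ^ 2 + 1 / δ' ^ 2, fun a ha => .of_forall fun p => ?_⟩
  have n1 : 0 ≤ 1 / δ ^ 2 * a := by positivity
  have n2 : 0 ≤ 1 / δ' ^ 2 * a := by positivity
  have n3 : 0 ≤ t.κ.source.indicator (fun p => kn a (qf t.D (t.κ x) (t.κ p - t.κ x))) p :=
    indicator_nonneg (fun _ _ => Kr.kn_nonneg ha _) p
  have n4 : 0 ≤ t'.κ.source.indicator (fun p => kn a (qf t'.D (t'.κ x) (t'.κ p - t'.κ x))) p :=
    indicator_nonneg (fun _ _ => Kr.kn_nonneg ha _) p
  rcases em (|qf t'.D (t'.κ x) (t'.κ p - t'.κ x) - qf t.D (t.κ x) (t.κ p - t.κ x)| ≤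
    min (ε / 12) (1 / 2) * qf t.D (t.κ x) (t.κ p - t.κ x) ∧ p ∈ t.κ.source ∩ t'.κ.source)
    with hp | hp
  · rw [indicator_of_mem hp.2.1, indicator_of_mem hp.2.2]
    have h3 := Kr.kn_near ha (Kr.qf_nonneg _ _ _) (by positivity) (min_le_right _ _) hp.1
    have h4 := mul_le_mul_of_nonneg_right
      (by linarith [min_le_left (ε / 12) (1 / 2)] : 12 * min (ε / 12) (1 / 2) ≤ ε)
      (Kr.kn_nonneg ha (qf t.D (t.κ x) (t.κ p - t.κ x)))
    linarith
  · have h3 := indicator_apply_le' (s := t.κ.source) (a := p)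
      (f := fun p => kn a (qf t.D (t.κ x) (t.κ p - t.κ x)))
      (fun h => Kr.kn_far ha hδ (h1 p h hp)) fun _ => n1
    have h4 := indicator_apply_le' (s := t'.κ.source) (a := p)
      (f := fun p => kn a (qf t'.D (t'.κ x) (t'.κ p - t'.κ x)))
      (fun h => Kr.kn_far ha hδ' (h2 p h hp)) fun _ => n2
    have h5 := mul_nonneg hε.le n3
    rw [abs_le]
    constructor <;> linarith

end Vale.Agent.P247N
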