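import Vale.Agent.P247N.En

/-!
# P247, block N: the density times a closed current is closed
-/

set_option linter.all false

open scoped ContDiff Topology
open Set MeasureTheory Filter Metric

noncomputable section

namespace Vale.Agent.P247N

open Vale.Agent.P247.H74 (R4 Data)
open Vale.Agent.P247.H574 (dd)

variable {D : Data} {W U : Set R4} {A : R4 → R4 →L[ℝ] R4} {χ κ : R4 → ℝ} {ε C : ℝ}
  {μ μ' : Measure (R4 × R4)} {l : R4 → R4 →L[ℝ] ℝ}

/-- the derivative of the difference in the frame -/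
def Zv (A : R4 → R4 →L[ℝ] R4) (x y u : R4) : R4 := fderiv ℝ A x u (y - x) - A x u

/-- the kernel as a function of the base point, and its derivative -/
def gk (a : ℝ) (A : R4 → R4 →L[ℝ] R4) (y w p x : R4) : ℝ :=
  rk a (A x (y - x)) ^ 2 * ip (i0 (A x w)) (A x p)
def gd (a : ℝ) (A : R4 → R4 →L[ℝ] R4) (y w p x u : R4) : ℝ :=
  -(4 * rk a (A x (y - x)) ^ 3 * ip (A x (y - x)) (Zv A x y u)) * ip (i0 (A x w)) (A x p) +
    rk a (A x (y - x)) ^ 2 *
      (ip (i0 (fderiv ℝ A x u w)) (A x p) + ip (i0 (A x w)) (fderiv ℝ A x u p))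

theorem sm_gk (hA : ContDiff ℝ ∞ A) {a : ℝ} (ha : 0 < a) (y w p : R4) :
    ContDiff ℝ ∞ (gk a A y w p) := by
  refine (((sm_rk ha).comp (hA.clm_apply (contDiff_const.sub contDiff_id))).pow 2).mul ?_
  simpa only [ipL_apply, i0L_apply, Function.comp_def] using (ipL.contDiff.comp (i0L.contDiff.comp
    (hA.clm_apply contDiff_const))).clm_apply (hA.clm_apply contDiff_const)

theorem fd_gk (hA : ContDiff ℝ ∞ A) {a : ℝ} (ha : 0 < a) (y w p x u : R4) :
    fderiv ℝ (gk a A y w p) x u = gd a A y w p x u := by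
  have h0 := (hA.differentiable (by simp) x).hasFDerivAt
  obtain ⟨L₁, h1, h2⟩ := fd_rk ha 1 (h0.clm_apply ((hasFDerivAt_id x).const_sub y))
  obtain ⟨L₂, h3, h4⟩ := fd_ip (i0L.hasFDerivAt.comp x (h0.clm_apply (hasFDerivAt_const w x)))
    (h0.clm_apply (hasFDerivAt_const p x))
  rw [show fderiv ℝ (gk a A y w p) x = _ from (h1.mul h3).fderiv]
  simp [h2, h4, gd, Zv, i0L_apply, ip]
  ring

theorem gd_lin (a : ℝ) (y w p x u v : R4) (α β : ℝ) :
    gd a A y w p x u * α - gd a A y w p x v * β = gd a A y w p x (α • u - β • v) := by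
  simp [gd, Zv, ip]
  ring

theorem Fr.Z_le (F : Fr D W U A χ ε C) {x y v : R4} (hx : x ∈ U) (hy : y ∈ ball (0 : R4) 1)
    {α β Λ : ℝ} (hα : α ^ 2 + β ^ 2 ≤ Λ * n2 (A x v)) (hΛ : 0 ≤ Λ) (w : R4) :
    n2 (Zv A x y (α • v - β • D.J x v)) ≤ 4 * C ^ 2 * Λ * n2 (A x v) ^ 2 ∧
    cd w (Zv A x y (α • v - β • D.J x v)) ≤
      4 * C ^ 2 * Λ * n2 (A x v) * pp (A x (y - x)) (A x v) w := by
  have h1 := F.dA x hx (α • v - β • D.J x v) (y - x)
  obtain ⟨h2, h3⟩ := cx_le hα hΛ (A x (y - x)) w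
  have e : A x (α • v - β • D.J x v) = α • A x v - β • i0 (A x v) := by
    rw [map_sub, map_smul, map_smul, F.cx x hx]
  rw [← e] at h2 h3
  have h4 := F.tb x hx y hy
  have C1 := F.C1
  have := n2_nonneg (A x v); have := n2_nonneg w; have := n2_nonneg (A x (y - x))
  have := pp0 (A x (y - x)) (A x v) w
  have h5 : n2 (fderiv ℝ A x (α • v - β • D.J x v) (y - x)) ≤
      C * (Λ * n2 (A x v) ^ 2 * n2 (A x (y - x))) := h1.trans (by gcongr)
  have C2 : 1 ≤ C ^ 2 := one_le_pow₀ C1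
  constructor
  · refine (n2_sub_le _ _).trans ?_
    have : C * (Λ * n2 (A x v) ^ 2 * n2 (A x (y - x))) ≤ C * (Λ * n2 (A x v) ^ 2 * C) := by gcongr
    nlinarith [mul_le_mul_of_nonneg_right C2 (show 0 ≤ Λ * n2 (A x v) ^ 2 by positivity)]
  · refine (cd_sub_le _ _ _).trans ?_
    have h6 := (cd_le w _).trans (mul_le_mul_of_nonneg_left h5 (n2_nonneg w))
    have h7 : C * (Λ * n2 (A x v) * (n2 (A x (y - x)) * n2 (A x v) * n2 w)) ≤
        C ^ 2 * (Λ * n2 (A x v) * pp (A x (y - x)) (A x v) w) := by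
      gcongr
      exacts [by nlinarith, le_add_of_nonneg_left (cd_nonneg _ _)]
    nlinarith [mul_le_mul_of_nonneg_right C2
      (show 0 ≤ Λ * n2 (A x v) * pp (A x (y - x)) (A x v) w by positivity)]

theorem deriv_le (h : VC D W μ) (h' : VC D U μ') (F : Fr D W U A χ ε C) (hl : TF U l)
    (cκ : Continuous κ) (h1 : ∀ x ∈ tsupport l, κ x = 1) : ∃ K, 0 < K ∧ ∀ a τ, 0 < a → 0 < τ →
    |∫ q, Tq D A χ μ q.1 a * dd l q.1 q.2 (D.J q.1 q.2) ∂μ'| ≤
      τ * K3 A (μ'.prod μ) (Gp A χ κ) a + K / τ * K3 A (μ'.prod μ) (Ge A χ) a + K * a := by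
  have cl := hl.sm.continuous
  obtain ⟨Λ, Λ0, hΛ⟩ := F.lam cl hl.cpt
  have := F.czz; have := F.cGe; have := F.cGp cκ; have := F.cχ; have := F.cdχ
  have := F.smA.continuous; have C1 := F.C1
  have := F.smA.continuous_fderiv (by simp)
  have cs := h'.toCs.prod h.toCs
  have := h.fin; have := h'.fin
  set v' : R4 × R4 → R4 := fun q => l q.1 (D.J q.1 q.2) • q.2 - l q.1 q.2 • D.J q.1 q.2 with hv'
  have cv : Continuous v' := by rw [hv']; fun_prop
  have cZ : Continuous fun Q : QQ => Zv A Q.1.1 Q.2.1 (v' Q.1) := by unfold Zv; fun_prop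
  have cd : Continuous fun Q : QQ => dd l Q.1.1 Q.1.2 (D.J Q.1.1 Q.1.2) :=
    cont_dd hl.sm (by fun_prop) (by fun_prop) (by fun_prop)
  set G : QQ → ℝ := fun Q => fderiv ℝ χ Q.2.1 Q.2.2 * ip (i0 (Zv A Q.1.1 Q.2.1 (v' Q.1)))
    (A Q.1.1 (D.J Q.2.1 Q.2.2)) - fderiv ℝ χ Q.2.1 (D.J Q.2.1 Q.2.2) *
      ip (i0 (Zv A Q.1.1 Q.2.1 (v' Q.1))) (A Q.1.1 Q.2.2) with hG
  have cG : Continuous G := by rw [hG]; fun_prop
  set K₁ := 16 * (6 * C * (4 * C ^ 2 * Λ))
  set K₂ := C ^ 2 * ∫ Q, |G Q| ∂μ'.prod μ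
  have K1 : 0 ≤ K₁ := by positivity
  have K2 : 0 ≤ K₂ := by positivity
  refine ⟨1 + K₁ + K₂, by positivity, fun a τ ha hτ => ?_⟩
  set Y : QQ → ℝ := fun Q => a * rk a (zz A Q) ^ 2 * G Q - 4 * (χ Q.2.1 * (a * rk a (zz A Q) ^ 3)) *
    vo (i0 (zz A Q)) (Zv A Q.1.1 Q.2.1 (v' Q.1)) (A Q.1.1 Q.2.2) (A Q.1.1 (D.J Q.2.1 Q.2.2)) with hY
  have cY : Continuous Y := by rw [hY]; fun_prop (disch := assumption)
  set H : QQ → ℝ := fun Q => χ Q.2.1 * (a * rk a (zz A Q) ^ 2) * ip (i0 (A Q.1.1 Q.2.2))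
    (A Q.1.1 (D.J Q.2.1 Q.2.2)) * dd l Q.1.1 Q.1.2 (D.J Q.1.1 Q.1.2) with hH
  have cH : Continuous H := by rw [hH]; fun_prop (disch := assumption)
  set H₁ : QQ → ℝ := fun Q => a * χ Q.2.1 * gd a A Q.2.1 Q.2.2 (D.J Q.2.1 Q.2.2) Q.1.1 (v' Q.1)
    with hH₁
  have c1 : Continuous H₁ := by rw [hH₁]; unfold gd; fun_prop (disch := assumption)
  have z1 := int_zero2 h h' (f := fun Q => H₁ Q + H Q) (by fun_prop) fun q => by
    rw [← mul_zero (a * χ q.1), ← h'.cl0 (sm_gk F.smA ha q.1 q.2 (D.J q.1 q.2))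
      (fd_gk F.smA ha _ _ _) hl.sm hl.cpt hl.sub
      (fun y hy => .inr (image_eq_zero_of_notMem_tsupport hy)), ← integral_const_mul]
    simp only [gd_lin, hH₁, hH, hv', gk, zz]
    congr 1; funext q'; ring
  have z2 := int_zero1 h h' (f := fun Q => H₁ Q + Y Q) (by fun_prop) fun q => by
    rw [← mul_zero a, ← h.cl2 F.smχ F.cpt F.sub ha 1 (A q.1) (A q.1) (i0L ∘L fderiv ℝ A q.1 (v' q))
      (-i0 (A q.1 (v' q))) q.1, ← integral_const_mul]
    congr 1; funext q'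
    have e1 : i0 (fderiv ℝ A q.1 (v' q) (q'.1 - q.1)) + -i0 (A q.1 (v' q)) =
        i0 (Zv A q.1 q'.1 (v' q)) := by rw [← sub_eq_add_neg, ← i0L_apply, ← i0L_apply, ← map_sub]; rfl
    have e2 : ∀ u v, ip (i0 u) v = -ip (i0 v) u := fun u v => by
      simp only [ip, i0_0, i0_1, i0_2, i0_3]; ring
    simp only [ContinuousLinearMap.comp_apply, i0L_apply, e1, hH₁, hY, hG, gd, zz]
    rw [e2 (fderiv ℝ A q.1 (v' q) (D.J q'.1 q'.2))]
    push_cast
    linear_combination (-4 * a * χ q'.1 * rk a (A q.1 (q'.1 - q.1)) ^ 3) * vo_three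
      (A q.1 (q'.1 - q.1)) (Zv A q.1 q'.1 (v' q)) (A q.1 q'.2) (A q.1 (D.J q'.1 q'.2))
  rw [cs.add c1 cH] at z1
  rw [cs.add c1 cY] at z2
  have e0 : ∫ q, Tq D A χ μ q.1 a * dd l q.1 q.2 (D.J q.1 q.2) ∂μ' = ∫ Q, Y Q ∂μ'.prod μ := by
    rw [show ∫ Q, Y Q ∂μ'.prod μ = ∫ Q, H Q ∂μ'.prod μ by linarith, integral_prod _ (cs.int cH)]
    simp only [hH, integral_mul_const, Tq, zz]
  have h2 := le2 h h' (f := fun Q => |Y Q|) (g := fun Q => τ * (a * rk a (zz A Q) ^ 3 * Gp A χ κ Q) +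
      K₁ / τ * (a * rk a (zz A Q) ^ 3 * Ge A χ Q) + a * C ^ 2 * |G Q|)
    (by fun_prop) (by fun_prop (disch := assumption)) fun ⟨⟨x, v⟩, y, w⟩ a1 a2 a3 a4 => by
      have P := F.pt a1 a3 a4
      have R0 := rk_pos ha (A x (y - x))
      have := P.c0
      have b1 : |a * rk a (A x (y - x)) ^ 2 * G ((x, v), y, w)| ≤ a * C ^ 2 * |G ((x, v), y, w)| := by
        rcases P.far with h0 | h0
        · simp only [hG, h0.2.1, h0.2.2, zero_mul, sub_self, mul_zero, abs_zero, le_refl]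
        · rw [abs_mul, abs_of_nonneg (by positivity)]
          gcongr; exact rk_far ha h0
      have b2 : |vo (i0 (A x (y - x))) (Zv A x y (v' (x, v))) (A x w) (A x (D.J y w))| ≤
          τ / 4 * (κ x ^ 2 * pp (A x (y - x)) (A x v) (A x w)) +
            6 * C * (4 * C ^ 2 * Λ) * ee (A x (y - x)) (A x w) / (τ / 4) := by
        by_cases hx : x ∈ tsupport l
        · have b3 := F.Z_le a1 a3 (hΛ x a1 v) Λ0 (A x w)
          have := P.vo_le (F.qA x a1 v ▸ a2) (n2_i0 _) ((cd_i0 _ _).trans (cd_comm _ _))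
            (by positivity) b3.1 b3.2 (κ x) (show 0 < τ / 4 by positivity)
          rwa [h1 x hx, one_mul, ← h1 x hx] at this
        · have := pp0 (A x (y - x)) (A x v) (A x w); have := ee0 (A x (y - x)) (A x w)
          simp only [hv', image_eq_zero_of_notMem_tsupport hx, Zv, ContinuousLinearMap.zero_apply,
            zero_smul, sub_self, map_zero, vo_eq, Pi.zero_apply, mul_zero, zero_mul, add_zero,
            neg_zero, abs_zero]
          positivity
      refine (abs_sub _ _).trans ?_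
      rw [abs_mul (4 * _), abs_of_nonneg (a := 4 * _) (by unfold zz; positivity)]
      have b3 := mul_le_mul_of_nonneg_left b2
        (show 0 ≤ 4 * (χ y * (a * rk a (A x (y - x)) ^ 3)) by positivity)
      refine (add_le_add b1 b3).trans (le_of_eq ?_)
      simp only [Gp, Ge, zz, K₁]
      field_simp
      ring
  rw [cs.add, cs.add, integral_const_mul, integral_const_mul, integral_const_mul] at h2
  · have b3 : 0 ≤ K3 A (μ'.prod μ) (Ge A χ) a := integral_nonneg fun Q => by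
      have := F.χ0 Q.2.1; have := ee0 (zz A Q) (A Q.1.1 Q.2.2); have := rk_pos ha (zz A Q)
      unfold Ge; positivity
    have b4 : 0 ≤ (1 + K₂) / τ * K3 A (μ'.prod μ) (Ge A χ) a + (1 + K₁) * a := by positivity
    rw [e0]
    refine abs_integral_le_integral_abs.trans (h2.trans ?_)
    unfold K3 at *
    simp only [K₂] at *
    have b7 : ∀ K₂ I : ℝ, (1 + K₁ + K₂) / τ * I = (1 + K₂) / τ * I + K₁ / τ * I := fun _ _ => by ring
    rw [b7]
    linarith
  all_goals fun_prop (disch := assumption)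

theorem tel_K (h : VC D W μ) (h' : VC D U μ') (F : Fr D W U A χ ε C) {G : QQ → ℝ}
    (hG : Continuous G) (G0 : ∀ Q, 0 ≤ G Q) {a : ℝ} (ha : 0 < a) :
    K4 A (μ'.prod μ) G a - K4 A (μ'.prod μ) G (4 * a) ≤ 6 * K3 A (μ'.prod μ) G a ∧
    K3 A (μ'.prod μ) G a ≤ 2 * (K4 A (μ'.prod μ) G a - K4 A (μ'.prod μ) G (4 * a)) ∧
    0 ≤ K3 A (μ'.prod μ) G a := by
  have := F.czz
  have a4 : 0 < 4 * a := by positivity
  unfold K3 K4
  rw [← (h'.toCs.prod h.toCs).sub, ← integral_const_mul, ← integral_const_mul]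
  · refine ⟨le2 h h' ?_ ?_ fun Q _ _ _ _ => ?_, le2 h h' ?_ ?_ fun Q _ _ _ _ => ?_,
      integral_nonneg fun Q => ?_⟩
    any_goals fun_prop (disch := assumption)
    · linarith [mul_le_mul_of_nonneg_right (tel ha (zz A Q)).1 (G0 Q)]
    · linarith [mul_le_mul_of_nonneg_right (tel ha (zz A Q)).2 (G0 Q)]
    · have := G0 Q; have := rk_pos ha (zz A Q); positivity
  all_goals fun_prop (disch := assumption)

theorem lim_zero (h : VC D W μ) (h' : VC D U μ') (F : Fr D W U A χ ε C) (hl : TF U l) {L : ℝ}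
    (hL : Tendsto (fun j : ℕ => ∫ q, Tq D A χ μ q.1 ((1 / 4) ^ (j + 1)) *
      dd l q.1 q.2 (D.J q.1 q.2) ∂μ') atTop (𝓝 L)) : L = 0 := by
  obtain ⟨κ, k1, k2, k3, k4, k5⟩ := exists_cut hl.cpt F.opn hl.sub
  obtain ⟨K, K0, hK⟩ := energy h h' F k1 k2 k3 k5
  obtain ⟨K', K0', hK'⟩ := deriv_le h h' F hl k1.continuous k4
  have p0 : ∀ j : ℕ, (0 : ℝ) < (1 / 4) ^ j := fun j => by positivity
  have p4 : ∀ j : ℕ, (4 : ℝ) * (1 / 4) ^ (j + 1) = (1 / 4) ^ j := fun j => by ring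
  have t1 := fun j : ℕ => p4 j ▸ tel_K h h' F (F.cGp k1.continuous) (fun Q => by
    have := F.χ0 Q.2.1; have := pp0 (zz A Q) (A Q.1.1 Q.1.2) (A Q.1.1 Q.2.2)
    unfold Gp; positivity) (p0 (j + 1))
  have t2 := fun j : ℕ => p4 j ▸ tel_K h h' F F.cGe (fun Q => by
    have := F.χ0 Q.2.1; have := ee0 (zz A Q) (A Q.1.1 Q.2.2)
    unfold Ge; positivity) (p0 (j + 1))
  set I : ℕ → ℝ := fun j => K4 A (μ'.prod μ) (Gp A χ κ) ((1 / 4) ^ j)
  set P : ℕ → ℝ := fun j => K3 A (μ'.prod μ) (Gp A χ κ) ((1 / 4) ^ (j + 1))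
  have hI : ∀ m, I m ≤ |I 0| + 6 * ∑ j ∈ Finset.range m, P j := fun m => by
    induction m with
    | zero => simpa using le_abs_self _
    | succ m ih => rw [Finset.sum_range_succ]; linarith [(t1 m).1]
  have S0 : ∀ m, 0 ≤ ∑ j ∈ Finset.range m, P j := fun m => Finset.sum_nonneg fun j _ => (t1 j).2.2
  have hP := seq2 (P := P) (K := K * (|I 0| + 6)) (by positivity) fun m τ hτ => by
    have := S0 (m + 1); have := abs_nonneg (I 0)
    refine (hK _ τ (p0 _) hτ).trans (add_le_add (add_le_add ?_ ?_) ?_)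
    · rw [mul_right_comm K (|I 0| + 6), mul_assoc _ (|I 0| + 6)]
      exact mul_le_mul_of_nonneg_left ((hI (m + 1)).trans (by nlinarith)) (by positivity)
    · gcongr; nlinarith
    · nlinarith
  refine seq1 (E := fun j => 2 * K' * K4 A (μ'.prod μ) (Ge A χ) ((1 / 4) ^ j))
    (o := fun j => K' * (1 / 4) ^ (j + 1)) hL ?_ (fun j => (t1 j).2.2) hP
    (monotone_nat_of_le_succ fun j => ?_) (fun j => mul_le_mul_of_nonneg_left
      (K4_le h h' F (p0 j)) (by positivity)) fun j τ hτ => (hK' _ τ (p0 _) hτ).trans ?_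
  · simpa using (((tendsto_pow_atTop_nhds_zero_of_lt_one (r := (1 / 4 : ℝ)) (by norm_num)
      (by norm_num))).comp (tendsto_add_atTop_nat 1)).const_mul K'
  · exact mul_le_mul_of_nonneg_left (by linarith [(t2 j).2.1, (t2 j).2.2]) (by positivity)
  · refine add_le_add (add_le_add le_rfl ((mul_le_mul_of_nonneg_left (t2 j).2.1
      (by positivity)).trans (le_of_eq ?_))) le_rfl
    ring

theorem clo : CLO := by
  intro D W x₀ hW hx
  obtain ⟨U, A, χ, ε, C, h1, h2, F⟩ := exists_fr D hW hx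
  refine ⟨U, F.opn, h1, h2, fun r w r' w' h h' l hl => lim_zero h.vc h'.vc F hl ?_⟩
  have p0 : ∀ j : ℕ, (0 : ℝ) < (1 / 4) ^ (j + 1) := fun j => by positivity
  have := F.cχ; have := F.smA.continuous
  have cd : Continuous fun q : R4 × R4 => dd l q.1 q.2 (D.J q.1 q.2) :=
    cont_dd hl.sm (by fun_prop) (by fun_prop) (by fun_prop)
  have cT : ∀ j : ℕ, Continuous fun x => Tq D A χ (vm r w) x ((1 / 4) ^ (j + 1)) := fun j => by
    have := p0 j
    exact h.cs.cont_int (by unfold Function.uncurry; fun_prop (disch := assumption))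
  have hi : Integrable (ld D w' (dd l)) r' := integrable_finset_sum _ fun i _ => h'.int cd i
  have cP : ∀ j : ℕ, Continuous fun q : R4 × R4 => Tq D A χ (vm r w) q.1 ((1 / 4) ^ (j + 1)) *
      dd l q.1 q.2 (D.J q.1 q.2) := fun j => ((cT j).comp continuous_fst).mul cd
  refine Tendsto.congr (fun j => (h'.integral_vm (cP j)).symm) ?_
  refine tendsto_integral_of_dominated_convergence (fun y => 21 * C ^ 5 * (vm r w).real univ *
    ‖ld D w' (dd l) y‖) (fun j => ?_) (hi.norm.const_mul _) (fun j => h'.ae.mono fun y hy => ?_)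
    (h'.ae.mono fun y hy => ?_)
  · exact (integrable_finset_sum _ fun i _ => h'.int (cP j) i).aestronglyMeasurable
  · simp only [← Finset.mul_sum, norm_mul]
    exact mul_le_mul_of_nonneg_right (h.vc.m4 F hy (p0 j)) (norm_nonneg _)
  · simp only [← Finset.mul_sum]
    exact ((h.lim F hy).1.comp (tendsto_nhdsWithin_iff.2 ⟨(tendsto_pow_atTop_nhds_zero_of_lt_one
      (by norm_num) (by norm_num)).comp (tendsto_add_atTop_nat 1), .of_forall p0⟩)).mul_const _

end Vale.Agent.P247N
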