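import Vale.Agent.P247N.Seq

/-!
# P247, block N: the energy inequality
-/

set_option linter.all false

open scoped ContDiff Topology
open Set MeasureTheory Filter Metric

noncomputable section

namespace Vale.Agent.P247N

open Vale.Agent.P247.H74 (R4 Data)

/-- the integrand of the energy identity -/
def ei (a : ℝ) (z w p b c : R4) (k dw dp : ℝ) : ℝ :=
  (dw * rk a z ^ 2 - k * (4 * rk a z ^ 3 * ip z w)) * vo z b c p -
    (dp * rk a z ^ 2 - k * (4 * rk a z ^ 3 * ip z p)) * vo z b c w +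
    k * rk a z ^ 2 * (vo w b c p - vo p b c w)

theorem ei_id {a : ℝ} (ha : 0 < a) (x y v q w p : R4) (k α β c dw dp : ℝ) :
    c * ei a (x - y) v q w p (k ^ 2) (2 * k * β) (2 * k * α) +
      k ^ 2 * ei a (y - x) w p v q c dw dp =
    4 * k ^ 2 * c * a * rk a (y - x) ^ 3 * vo v q w p +
      2 * k * c * rk a (y - x) ^ 2 * vo (y - x) (α • v - β • q) w p +
      rk a (y - x) ^ 2 * (k ^ 2 * (dw * vo (y - x) v q p - dp * vo (y - x) v q w)) := by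
  rw [← neg_sub y x]
  generalize y - x = z
  have e0 : rk a (-z) = rk a z := by rw [rk, rk, n2_neg]
  have e1 : vo (-z) w p q = -vo z q w p := by simp only [vo_eq, Pi.neg_apply]; ring
  have e2 : vo (-z) w p v = vo v z w p := by simp only [vo_eq, Pi.neg_apply]; ring
  have e3 : vo v w p q = vo v q w p := by simp only [vo_eq]; ring
  have e4 : vo q w p v = -vo v q w p := by simp only [vo_eq]; ring
  have e5 : vo z v q p = vo v q z p := by simp only [vo_eq]; ring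
  have e6 : vo z v q w = -vo v q w z := by simp only [vo_eq]; ring
  have e7 : vo w v q p = vo v q w p := by simp only [vo_eq]; ring
  have e8 : vo p v q w = -vo v q w p := by simp only [vo_eq]; ring
  have e9 : vo z (α • v - β • q) w p = -α * vo v z w p - β * vo z q w p := by
    simp only [vo_eq, Pi.sub_apply, Pi.smul_apply, smul_eq_mul]; ring
  have f1 : ∀ u, ip (-z) u = -ip z u := fun u => by simp only [ip, Pi.neg_apply]; ring
  simp only [ei, e0, e1, e2, e3, e4, e5, e6, e7, e8, e9, f1]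
  linear_combination (-4 * k ^ 2 * c * rk a z ^ 3) * vo_tr z v q w p -
    (4 * k ^ 2 * c * rk a z ^ 2 * vo v q w p) * rk_mul ha z

theorem Pt.en {C : ℝ} {ζ w p : R4} {c dw dp s : ℝ} (h : Pt C ζ w p c dw dp s) {v z : R4}
    (hv : n2 v ≤ 1) (h1 : n2 z ≤ C * n2 ζ) (h2 : n2 ζ ≤ C * n2 z) {d k α β Λ G a τ : ℝ}
    (d0 : 0 < d) (d1 : 1 ≤ C * d) (d2 : d ≤ C) (k0 : 0 ≤ k) (k1 : k ≤ 1) (hΛ : 0 ≤ Λ)
    (hα : α ^ 2 + β ^ 2 ≤ Λ * n2 v) (hG : G = 0 ∨ 1 ≤ C * n2 ζ) (ha : 0 < a) (hτ : 0 < τ) :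
    a * rk a ζ ^ 3 * (k ^ 2 * c * pp ζ v w) ≤ C ^ 4 / 2 *
      (4 * k ^ 2 * c * a * rk a z ^ 3 * (d * vo v (i0 v) w p) +
        2 * k * c * rk a z ^ 2 * (d * vo ζ (α • v - β • i0 v) w p) + rk a z ^ 2 * G) +
      (C ^ 9 + 1) * (c * (a * rk a ζ ^ 2) * n2 w) +
      C ^ 7 * τ * (rk a ζ ^ 2 * (k ^ 2 * c * pp ζ v w)) +
      6 * C ^ 8 * Λ / τ * (rk a ζ ^ 2 * (c * ee ζ w)) + C ^ 8 * |G| := by
  have := h.C0; have := h.c0; have := n2_nonneg w; have := n2_nonneg v; have := n2_nonneg ζ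
  have := cd_nonneg v w; have := pp0 ζ v w; have := ee0 ζ w
  have R0 := rk_pos ha ζ
  have S0 := rk_pos ha z
  have R1 := rk_cmp ha h.C1 h1
  have S1 := rk_cmp ha h.C1 h2
  have R2 := rk_t ha ζ
  have b0 : -(C ^ 4 * |G|) ≤ rk a z ^ 2 * G := by
    rcases hG with h0 | h0
    · simp [h0]
    · have b1 : rk a z ^ 2 ≤ (C * C) ^ 2 := by
        gcongr; exact rk_far ha (h0.trans (by rw [mul_assoc]; gcongr))
      nlinarith [mul_le_mul_of_nonneg_right b1 (abs_nonneg G),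
        mul_le_mul_of_nonneg_left (neg_abs_le G) (sq_nonneg (rk a z))]
  have b1 := neg_le_of_abs_le (h.vo_le hv rfl (cd_comm _ _) hΛ (cx_le hα hΛ ζ w).1
    (cx_le hα hΛ ζ w).2 k hτ)
  have b2 : cd v w / 2 - C * (n2 ζ * n2 v * n2 w) / 2 ≤ vo v (i0 v) w p := by
    have b3 := vo_ge v w (p - i0 w)
    rw [← h.peq] at b3
    nlinarith [mul_le_mul_of_nonneg_left h.rho (n2_nonneg v)]
  set R := rk a ζ
  set S := rk a z
  set Y := τ * (k ^ 2 * pp ζ v w) + 6 * C * Λ * ee ζ w / τ with hY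
  have Y0 : 0 ≤ Y := by positivity
  have b3 : c * S ^ 2 * d * Y ≤ c * (C * R) ^ 2 * C * Y := by gcongr
  have b4 := mul_le_mul_of_nonneg_left b1 (show 0 ≤ c * S ^ 2 * d by positivity)
  have b5 := mul_le_mul_of_nonneg_left b2 (show 0 ≤ k ^ 2 * c * a * S ^ 3 * d by positivity)
  have b6 : k ^ 2 * c * a * R ^ 3 * 1 * cd v w ≤ k ^ 2 * c * a * (C * S) ^ 3 * (C * d) * cd v w := by
    gcongr
  have b7 : k ^ 2 * c * a * S ^ 3 * d * (n2 ζ * n2 v * n2 w) ≤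
      k ^ 2 * c * a * (C * R) ^ 3 * C * (n2 ζ * n2 v * n2 w) := by gcongr
  have b8 : k ^ 2 * (R * n2 ζ) * n2 v * (c * (a * R ^ 2) * n2 w) ≤
      1 ^ 2 * 1 * 1 * (c * (a * R ^ 2) * n2 w) := by gcongr
  have b9 : C ^ 7 * τ * (R ^ 2 * (k ^ 2 * c * pp ζ v w)) +
      6 * C ^ 8 * Λ / τ * (R ^ 2 * (c * ee ζ w)) = C ^ 4 * (c * (C * R) ^ 2 * C * Y) := by
    rw [hY]; ring
  have C4 : 0 ≤ C ^ 4 := by positivity
  have c1 := mul_le_mul_of_nonneg_left b0 C4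
  have c2 := mul_le_mul_of_nonneg_left b3 C4
  have c3 := mul_le_mul_of_nonneg_left b4 C4
  have c4 := mul_le_mul_of_nonneg_left b5 C4
  have c5 := mul_le_mul_of_nonneg_left b7 (show 0 ≤ C ^ 5 by positivity)
  have c6 := mul_le_mul_of_nonneg_left b8 (show 0 ≤ C ^ 9 by positivity)
  have c7 : 0 ≤ C ^ 8 * |G| := by positivity
  have c8 : a * R ^ 3 * (k ^ 2 * c * pp ζ v w) = k ^ 2 * c * a * R ^ 3 * 1 * cd v w +
    k ^ 2 * (R * n2 ζ) * n2 v * (c * (a * R ^ 2) * n2 w) := by unfold pp; ring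
  rw [c8]
  linarith

variable {D : Data} {W U : Set R4} {A : R4 → R4 →L[ℝ] R4} {χ κ : R4 → ℝ} {ε C : ℝ}
  {μ μ' : Measure (R4 × R4)}

theorem VC.ei0 (h : VC D W μ) {χ : R4 → ℝ} (hχ : ContDiff ℝ ∞ χ) (hc : HasCompactSupport χ)
    (hW : tsupport χ ⊆ W) {a : ℝ} (ha : 0 < a) (b c x : R4) :
    ∫ q, ei a (q.1 - x) q.2 (D.J q.1 q.2) b c (χ q.1) (fderiv ℝ χ q.1 q.2)
      (fderiv ℝ χ q.1 (D.J q.1 q.2)) ∂μ = 0 := by
  refine Eq.trans ?_ (h.cl2 hχ hc hW ha 1 (.id ℝ R4) (.id ℝ R4) (tcL b c) 0 x)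
  congr 1
  funext q
  simp only [ContinuousLinearMap.id_apply, tcL_apply, add_zero, ei, vo]
  norm_num

@[fun_prop] theorem cont_ei {Y : Type*} [TopologicalSpace Y] {a : ℝ} (ha : 0 < a)
    {z w p b c : Y → R4} {k dw dp : Y → ℝ} (hz : Continuous z) (hw : Continuous w)
    (hp : Continuous p) (hb : Continuous b) (hc : Continuous c) (hk : Continuous k)
    (h1 : Continuous dw) (h2 : Continuous dp) :
    Continuous fun q => ei a (z q) (w q) (p q) (b q) (c q) (k q) (dw q) (dp q) := by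
  unfold ei; fun_prop (disch := assumption)

/-- pairs of points with vectors -/
abbrev QQ := (R4 × R4) × (R4 × R4)

/-- the difference in the frame -/
def zz (A : R4 → R4 →L[ℝ] R4) (Q : QQ) : R4 := A Q.1.1 (Q.2.1 - Q.1.1)
/-- the energy density -/
def Gp (A : R4 → R4 →L[ℝ] R4) (χ κ : R4 → ℝ) (Q : QQ) : ℝ :=
  κ Q.1.1 ^ 2 * χ Q.2.1 * pp (zz A Q) (A Q.1.1 Q.1.2) (A Q.1.1 Q.2.2)
/-- the excess density -/
def Ge (A : R4 → R4 →L[ℝ] R4) (χ : R4 → ℝ) (Q : QQ) : ℝ := χ Q.2.1 * ee (zz A Q) (A Q.1.1 Q.2.2)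
/-- the two kernels -/
def K3 (A : R4 → R4 →L[ℝ] R4) (m : Measure QQ) (G : QQ → ℝ) (a : ℝ) : ℝ :=
  ∫ Q, a * rk a (zz A Q) ^ 3 * G Q ∂m
def K4 (A : R4 → R4 →L[ℝ] R4) (m : Measure QQ) (G : QQ → ℝ) (a : ℝ) : ℝ :=
  ∫ Q, rk a (zz A Q) ^ 2 * G Q ∂m

theorem Fr.czz (F : Fr D W U A χ ε C) : Continuous (zz A) := by
  have := F.smA.continuous; unfold zz; fun_prop

theorem Fr.cGp (F : Fr D W U A χ ε C) (hκ : Continuous κ) : Continuous (Gp A χ κ) := by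
  have := F.smA.continuous; have := F.cχ; have := F.czz; unfold Gp pp; fun_prop

theorem Fr.cGe (F : Fr D W U A χ ε C) : Continuous (Ge A χ) := by
  have := F.smA.continuous; have := F.cχ; have := F.czz; unfold Ge ee; fun_prop

variable (h : VC D W μ) (h' : VC D U μ')
include h h'

theorem le2 {f g : QQ → ℝ} (hf : Continuous f) (hg : Continuous g) (hfg : ∀ Q : QQ, Q.1.1 ∈ U →
    qf D Q.1.1 Q.1.2 ≤ 1 → Q.2.1 ∈ ball (0 : R4) 1 → qf D Q.2.1 Q.2.2 ≤ 1 → f Q ≤ g Q) :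
    ∫ Q, f Q ∂μ'.prod μ ≤ ∫ Q, g Q ∂μ'.prod μ := by
  have := h.fin; have := h'.fin
  refine integral_mono_ae ((h'.toCs.prod h.toCs).int hf) ((h'.toCs.prod h.toCs).int hg) ?_
  filter_upwards [Measure.quasiMeasurePreserving_fst.ae h'.ae,
    Measure.quasiMeasurePreserving_snd.ae h.ae] with Q a b using hfg Q a.1 a.2.2 b.2.1 b.2.2

theorem int_le {f : QQ → ℝ} (hf : Continuous f) {B : ℝ}
    (hB : ∀ q' : R4 × R4, q'.1 ∈ U → ∫ q, f (q', q) ∂μ ≤ B) :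
    ∫ Q, f Q ∂μ'.prod μ ≤ B * μ'.real univ := by
  have := h.fin; have := h'.fin
  have hi := (h'.toCs.prod h.toCs).int hf
  rw [integral_prod _ hi, mul_comm, ← smul_eq_mul, ← integral_const]
  exact integral_mono_ae hi.integral_prod_left (integrable_const _)
    (h'.ae.mono fun q hq => hB q hq.1)

theorem int_zero1 {f : QQ → ℝ} (hf : Continuous f) (h0 : ∀ q', ∫ q, f (q', q) ∂μ = 0) :
    ∫ Q, f Q ∂μ'.prod μ = 0 := by
  have := h.fin; have := h'.fin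
  simp only [integral_prod _ ((h'.toCs.prod h.toCs).int hf), h0, integral_zero]

theorem int_zero2 {f : QQ → ℝ} (hf : Continuous f) (h0 : ∀ q, ∫ q', f (q', q) ∂μ' = 0) :
    ∫ Q, f Q ∂μ'.prod μ = 0 := by
  have := h.fin; have := h'.fin
  simp only [integral_prod_symm _ ((h'.toCs.prod h.toCs).int hf), h0, integral_zero]

theorem K4_le (F : Fr D W U A χ ε C) {a : ℝ} (ha : 0 < a) :
    K4 A (μ'.prod μ) (Ge A χ) a ≤ (10 * C ^ 5 * μ.real univ + C * μ.real univ) * μ'.real univ := by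
  have := F.czz; have := F.cGe; have := F.cχ; have := h.fin
  refine int_le h h' (by fun_prop (disch := assumption)) fun q' hq' => ?_
  refine (h.le (g := fun q => χ q.1 * rk a (A q'.1 (q.1 - q'.1)) ^ 2 * cd (A q'.1 (q.1 - q'.1))
    (A q'.1 q.2) + C) (by fun_prop (disch := assumption)) (by fun_prop (disch := assumption))
    fun q a1 a2 => ?_).trans ?_
  · have P := F.pt hq' a1 a2
    have := P.c0; have := n2_nonneg (A q'.1 q.2)
    have := mul_nonneg (rk_pos ha (A q'.1 (q.1 - q'.1))).le (n2_nonneg (A q'.1 (q.1 - q'.1)))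
    have b : χ q.1 * (rk a (A q'.1 (q.1 - q'.1)) * n2 (A q'.1 (q.1 - q'.1))) ^ 2 *
        n2 (A q'.1 q.2) ≤ 1 * 1 ^ 2 * C := by
      gcongr
      exacts [P.c1, rk_t ha _, P.nw]
    simp only [Ge, ee, zz]
    linarith
  · rw [h.add (by fun_prop (disch := assumption)) continuous_const, integral_const, smul_eq_mul,
      mul_comm _ C]
    exact add_le_add (h.Ex_le F hq' ha) le_rfl

theorem energy (F : Fr D W U A χ ε C) (hκ : ContDiff ℝ ∞ κ) (hc : HasCompactSupport κ)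
    (hU : tsupport κ ⊆ U) (h01 : ∀ x, 0 ≤ κ x ∧ κ x ≤ 1) : ∃ K, 0 < K ∧ ∀ a τ, 0 < a → 0 < τ →
    K3 A (μ'.prod μ) (Gp A χ κ) a ≤ K * τ * K4 A (μ'.prod μ) (Gp A χ κ) a + K / τ + K := by
  have cκ := hκ.continuous
  have cd := hκ.continuous_fderiv (by simp)
  obtain ⟨Λ, Λ0, hΛ⟩ := F.lam cd (hc.fderiv (𝕜 := ℝ))
  have := F.czz; have := F.cGe; have := F.cGp cκ; have := F.cχ; have := F.cdχ
  have := F.smA.continuous; have C1 := F.C1
  have cs := h'.toCs.prod h.toCs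
  set G : QQ → ℝ := fun Q => ε * (κ Q.1.1 ^ 2 * (fderiv ℝ χ Q.2.1 Q.2.2 * vo (Q.2.1 - Q.1.1) Q.1.2
    (D.J Q.1.1 Q.1.2) (D.J Q.2.1 Q.2.2) - fderiv ℝ χ Q.2.1 (D.J Q.2.1 Q.2.2) * vo (Q.2.1 - Q.1.1)
      Q.1.2 (D.J Q.1.1 Q.1.2) Q.2.2)) with hG
  have cG : Continuous G := by rw [hG]; fun_prop
  set K₁ := 6 * C ^ 8 * Λ * ((10 * C ^ 5 * μ.real univ + C * μ.real univ) * μ'.real univ)
  set K₂ := (C ^ 9 + 1) * (10 * C ^ 5 * μ.real univ * μ'.real univ) + C ^ 8 * ∫ Q, |G Q| ∂μ'.prod μ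
  have K1 : 0 ≤ K₁ := by positivity
  have K2 : 0 ≤ K₂ := by positivity
  refine ⟨C ^ 7 + K₁ + K₂, by positivity, fun a τ ha hτ => ?_⟩
  have d2 : ∀ x u, fderiv ℝ (fun x => κ x ^ 2) x u = 2 * κ x * fderiv ℝ κ x u := fun x u => by
    rw [((hκ.differentiable (by simp) x).hasFDerivAt.pow 2).fderiv]; simp [mul_assoc]
  set H₁ : QQ → ℝ := fun Q => χ Q.2.1 * ei a (Q.1.1 - Q.2.1) Q.1.2 (D.J Q.1.1 Q.1.2) Q.2.2
    (D.J Q.2.1 Q.2.2) (κ Q.1.1 ^ 2) (2 * κ Q.1.1 * fderiv ℝ κ Q.1.1 Q.1.2)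
    (2 * κ Q.1.1 * fderiv ℝ κ Q.1.1 (D.J Q.1.1 Q.1.2)) with hH₁
  set H₂ : QQ → ℝ := fun Q => κ Q.1.1 ^ 2 * ei a (Q.2.1 - Q.1.1) Q.2.2 (D.J Q.2.1 Q.2.2) Q.1.2
    (D.J Q.1.1 Q.1.2) (χ Q.2.1) (fderiv ℝ χ Q.2.1 Q.2.2) (fderiv ℝ χ Q.2.1 (D.J Q.2.1 Q.2.2)) with hH₂
  have c1 : Continuous H₁ := by rw [hH₁]; fun_prop (disch := assumption)
  have c2 : Continuous H₂ := by rw [hH₂]; fun_prop (disch := assumption)
  have z1 := int_zero2 h h' c1 fun q => by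
    simp only [hH₁, ← d2]
    rw [integral_const_mul, h'.ei0 (hκ.pow 2) (hc.comp_left (g := fun t => t ^ 2) (by simp))
      ((tsupport_comp_subset (g := fun t : ℝ => t ^ 2) (by simp) κ).trans hU) ha, mul_zero]
  have z2 := int_zero1 h h' c2 fun q => by
    simp only [hH₂]
    rw [integral_const_mul, h.ei0 F.smχ F.cpt F.sub ha, mul_zero]
  have h1 := le2 h h' (f := fun Q => a * rk a (zz A Q) ^ 3 * Gp A χ κ Q)
    (g := fun Q => C ^ 4 / 2 * ε * (H₁ Q + H₂ Q) +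
      (C ^ 9 + 1) * (χ Q.2.1 * (a * rk a (zz A Q) ^ 2) * n2 (A Q.1.1 Q.2.2)) +
      C ^ 7 * τ * (rk a (zz A Q) ^ 2 * Gp A χ κ Q) +
      6 * C ^ 8 * Λ / τ * (rk a (zz A Q) ^ 2 * Ge A χ Q) + C ^ 8 * |G Q|)
    (by fun_prop (disch := assumption)) (by fun_prop (disch := assumption))
    fun ⟨⟨x, v⟩, y, w⟩ a1 a2 a3 a4 => by
      obtain ⟨d, d0, d1, d2, hd⟩ := F.det x a1
      have P := F.pt a1 a3 a4
      refine (P.en (F.qA x a1 v ▸ a2) (F.lo x a1 _) (F.hi x a1 _) d0 d1 d2 (h01 x).1 (h01 x).2 Λ0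
        (hΛ x a1 v) (G := G ((x, v), y, w)) (P.far.imp_left fun h0 => by
          simp only [hG, h0.2.1, h0.2.2, zero_mul, sub_self, mul_zero]) ha hτ).trans (le_of_eq ?_)
      simp only [hH₁, hH₂, ei_id ha, ← F.cx x a1, ← map_smul, ← map_sub, ← hd, hG, Gp, Ge, zz]
      ring
  rw [cs.add, cs.add, cs.add, cs.add, integral_const_mul, integral_const_mul, integral_const_mul,
    integral_const_mul, integral_const_mul, cs.add c1 c2, z1, z2] at h1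
  · have b1 := mul_le_mul_of_nonneg_left (int_le h h' (f := fun Q => χ Q.2.1 *
      (a * rk a (zz A Q) ^ 2) * n2 (A Q.1.1 Q.2.2)) (by fun_prop (disch := assumption))
      fun q hq => h.Bq_le F hq ha) (show 0 ≤ C ^ 9 + 1 by positivity)
    have b2 := mul_le_mul_of_nonneg_left (K4_le h h' F ha) (show 0 ≤ 6 * C ^ 8 * Λ / τ by positivity)
    have b3 : 0 ≤ K4 A (μ'.prod μ) (Gp A χ κ) a := integral_nonneg fun Q => by
      have := F.χ0 Q.2.1; have := pp0 (zz A Q) (A Q.1.1 Q.1.2) (A Q.1.1 Q.2.2)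
      unfold Gp; positivity
    have b4 : 0 ≤ (K₁ + K₂) * τ * K4 A (μ'.prod μ) (Gp A χ κ) a := by positivity
    have b5 : 0 ≤ (C ^ 7 + K₂) / τ + (C ^ 7 + K₁) := by positivity
    have b6 : 6 * C ^ 8 * Λ / τ * ((10 * C ^ 5 * μ.real univ + C * μ.real univ) * μ'.real univ) =
      K₁ / τ := by ring
    unfold K3
    unfold K4 at *
    have b7 : (C ^ 7 + K₁ + K₂) / τ = (C ^ 7 + K₂) / τ + K₁ / τ := by ring
    linarith
  all_goals fun_prop (disch := assumption)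

end Vale.Agent.P247N
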