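import Vale.Agent.P247N.Vc

/-!
# P247, block N: local unitary frames
-/

set_option linter.all false

open scoped ContDiff Topology
open Set MeasureTheory Filter Metric

noncomputable section

namespace Vale.Agent.P247N

open Vale.Agent.P247.H74 (R4 Data e)

/-- a unitary coframe `A` on `U`, a cut-off function which is one near `U`, and bounds -/
structure Fr (D : Data) (W U : Set R4) (A : R4 → R4 →L[ℝ] R4) (χ : R4 → ℝ) (ε C : ℝ) : Prop where
  opn : IsOpen U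
  smA : ContDiff ℝ ∞ A
  smχ : ContDiff ℝ ∞ χ
  cpt : HasCompactSupport χ
  sub : tsupport χ ⊆ W
  χ0 : ∀ y, 0 ≤ χ y
  χ1 : ∀ y, χ y ≤ 1
  C1 : 1 ≤ C
  ε1 : ε ^ 2 = 1
  cx : ∀ x ∈ U, ∀ u, A x (D.J x u) = i0 (A x u)
  qA : ∀ x ∈ U, ∀ u, qf D x u = n2 (A x u)
  lip : ∀ x ∈ U, ∀ y ∈ ball (0 : R4) 1, ∀ u,
    n2 (A x (D.J y u - D.J x u)) ≤ C * (n2 (A x (y - x)) * n2 (A x u))
  lq : ∀ x ∈ U, ∀ y ∈ ball (0 : R4) 1, ∀ u,
    (qf D y u - n2 (A x u)) ^ 2 ≤ C * (n2 (A x (y - x)) * n2 (A x u) ^ 2)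
  cq : ∀ x ∈ U, ∀ y u, n2 (A x u) ≤ C * qf D y u
  tb : ∀ x ∈ U, ∀ y ∈ ball (0 : R4) 1, n2 (A x (y - x)) ≤ C
  dA : ∀ x ∈ U, ∀ u z, n2 (fderiv ℝ A x u z) ≤ C * (n2 (A x u) * n2 (A x z))
  dχ : ∀ x ∈ U, ∀ y u, fderiv ℝ χ y u ^ 2 ≤ C * n2 (A x u)
  far : ∀ x ∈ U, ∀ y, (χ y = 1 ∧ fderiv ℝ χ y = 0) ∨ 1 ≤ C * n2 (A x (y - x))
  lo : ∀ x ∈ U, ∀ z, n2 z ≤ C * n2 (A x z)
  hi : ∀ x ∈ U, ∀ z, n2 (A x z) ≤ C * n2 z
  det : ∀ x ∈ U, ∃ d, 0 < d ∧ 1 ≤ C * d ∧ d ≤ C ∧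
    ∀ u v w p, ε * vo u v w p = d * vo (A x u) (A x v) (A x w) (A x p)

variable (D : Data)

/-- the Hermitian metric -/
def gm (x u v : R4) : ℝ := (D.om.val x u (D.J x v) + D.om.val x v (D.J x u)) / 2

theorem val_anti (x u v : R4) : D.om.val x u v = -D.om.val x v u := by
  have h := D.om.κ_self (u + v)
  simp only [map_add, ContinuousLinearMap.add_apply, D.om.κ_self] at h
  unfold P247.H74.CForm.val; linarith

theorem gm_comm (x u v : R4) : gm D x u v = gm D x v u := by unfold gm; ring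
theorem gm_self (x u : R4) : gm D x u u = qf D x u := by unfold gm qf; ring
theorem gm_add (x u v w : R4) : gm D x u (v + w) = gm D x u v + gm D x u w := by
  simp only [gm, P247.H74.CForm.val, map_add, ContinuousLinearMap.add_apply]; ring
theorem gm_smul (x u v : R4) (c : ℝ) : gm D x u (c • v) = c * gm D x u v := by
  simp only [gm, P247.H74.CForm.val, map_smul, ContinuousLinearMap.smul_apply, smul_eq_mul]; ring
theorem gm_J (x u v : R4) : gm D x u (D.J x v) = -gm D x (D.J x u) v := by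
  have h1 := val_anti D x u v
  have h2 := val_anti D x (D.J x u) (D.J x v)
  simp only [gm, D.J_sq, P247.H74.CForm.val, map_neg, ContinuousLinearMap.neg_apply] at *
  linarith
theorem gm_sub (x u v w : R4) : gm D x u (v - w) = gm D x u v - gm D x u w := by
  rw [sub_eq_add_neg, gm_add, ← neg_one_smul ℝ w, gm_smul]; ring
theorem gm_J0 (x u : R4) : gm D x (D.J x u) u = 0 := by
  have := gm_J D x u u; rw [gm_comm] at this; linarith
theorem gm_JJ (x u v : R4) : gm D x (D.J x u) (D.J x v) = gm D x u v := by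
  rw [gm_J, D.J_sq, gm_comm, ← neg_one_smul ℝ u, gm_smul, gm_comm]; ring

theorem sm_gm {a b : R4 → R4} (ha : ContDiff ℝ ∞ a) (hb : ContDiff ℝ ∞ b) :
    ContDiff ℝ ∞ fun x => gm D x (a x) (b x) := by
  have h : ContDiff ℝ ∞ (fderiv ℝ D.om.lam) := D.om.lam_smooth.fderiv_right (by simp)
  have v : ∀ {a b : R4 → R4}, ContDiff ℝ ∞ a → ContDiff ℝ ∞ b →
      ContDiff ℝ ∞ fun x => D.om.val x (a x) (b x) := fun ha hb =>
    (((D.om.κ.contDiff.comp ha).clm_apply hb).add ((h.clm_apply ha).clm_apply hb)).sub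
      ((h.clm_apply hb).clm_apply ha)
  exact ((v ha (D.J_smooth.clm_apply hb)).add (v hb (D.J_smooth.clm_apply ha))).div_const _

/-- the coframe dual to `f` -/
def cof (f : Fin 4 → R4 → R4) (x : R4) : R4 →L[ℝ] R4 := LinearMap.toContinuousLinearMap
  { toFun := fun u i => gm D x (f i x) u
    map_add' := fun u v => funext fun i => gm_add D x _ u v
    map_smul' := fun c v => funext fun i => gm_smul D x _ v c }

theorem cof_apply (f : Fin 4 → R4 → R4) (x u : R4) (i : Fin 4) :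
    cof D f x u i = gm D x (f i x) u := rfl

theorem sm_cof {f : Fin 4 → R4 → R4} (hf : ∀ i, ContDiff ℝ ∞ (f i)) : ContDiff ℝ ∞ (cof D f) :=
  contDiff_clm_apply_iff.2 fun _ => contDiff_pi.2 fun i => sm_gm D (hf i) contDiff_const

theorem r4_dec (u : R4) : u = u 0 • e 0 + u 1 • e 1 + u 2 • e 2 + u 3 • e 3 := by
  ext i; fin_cases i <;> simp [e]

theorem vo_map (A : R4 →L[ℝ] R4) (u v w p : R4) : vo (A u) (A v) (A w) (A p) =
    vo (A (e 0)) (A (e 1)) (A (e 2)) (A (e 3)) * vo u v w p := by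
  have h : ∀ u i, A u i = u 0 * A (e 0) i + u 1 * A (e 1) i + u 2 * A (e 2) i + u 3 * A (e 3) i :=
    fun u i => by conv_lhs => rw [r4_dec u]
                  simp
  rw [vo_eq, vo_eq, vo_eq u]
  simp only [h u, h v, h w, h p]
  ring

theorem frame_ok {x a b : R4} (ha : gm D x a a = 1) (hb : gm D x b b = 1) (h1 : gm D x a b = 0)
    (h2 : gm D x (D.J x a) b = 0) (A : R4 →L[ℝ] R4)
    (hA : ∀ u, A u = ![gm D x a u, gm D x (D.J x a) u, gm D x b u, gm D x (D.J x b) u]) :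
    (∀ u, A (D.J x u) = i0 (A u)) ∧ (∀ u, qf D x u = n2 (A u)) ∧
      vo (A (e 0)) (A (e 1)) (A (e 2)) (A (e 3)) ≠ 0 := by
  have h3 : gm D x a (D.J x b) = 0 := by rw [gm_J, h2, neg_zero]
  have h4 : gm D x b a = 0 := by rw [gm_comm, h1]
  have h5 : gm D x b (D.J x a) = 0 := by rw [gm_comm, h2]
  have h6 : gm D x (D.J x b) a = 0 := by rw [gm_comm, h3]
  have h7 : ∀ u, gm D x u (D.J x u) = 0 := fun u => by rw [gm_comm, gm_J0]
  have P : ∀ c : R4, A (c 0 • a + c 1 • D.J x a + c 2 • b + c 3 • D.J x b) = c := fun c => by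
    rw [hA]
    ext i
    fin_cases i <;> simp [gm_add, gm_smul, gm_JJ, gm_J0, *]
  have hs : Function.Surjective A := fun c => ⟨_, P c⟩
  have hi : Function.Injective A := (LinearMap.injective_iff_surjective (f := A.toLinearMap)).2 hs
  refine ⟨fun u => ?_, fun u => ?_, fun h => ?_⟩
  · rw [hA, hA]
    ext i
    fin_cases i
    exacts [gm_J D x a u, gm_JJ D x a u, gm_J D x b u, gm_JJ D x b u]
  · have h := congrArg (gm D x u) (hi (P (A u)))
    rw [← gm_self, ← h, gm_add, gm_add, gm_add, gm_smul, gm_smul, gm_smul, gm_smul,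
      gm_comm D x u a, gm_comm D x u b, gm_comm D x u (D.J x a), gm_comm D x u (D.J x b), hA]
    simp [n2]; ring
  · obtain ⟨s, hs⟩ := hs.hasRightInverse
    have := vo_map A (s (e 0)) (s (e 1)) (s (e 2)) (s (e 3))
    rw [h, hs, hs, hs, hs, zero_mul] at this
    simp [vo_eq, e] at this

theorem n2_clm {B : ℝ} {M : R4 →L[ℝ] R4} (h : ‖M‖ ≤ B) (u : R4) : n2 (M u) ≤ 4 * B ^ 2 * n2 u := by
  have h1 := M.le_of_opNorm_le h u
  have h2 := pow_le_pow_left₀ (norm_nonneg _) h1 2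
  nlinarith [n2_le (M u), mul_le_mul_of_nonneg_left (le_n2 u) (sq_nonneg B)]

theorem lip_clm {M : R4 → R4 →L[ℝ] R4} (hM : ContDiff ℝ ∞ M) {K : Set R4} (hK : IsCompact K) :
    ∃ B, 0 ≤ B ∧ ∀ x ∈ K, ∀ y ∈ K, ∀ u, n2 (M y u - M x u) ≤ B * (n2 (y - x) * n2 u) := by
  obtain ⟨L, hL⟩ := LocallyLipschitzOn.exists_lipschitzOnWith_of_compact hK
    (ContDiff.locallyLipschitz (hM.of_le (m := 1) (by simp))).locallyLipschitzOn
  refine ⟨4 * L ^ 2, by positivity, fun x hx y hy u => ?_⟩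
  refine (n2_clm (hL.norm_sub_le hy hx) u).trans ?_
  have := mul_le_mul_of_nonneg_right (le_n2 (y - x)) (n2_nonneg u)
  nlinarith [sq_nonneg (L : ℝ)]

theorem ev_mono {ι : Type} {S : ι → Prop} {f g : ι → ℝ} (hg : ∀ i, 0 ≤ g i) {B : ℝ}
    (h : ∀ i, S i → f i ≤ B * g i) : ∀ᶠ C in atTop, ∀ i, S i → f i ≤ C * g i :=
  (eventually_ge_atTop B).mono fun _ hC i hi =>
    (h i hi).trans (mul_le_mul_of_nonneg_right hC (hg i))

theorem exists_fr {W : Set R4} (hW : IsOpen W) {x₀ : R4} (hx : x₀ ∈ W) :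
    ∃ U A χ ε C, x₀ ∈ U ∧ U ⊆ W ∧ Fr D W U A χ ε C := by
  obtain ⟨c, c0, hc⟩ := qf_lo D
  have qp : ∀ x u, u ≠ 0 → 0 < gm D x u u := fun x u hu =>
    gm_self D x u ▸ lt_of_lt_of_le (by have := norm_pos_iff.2 hu; positivity) (hc x u)
  have q0 : ∀ x, 0 < gm D x (e 0) (e 0) := fun x => qp x _ (by simp [e])
  set a : R4 → R4 := fun x => (√(gm D x (e 0) (e 0)))⁻¹ • e 0 with ha
  have nrm : ∀ x u, 0 < gm D x u u → gm D x ((√(gm D x u u))⁻¹ • u) ((√(gm D x u u))⁻¹ • u) = 1 :=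
    fun x u hu => by
      rw [gm_smul, gm_comm D x (_ • u), gm_smul, ← mul_assoc, ← mul_inv, Real.mul_self_sqrt hu.le,
        inv_mul_cancel₀ hu.ne']
  have sa : ContDiff ℝ ∞ a := (((sm_gm D contDiff_const contDiff_const).sqrt
    fun x => (q0 x).ne').inv fun x => (Real.sqrt_pos.2 (q0 x)).ne').smul contDiff_const
  obtain ⟨h, hh⟩ : ∃ h, h ∉ Submodule.span ℝ ({a x₀, D.J x₀ (a x₀)} : Set R4) := by
    by_contra! h
    have h1 := finrank_span_finset_le_card (R := ℝ) ({a x₀, D.J x₀ (a x₀)} : Finset R4)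
    rw [Set.finrank, Finset.coe_insert, Finset.coe_singleton,
      Submodule.eq_top_iff'.2 h, finrank_top, Module.finrank_fin_fun] at h1
    have := Finset.card_le_two (a := a x₀) (b := D.J x₀ (a x₀))
    omega
  set k : R4 → R4 := fun x => h - gm D x (a x) h • a x - gm D x (D.J x (a x)) h • D.J x (a x) with hk
  have sJ := D.J_smooth.clm_apply sa
  have sk : ContDiff ℝ ∞ k := (contDiff_const.sub ((sm_gm D sa contDiff_const).smul sa)).sub
    ((sm_gm D sJ contDiff_const).smul sJ)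
  have k0 : 0 < gm D x₀ (k x₀) (k x₀) := qp _ _ fun h0 => hh (by
    simp only [hk] at h0
    rw [sub_sub, sub_eq_zero] at h0
    rw [h0]
    exact Submodule.mem_span_pair.2 ⟨_, _, rfl⟩)
  obtain ⟨ρ, ρ0, hρ⟩ := Metric.mem_nhds_iff.1 (inter_mem (hW.mem_nhds hx)
    ((sm_gm D sk sk).continuous.continuousAt.eventually (lt_mem_nhds k0)))
  let χ : ContDiffBump x₀ := ⟨ρ / 4, ρ / 2, by positivity, by linarith⟩
  have χs : tsupport χ ⊆ ball x₀ ρ := χ.tsupport_eq ▸ closedBall_subset_ball (half_lt_self ρ0)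
  have N0 : ∀ x, 0 < gm D x (k x) (k x) + (1 - χ x) := fun x => by
    rcases (χ.le_one (x := x)).eq_or_lt with h1 | h1
    · have := (hρ (χs (subset_tsupport _ (show χ x ≠ 0 by simp [h1])))).2
      simp only [h1, sub_self, add_zero]; exact this
    · have := gm_self D x (k x) ▸ qf_nonneg D x (k x); linarith
  set b : R4 → R4 := fun x => (√(gm D x (k x) (k x) + (1 - χ x)))⁻¹ • k x with hb
  have sb : ContDiff ℝ ∞ b := ((((sm_gm D sk sk).add (contDiff_const.sub χ.contDiff)).sqrt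
    fun x => (N0 x).ne').inv fun x => (Real.sqrt_pos.2 (N0 x)).ne').smul sk
  set A := cof D ![a, fun x => D.J x (a x), b, fun x => D.J x (b x)] with hA
  have sA : ContDiff ℝ ∞ A := sm_cof D fun i => by
    fin_cases i
    exacts [sa, sJ, sb, D.J_smooth.clm_apply sb]
  have ok : ∀ x ∈ ball x₀ (ρ / 4), _ := fun x hx => by
    have h1 := χ.one_of_mem_closedBall (ball_subset_closedBall hx)
    have h2 := N0 x
    have a1 : gm D x (a x) (a x) = 1 := nrm x _ (q0 x)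
    rw [h1, sub_self, add_zero] at h2
    refine frame_ok D a1 (b := b x) (by simp only [hb, h1, sub_self, add_zero]; exact nrm x _ h2)
      ?_ ?_ (A x) fun u => by ext i; fin_cases i <;> rfl
    · simp [hb, hk, gm_smul, gm_sub, a1, gm_comm D x (a x) (D.J x (a x)), gm_J0]
    · simp [hb, hk, gm_smul, gm_sub, a1, gm_JJ, gm_J0]
  set δ : R4 → ℝ := fun x => vo (A x (e 0)) (A x (e 1)) (A x (e 2)) (A x (e 3)) with hδ
  have cA := sA.continuous
  have cδ : Continuous δ := by rw [hδ]; fun_prop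
  have δ0 : 0 < |δ x₀| := abs_pos.2 (ok x₀ (mem_ball_self (by positivity))).2.2
  obtain ⟨ε, ε1, hε⟩ : ∃ ε : ℝ, ε ^ 2 = 1 ∧ ε * δ x₀ = |δ x₀| := by
    rcases le_total 0 (δ x₀) with h | h
    exacts [⟨1, by simp, by simp [abs_of_nonneg h]⟩, ⟨-1, by simp, by simp [abs_of_nonpos h]⟩]
  set U := ball x₀ (ρ / 8) ∩ {x | |δ x₀| / 2 < ε * δ x ∧ ε * δ x < 2 * |δ x₀|} with hU
  have U1 : ∀ x ∈ U, x ∈ ball x₀ (ρ / 4) := fun x hx => ball_subset_ball (by linarith) hx.1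
  set K := closedBall x₀ ρ ∪ closedBall 0 1
  have hK : IsCompact K := (isCompact_closedBall _ _).union (isCompact_closedBall _ _)
  have UK : ∀ x ∈ U, x ∈ K := fun x hx => .inl (ball_subset_closedBall (ball_subset_ball
    (by linarith) hx.1))
  have BK : ∀ y ∈ ball (0 : R4) 1, y ∈ K := fun y hy => .inr (ball_subset_closedBall hy)
  have lo' : ∀ x z, n2 z ≤ 4 / c * qf D x z := fun x z => by
    rw [div_mul_eq_mul_div, le_div_iff₀ c0]; nlinarith [n2_le z, hc x z]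
  have lo : ∀ x ∈ U, ∀ z, n2 z ≤ 4 / c * n2 (A x z) := fun x hx z =>
    (ok x (U1 x hx)).2.1 z ▸ lo' x z
  obtain ⟨B, hB⟩ := hK.exists_bound_of_continuousOn cA.continuousOn
  obtain ⟨B₁, hB₁⟩ := hK.exists_bound_of_continuousOn (sA.continuous_fderiv (by simp)).continuousOn
  obtain ⟨B₂, hB₂⟩ := (χ.hasCompactSupport.fderiv (𝕜 := ℝ)).exists_bound_of_continuous
    ((χ.contDiff (n := 1)).continuous_fderiv (by simp))
  obtain ⟨L₁, L1, hL₁⟩ := lip_clm D.J_smooth hK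
  obtain ⟨L₂, L2, hL₂⟩ := lip_clm (sm_cof D (f := fun i _ => e i) fun _ => contDiff_const) hK
  obtain ⟨R, hR⟩ := hK.isBounded.subset_closedBall 0
  have hi := fun x hx => n2_clm (hB x (UK x hx))
  have n0 := n2_nonneg
  have E1 := ev_mono (S := fun i : R4 × R4 × R4 => i.1 ∈ U ∧ i.2.1 ∈ ball (0 : R4) 1)
    (f := fun i => n2 (A i.1 (D.J i.2.1 i.2.2 - D.J i.1 i.2.2)))
    (g := fun i => n2 (A i.1 (i.2.1 - i.1)) * n2 (A i.1 i.2.2)) (fun i => mul_nonneg (n0 _) (n0 _))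
    (B := 4 * B ^ 2 * (L₁ * (4 / c * (4 / c)))) fun i hi' => (hi _ hi'.1 _).trans (by
      refine (mul_le_mul_of_nonneg_left ((hL₁ _ (UK _ hi'.1) _ (BK _ hi'.2) _).trans
        (mul_le_mul_of_nonneg_left (mul_le_mul (lo _ hi'.1 _) (lo _ hi'.1 _) (n0 _)
          ((n0 _).trans (lo _ hi'.1 _))) L1)) (by positivity)).trans (le_of_eq ?_)
      ring)
  have E2 := ev_mono (S := fun i : R4 × R4 × R4 => i.1 ∈ U ∧ i.2.1 ∈ ball (0 : R4) 1)
    (f := fun i => (qf D i.2.1 i.2.2 - n2 (A i.1 i.2.2)) ^ 2)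
    (g := fun i => n2 (A i.1 (i.2.1 - i.1)) * n2 (A i.1 i.2.2) ^ 2)
    (fun i => mul_nonneg (n0 _) (sq_nonneg _)) (B := L₂ * (4 / c) ^ 3) fun ⟨x, y, u⟩ hi' => by
      have e1 : ∀ x, qf D x u = ip u (cof D (fun i _ => e i) x u) := fun x => by
        rw [← gm_self, congrArg (gm D x u) (r4_dec u), gm_add, gm_add, gm_add, gm_smul, gm_smul,
          gm_smul, gm_smul]
        simp only [ip, cof_apply, gm_comm D x u (e _)]
      have e2 : qf D y u - n2 (A x u) =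
          ip u (cof D (fun i _ => e i) y u - cof D (fun i _ => e i) x u) := by
        rw [← (ok x (U1 x hi'.1)).2.1, e1, e1]; simp only [ip, Pi.sub_apply]; ring
      have := n0 u; have := n0 (y - x); have := n0 (A x u); have := n0 (A x (y - x))
      calc _ ≤ _ := e2 ▸ ip_sq _ _
        _ ≤ n2 u * (L₂ * (n2 (y - x) * n2 u)) := by
          gcongr; exact hL₂ _ (UK _ hi'.1) _ (BK _ hi'.2) _
        _ ≤ (4 / c * n2 (A x u)) * (L₂ * ((4 / c * n2 (A x (y - x))) * (4 / c * n2 (A x u)))) := by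
          gcongr <;> exact lo _ hi'.1 _
        _ = _ := by ring
  have E3 := ev_mono (S := fun i : R4 × R4 × R4 => i.1 ∈ U) (f := fun i => n2 (A i.1 i.2.2))
    (g := fun i => qf D i.2.1 i.2.2) (fun i => qf_nonneg _ _ _) (B := 4 * B ^ 2 * (4 / c))
    fun i hi' => (hi _ hi' _).trans (by rw [mul_assoc _ (4 / c)]; gcongr; exact lo' _ _)
  have E4 := ev_mono (S := fun i : R4 × R4 × R4 => i.1 ∈ U)
    (f := fun i => n2 (fderiv ℝ A i.1 i.2.1 i.2.2)) (g := fun i => n2 (A i.1 i.2.1) * n2 (A i.1 i.2.2))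
    (fun i => mul_nonneg (n0 _) (n0 _)) (B := 4 * B₁ ^ 2 * (4 / c) ^ 2) fun ⟨x, u, z⟩ hi' => by
      have := n0 u; have := n0 z; have := n0 (A x u)
      calc _ ≤ _ := n2_clm ((fderiv ℝ A x).le_of_opNorm_le (hB₁ x (UK x hi')) u) z
        _ = 4 * B₁ ^ 2 * (‖u‖ ^ 2 * n2 z) := by ring
        _ ≤ 4 * B₁ ^ 2 * ((4 / c * n2 (A x u)) * (4 / c * n2 (A x z))) := by
          gcongr
          exacts [(le_n2 u).trans (lo _ hi' _), lo _ hi' _]
        _ = _ := by ring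
  have E5 := ev_mono (S := fun i : R4 × R4 × R4 => i.1 ∈ U)
    (f := fun i => fderiv ℝ χ i.2.1 i.2.2 ^ 2) (g := fun i => n2 (A i.1 i.2.2))
    (fun i => n0 _) (B := B₂ ^ 2 * (4 / c)) fun ⟨x, y, u⟩ hi' => by
      have h1 := pow_le_pow_left₀ (norm_nonneg _) ((fderiv ℝ χ y).le_of_opNorm_le (hB₂ y) u) 2
      rw [Real.norm_eq_abs, sq_abs, mul_pow] at h1
      rw [mul_assoc]
      exact h1.trans (mul_le_mul_of_nonneg_left ((le_n2 u).trans (lo _ hi' _)) (sq_nonneg _))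
  have E6 := ev_mono (S := fun i : R4 × R4 => i.1 ∈ U ∧ i.2 ∉ ball x₀ (ρ / 4)) (f := fun _ => 1)
    (g := fun i => n2 (A i.1 (i.2 - i.1))) (fun i => n0 _) (B := (ρ / 8)⁻¹ ^ 2 * (4 / c))
    fun ⟨x, y⟩ hi' => by
      have h1 : ρ / 8 ≤ ‖y - x‖ := by
        have h2 := dist_triangle y x x₀
        have h3 := mem_ball.1 hi'.1.1
        have h4 := not_lt.1 (mem_ball.not.1 hi'.2)
        rw [← dist_eq_norm]; linarith
      rw [mul_assoc, inv_pow, ← div_eq_inv_mul, le_div_iff₀ (by positivity), one_mul]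
      exact (pow_le_pow_left₀ (by positivity) h1 2).trans ((le_n2 _).trans (lo _ hi'.1 _))
  have E7 := ev_mono (S := fun i : R4 × R4 => i.1 ∈ U) (fun i => n0 _) fun i hi' => lo i.1 hi' i.2
  have E8 := ev_mono (S := fun i : R4 × R4 => i.1 ∈ U) (fun i => n0 _) fun i hi' => hi i.1 hi' i.2
  obtain ⟨C, ⟨⟨⟨⟨⟨⟨⟨⟨e1, e2⟩, e3⟩, e4⟩, e5⟩, e6⟩, e7⟩, e8⟩, e9⟩, ⟨f1, f2⟩, f3⟩ :=
    (((((((((E1.and E2).and E3).and E4).and E5).and E6).and E7).and E8).and
      (eventually_ge_atTop (4 * B ^ 2 * (4 * (R + R) ^ 2)))).and (((eventually_ge_atTop 1).and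
      (eventually_ge_atTop (2 * |δ x₀|))).and (eventually_ge_atTop (|δ x₀| / 2)⁻¹))).exists
  refine ⟨U, A, χ, ε, C, ⟨mem_ball_self (by positivity), by
    rw [mem_setOf_eq, hε]; constructor <;> linarith⟩,
    fun x hx => (hρ (ball_subset_ball (by linarith) hx.1)).1,
    isOpen_ball.inter (isOpen_Ioo.preimage (continuous_const.mul cδ)), sA, χ.contDiff, χ.hasCompactSupport,
    fun y hy => (hρ (χs hy)).1, fun _ => χ.nonneg, fun _ => χ.le_one, f1, ε1,
    fun x hx => (ok x (U1 x hx)).1, fun x hx => (ok x (U1 x hx)).2.1,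
    fun x hx y hy u => e1 (x, y, u) ⟨hx, hy⟩, fun x hx y hy u => e2 (x, y, u) ⟨hx, hy⟩,
    fun x hx y u => e3 (x, y, u) hx, fun x hx y hy => (hi x hx _).trans (le_trans ?_ e9),
    fun x hx u z => e4 (x, u, z) hx, fun x hx y u => e5 (x, y, u) hx, fun x hx y => ?_,
    fun x hx z => e7 (x, z) hx, fun x hx z => e8 (x, z) hx, fun x hx => ?_⟩
  · refine mul_le_mul_of_nonneg_left ((n2_le _).trans ?_) (by positivity)
    gcongr
    exact (norm_sub_le _ _).trans (add_le_add (mem_closedBall_zero_iff.1 (hR (BK y hy)))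
      (mem_closedBall_zero_iff.1 (hR (UK x hx))))
  · by_cases hy : y ∈ ball x₀ (ρ / 4)
    · exact .inl ⟨χ.one_of_mem_closedBall (ball_subset_closedBall hy), by
        rw [(χ.eventuallyEq_one_of_mem_ball hy).fderiv_eq]; exact fderiv_const_apply _⟩
    · exact .inr (e6 (x, y) ⟨hx, hy⟩)
  · have h1 : 0 < ε * δ x := lt_trans (half_pos δ0) hx.2.1
    refine ⟨(ε * δ x)⁻¹, inv_pos.2 h1, ?_, (inv_anti₀ (half_pos δ0) hx.2.1.le).trans f3,
      fun u v w p => ?_⟩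
    · rw [← div_eq_mul_inv, le_div_iff₀ h1]; linarith [hx.2.2]
    · rw [vo_map, eq_inv_mul_iff_mul_eq₀ h1.ne']
      linear_combination (δ x * vo u v w p) * ε1

end Vale.Agent.P247N
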