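import Vale.Agent.P247N.Clo
import Vale.Agent.P247N.Cha

/-!
# P247, block N: functions of the density times the current are closed (local form)
-/

set_option linter.all false

open scoped ContDiff Topology
open Set MeasureTheory Filter Metric

noncomputable section

namespace Vale.Agent.P247N

open Vale.Agent.P247.H74 (R4 Data)
open Vale.Agent.P247.H574 (dd)

/-- measures with a real density -/
def wd {Y : Type*} [MeasurableSpace Y] (m : Measure Y) (g : Y → ℝ) : Measure Y :=
  m.withDensity fun y => ENNReal.ofReal (g y)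

section
variable {Y : Type*} [MeasurableSpace Y] {m : Measure Y} {g : Y → ℝ} {B : ℝ}

theorem int_wd (hg : Measurable g) (h0 : ∀ y, 0 ≤ g y) (f : Y → ℝ) :
    ∫ y, f y ∂wd m g = ∫ y, g y * f y ∂m := by
  rw [wd, integral_withDensity_eq_integral_toReal_smul hg.ennreal_ofReal
    (.of_forall fun _ => ENNReal.ofReal_lt_top)]
  simp only [ENNReal.toReal_ofReal (h0 _), smul_eq_mul]

theorem fin_wd [IsFiniteMeasure m] (hg : Measurable g) (h0 : ∀ y, 0 ≤ g y ∧ g y ≤ B) :
    IsFiniteMeasure (wd m g) :=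
  isFiniteMeasure_withDensity_ofReal ((integrable_const B).mono' hg.aestronglyMeasurable
    (.of_forall fun y => by rw [Real.norm_of_nonneg (h0 y).1]; exact (h0 y).2)).2

theorem ae_wd (hg : Measurable g) {P : Y → Prop} (h : ∀ᵐ y ∂m, 0 < g y → P y) :
    ∀ᵐ y ∂wd m g, P y :=
  (ae_withDensity_iff hg.ennreal_ofReal).2 (h.mono fun y hy h0 => hy (by simpa using h0))

theorem int_bm {f : Y → ℝ} (hf : Integrable f m) (hg : Measurable g) (h0 : ∀ y, |g y| ≤ B) :
    Integrable (fun y => g y * f y) m :=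
  hf.bdd_mul hg.aestronglyMeasurable (.of_forall h0)

/-- vanishing moments -/
theorem mom {N f : Y → ℝ} (hN : Measurable N) (h0 : ∀ y, 0 ≤ N y ∧ N y ≤ B) (mf : Measurable f)
    (hf : Integrable f m) (h : ∀ k : ℕ, ∫ y, N y ^ k * f y ∂m = 0) {g : ℝ → ℝ} (hg : Measurable g)
    {C : ℝ} (hC : ∀ s, |g s| ≤ C) : ∫ y, g (N y) * f y ∂m = 0 := by
  have ip : ∀ p : Polynomial ℝ, Integrable (fun y => p.eval (N y) * f y) m := fun p => by
    obtain ⟨M, hM⟩ := isCompact_Icc.exists_bound_of_continuousOn (s := Icc 0 B)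
      p.continuous.continuousOn
    exact int_bm hf (p.continuous.measurable.comp hN) fun y => hM _ (h0 y)
  have h1 : ∀ p : Polynomial ℝ, ∫ y, p.eval (N y) * f y ∂m = 0 := fun p => by
    induction p using Polynomial.induction_on' with
    | add p q hp hq => simp only [Polynomial.eval_add, add_mul, integral_add (ip p) (ip q), hp, hq,
        add_zero]
    | monomial n a => simp only [Polynomial.eval_monomial, mul_assoc, integral_const_mul, h n,
        mul_zero]
  have h2 : ∀ φ : BoundedContinuousFunction ℝ ℝ, ∫ y, φ (N y) * f y ∂m = 0 := fun φ => by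
    refine abs_nonpos_iff.1 (le_of_forall_pos_le_add fun ε hε => ?_)
    have n0 : 0 ≤ ∫ y, |f y| ∂m := integral_nonneg fun _ => abs_nonneg _
    obtain ⟨p, hp⟩ := exists_polynomial_near_of_continuousOn 0 B φ φ.continuous.continuousOn
      (ε / (∫ y, |f y| ∂m + 1)) (by positivity)
    have i1 := int_bm hf (g := fun y => φ (N y)) (φ.continuous.measurable.comp hN)
      fun y => φ.norm_coe_le_norm (N y)
    rw [← abs_neg, ← zero_sub, ← h1 p, ← integral_sub (ip p) i1, h1 p]
    refine (abs_integral_le_integral_abs.trans (integral_mono ((ip p).sub i1).abs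
      (hf.abs.const_mul (ε / (∫ y, |f y| ∂m + 1))) fun y => ?_)).trans ?_
    · simp only [Pi.sub_apply, ← sub_mul, abs_mul]
      exact mul_le_mul_of_nonneg_right (hp _ (h0 y)).le (abs_nonneg _)
    · rw [integral_const_mul, zero_add, div_mul_eq_mul_div, div_le_iff₀ (by positivity)]
      nlinarith
  have mp : Measurable fun y => max (f y) 0 := mf.max measurable_const
  have mn : Measurable fun y => max (-f y) 0 := mf.neg.max measurable_const
  have e : ∀ {φ : ℝ → ℝ}, Measurable φ → ∀ {C : ℝ}, (∀ s, |φ s| ≤ C) → ∫ y, φ (N y) * f y ∂m =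
      ∫ s, φ s ∂(wd m fun y => max (f y) 0).map N - ∫ s, φ s ∂(wd m fun y => max (-f y) 0).map N :=
    fun {φ} hφ C hC => by
      rw [integral_map hN.aemeasurable hφ.aestronglyMeasurable, integral_map hN.aemeasurable
        hφ.aestronglyMeasurable, int_wd mp fun _ => le_max_right _ _,
        int_wd mn fun _ => le_max_right _ _, ← integral_sub
        (hf.pos_part.mul_bdd (g := fun y => φ (N y)) (hφ.comp hN).aestronglyMeasurable
          (.of_forall fun y => hC (N y))) (hf.neg_part.mul_bdd (g := fun y => φ (N y))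
          (hφ.comp hN).aestronglyMeasurable (.of_forall fun y => hC (N y)))]
      congr 1; funext y
      rw [← sub_mul, max_zero_sub_max_neg_zero_eq_self, mul_comm]
  have : IsFiniteMeasure (wd m fun y => max (f y) 0) :=
    isFiniteMeasure_withDensity_ofReal hf.pos_part.2
  have : IsFiniteMeasure (wd m fun y => max (-f y) 0) :=
    isFiniteMeasure_withDensity_ofReal hf.neg_part.2
  rw [e hg hC, ext_of_forall_integral_eq_of_IsFiniteMeasure fun φ => sub_eq_zero.1
    ((e φ.continuous.measurable φ.norm_coe_le_norm).symm.trans (h2 φ)), sub_self]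

end

variable {D : Data} {W U : Set R4} {r : Measure R4} {w : Fin 2 → R4 → R4}

theorem TF.cdd {l : R4 → R4 →L[ℝ] ℝ} (hl : TF U l) : Continuous (dd l) :=
  (Lt.cf_dd hl.sm hl.cpt).1.cont

theorem TF.ld_zero {l : R4 → R4 →L[ℝ] ℝ} (hl : TF U l) {y : R4} (hy : y ∉ U) :
    ld D w (dd l) y = 0 := by
  have : fderiv ℝ l y = 0 := by
    by_contra h
    exact hy (hl.sub (support_fderiv_subset ℝ h))
  simp [ld, dd_apply, this]

theorem PC.int_ld (h : PC D W r w) {l : R4 → R4 →L[ℝ] ℝ} (hl : TF U l) :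
    Integrable (ld D w (dd l)) r :=
  integrable_finset_sum _ fun i _ => h.int (Φ := fun q => dd l q.1 q.2 (D.J q.1 q.2))
    (cont_dd hl.sm (by fun_prop) (by fun_prop) (by fun_prop)) i

theorem PC.wd (h : PC D W r w) (hU : IsOpen U) (hW : U ⊆ W) {g : R4 → ℝ} (hg : Measurable g)
    {B : ℝ} (h0 : ∀ y, 0 ≤ g y ∧ g y ≤ B) (hc : ∀ l, TF U l → ∫ y, g y * ld D w (dd l) y ∂r = 0) :
    PC D U (wd (r.restrict U) g) w := by
  have := h.fin
  refine ⟨hU, hW.trans h.sub, fin_wd hg h0, ae_wd hg ((ae_restrict_mem hU.measurableSet).mono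
    fun y hy _ => hy), h.meas, fun y hy => h.nrm y (hW hy), fun l hl => ?_⟩
  rw [int_wd hg fun y => (h0 y).1, setIntegral_eq_integral_of_forall_compl_eq_zero
    fun y hy => by rw [hl.ld_zero hy, mul_zero], hc l hl]

theorem gc0 (h : PC D W r w) {x₀ : R4} (hx : x₀ ∈ W) : ∃ U, IsOpen U ∧ x₀ ∈ U ∧ U ⊆ W ∧
    ∀ (N : R4 → ℝ) (B : ℝ), Measurable N → (∀ y, 0 ≤ N y ∧ N y ≤ B) → (∀ y ∈ W, N y = nu D r y) →
    ∀ (g : ℝ → ℝ) (C : ℝ), Measurable g → (∀ s, |g s| ≤ C) → ∀ l, TF U l →
      ∫ y, g (N y) * ld D w (dd l) y ∂r = 0 := by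
  obtain ⟨U, h1, h2, h3, h4⟩ := clo D W x₀ h.opn hx
  refine ⟨U, h1, h2, h3, fun N B mN hN e g C hg hC l hl => mom mN hN
    (Lt.measurable_ld D h.meas hl.cdd) (h.int_ld hl) (fun k => ?_) hg hC⟩
  induction k generalizing l with
  | zero => simpa using h.closed l ⟨hl.sm, hl.cpt, hl.sub.trans h3⟩
  | succ k ih =>
    have h5 := h4 r w _ w h (h.wd h1 h3 (mN.pow_const k) (B := B ^ k) (fun y =>
      ⟨pow_nonneg (hN y).1 k, pow_le_pow_left₀ (hN y).1 (hN y).2 k⟩) ih) l hl
    rw [int_wd (mN.pow_const k) fun y => pow_nonneg (hN y).1 k, setIntegral_congr_fun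
      (g := fun y => N y ^ (k + 1) * ld D w (dd l) y) h1.measurableSet fun y hy => by
        simp only [← e y (h3 hy)]; ring, setIntegral_eq_integral_of_forall_compl_eq_zero
      fun y hy => by rw [hl.ld_zero hy, mul_zero]] at h5
    exact h5

end Vale.Agent.P247N
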