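import Vale.Agent.P247N.Gc
import Vale.Agent.P247L.T3

/-!
# P247, block N: the global density, currents with weights
-/

set_option linter.all false

open scoped Manifold ContDiff Topology
open Set MeasureTheory Filter Metric

noncomputable section

namespace Vale.Agent.P247N

open Vale.Agent.P247.SCY Vale.Agent.P247.SCY.HS Vale.Agent.P247X Vale.Agent.P247C
open Vale.Agent.P247.H74 (R4 Data)
open Vale.Agent.P247.H574 (dd)

theorem cont_kn (D : Data) {a : ℝ} (ha : 0 < a) :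
    Continuous fun p : R4 × R4 => kn a (qf D p.1 (p.2 - p.1)) :=
  continuous_const.div (by fun_prop) fun p => (pow_pos (add_pos_of_nonneg_of_pos
    (qf_nonneg _ _ _) ha) 2).ne'

theorem cont_Th (D : Data) (r : Measure R4) [IsFiniteMeasure r] {a : ℝ} (ha : 0 < a) :
    Continuous fun x => Th D r x a :=
  continuous_of_dominated (fun x => (Kr.integrable_Th D x r ha).1) (fun x => .of_forall fun y => by
    rw [Real.norm_of_nonneg (Kr.kn_nonneg ha _)]; exact Kr.kn_le ha (qf_nonneg _ _ _))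
    (integrable_const _) (.of_forall fun y => (cont_kn D ha).comp (f := fun x => (x, y))
      (by fun_prop))

variable {X : Type} [Cl4 X] {w : Tri X} {σ : Measure X} {v : VF X} {N g : X → ℝ} {B : ℝ}

/-- represented closed currents -/
structure RC (w : Tri X) (σ : Measure X) (v : VF X) : Prop where
  fin : IsFiniteMeasure σ
  vr : VR w v
  closed : ∀ φ, Smooth φ → Exact φ → cur w σ v φ = 0

/-- `N` is the density -/
def IsN (w : Tri X) (σ : Measure X) (N : X → ℝ) : Prop := ∀ (t : LocT w), ∀ x ∈ t.κ.source,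
  Tendsto (Th t.D (rl t σ) (t.κ x)) (𝓝[>] 0) (𝓝 (N x))

theorem RC.pcur (h : RC w σ v) : PCur (Jw w) (cur w σ v) :=
  have := h.fin
  ⟨Lt.linC_cur σ h.vr, h.closed, Lt.posF_cur σ⟩

theorem RC.pc (h : RC w σ v) (t : LocT w) : PC t.D t.κ.target (rl t σ) (vl t v) :=
  have := h.fin
  Lt.pc_rl t σ h.vr h.closed

theorem IsN.eq (h : IsN w σ N) (t : LocT w) {x : X} (hx : x ∈ t.κ.source) :
    nu t.D (rl t σ) (t.κ x) = N x := (h t x hx).limUnder_eq

theorem mass_rl [IsFiniteMeasure σ] (t : LocT w) : (rl t σ).real univ ≤ σ.real univ := by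
  rw [rl, Measure.real, Measure.map_apply_of_aemeasurable (Lt.aem_k t σ) .univ, preimage_univ,
    Measure.restrict_apply_univ]
  exact measureReal_mono (subset_univ _)

theorem cur_w2 (hv : VR w v) : cur w σ v (w 2) = σ.real univ := by simp [cur, hv.nrm]

theorem cur_wd (hg : Measurable g) (h0 : ∀ x, 0 ≤ g x) (φ : Form X 2) :
    cur w (wd σ g) v φ = ∫ x, g x * dn w v φ x ∂σ := int_wd hg h0 _

open Classical in
/-- a measurable inverse of the chart -/
def ks (t : LocT w) : R4 → X := t.κ.target.piecewise t.κ.symm fun _ => t.κ.symm 0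

theorem meas_ks (t : LocT w) : Measurable (ks t) := by
  classical
  exact t.κ.continuousOn_symm.measurable_piecewise continuousOn_const
    t.κ.open_target.measurableSet

theorem ks_of (t : LocT w) {y : R4} (hy : y ∈ t.κ.target) : ks t y = t.κ.symm y := if_pos hy

theorem ks_k (t : LocT w) {x : X} (hx : x ∈ t.κ.source) : ks t (t.κ x) = x := by
  rw [ks_of t (t.κ.map_source hx), t.κ.left_inv hx]

theorem IsN.eq' (h : IsN w σ N) (t : LocT w) {y : R4} (hy : y ∈ t.κ.target) :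
    N (ks t y) = nu t.D (rl t σ) y := by
  rw [ks_of t hy, ← h.eq t (t.κ.map_target hy), t.κ.right_inv hy]

theorem rl_wd (t : LocT w) (hg : Measurable g) :
    rl t (wd σ g) = wd (rl t σ) fun y => g (ks t y) := by
  have m : Measurable fun y => ENNReal.ofReal (g (ks t y)) := (hg.comp (meas_ks t)).ennreal_ofReal
  have ms := t.κ.open_source.measurableSet
  refine Measure.ext_of_lintegral _ fun f hf => ?_
  rw [rl, lintegral_map' hf.aemeasurable (Lt.aem_k t _), wd, wd, restrict_withDensity ms,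
    lintegral_withDensity_eq_lintegral_mul₀ hg.ennreal_ofReal.aemeasurable (g := fun a => f (t.κ a))
      (hf.comp_aemeasurable (Lt.aem_k t _)), lintegral_withDensity_eq_lintegral_mul _ m hf, rl,
    lintegral_map' (m.mul hf).aemeasurable (Lt.aem_k t _)]
  exact setLIntegral_congr_fun ms fun x hx => by simp [ks_k t hx]

theorem null_nhds (h : RC w σ v) (h2 : Cont (w 2)) {x : X} {U : Set X} (hU : U ∈ 𝓝 x)
    (h0 : ∀ φ, Cont φ → SuppIn φ U → cur w σ v φ = 0) : ∃ V ∈ 𝓝 x, σ V = 0 := by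
  have := h.fin
  obtain ⟨L, l1, l2, l3⟩ := exists_compact_subset isOpen_interior (mem_interior_iff_mem_nhds.2 hU)
  obtain ⟨K, k1, k2, k3⟩ := exists_compact_subset isOpen_interior l2
  obtain ⟨f, f1, f2, -, f3⟩ := exists_continuous_one_zero_of_isCompact k1
    isOpen_interior.isClosed_compl (disjoint_compl_right_iff_subset.2 k3)
  have h1 := h0 _ (cont_fsmul f.continuous h2) ⟨L, l1, l3.trans interior_subset, fun y hy => by
    simp only [f2 fun a => hy (interior_subset a), Pi.zero_apply, zero_smul]⟩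
  have e : ∀ y, dn w v (fun y => f y • w 2 y) y = f y := fun y => by
    have := h.vr.nrm y
    simp only [dn, ContinuousAlternatingMap.smul_apply, smul_eq_mul, ← Finset.mul_sum] at this ⊢
    rw [this, mul_one]
  simp only [cur, e] at h1
  refine ⟨K, mem_interior_iff_mem_nhds.1 k2, measure_mono_null (fun y hy => ?_)
    ((integral_eq_zero_iff_of_nonneg (fun y => (f3 y).1) (f.continuous.integrable_of_hasCompactSupport
      (isClosed_tsupport _).isCompact)).1 h1)⟩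
  simp [f1 hy]

theorem null_of_supp (h : RC w σ v) (h2 : Cont (w 2)) {x : X} (hx : x ∉ suppT (cur w σ v)) :
    ∃ V ∈ 𝓝 x, σ V = 0 := by
  simp only [suppT, mem_setOf_eq, not_forall, not_exists, not_and, not_not] at hx
  obtain ⟨U, hU, h0⟩ := hx
  exact null_nhds h h2 hU h0

theorem IsN.nonneg' [IsFiniteMeasure σ] (h : IsN w σ N) (t : LocT w) {x : X}
    (hx : x ∈ t.κ.source) : 0 ≤ N x :=
  have := Lt.fin_rl t σ
  ge_of_tendsto (h t x hx) (ev_Ioc.mono fun a ha => Kr.Th_nonneg _ _ _ ha.1)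

theorem Th_far [IsFiniteMeasure σ] (t : LocT w) {x : X} (hx : x ∈ t.κ.source) {V : Set X}
    (hV : V ∈ 𝓝 x) (h0 : σ V = 0) : Tendsto (Th t.D (rl t σ) (t.κ x)) (𝓝[>] 0) (𝓝 0) := by
  obtain ⟨δ, δ0, hδ⟩ := Lt.far_k t hx hV
  have := Lt.fin_rl t σ
  refine squeeze_zero' (g := fun a => σ.real univ * (1 / δ ^ 2 * a))
    (ev_Ioc.mono fun a ha => Kr.Th_nonneg _ _ _ ha.1) (ev_Ioc.mono fun a ha => ?_) ?_
  · rw [Lt.Th_rl, ← smul_eq_mul, ← integral_const]
    refine integral_mono_ae (Lt.integrable_kk t σ _ ha.1) (integrable_const _) ?_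
    filter_upwards [measure_eq_zero_iff_ae_notMem.1 h0] with p hp
    exact indicator_apply_le' (fun h => Kr.kn_far ha.1 δ0 (hδ p h hp)) fun _ => by
      have := ha.1; positivity
  · exact (Continuous.tendsto' (by fun_prop) 0 0 (by simp)).mono_left nhdsWithin_le_nhds

variable {μ : Form X 4} (hμ : Volume μ) (hw : Hypersymplectic μ w)
include hμ hw

theorem ex_t (x : X) : ∃ t : LocT w, x ∈ t.κ.source :=
  (P247L.TRANS X μ hμ w hw x univ univ_mem).imp fun _ h => h.1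

theorem RC.exists_N (h : RC w σ v) : ∃ N, IsN w σ N := by
  choose t ht using ex_t hμ hw
  refine ⟨fun x => nu (t x).D (rl (t x) σ) ((t x).κ x), fun t' x hx =>
    nui X μ hμ w hw σ h.fin (t x) t' x _ (ht x) hx ?_⟩
  obtain ⟨C, -, hC⟩ := mon (t x).D _ {(t x).κ x} (t x).κ.open_target isCompact_singleton
    (singleton_subset_iff.2 ((t x).κ.map_source (ht x)))
  exact (hC _ _ (h.pc _) _ rfl).1

theorem IsN.nonneg [IsFiniteMeasure σ] (h : IsN w σ N) (x : X) : 0 ≤ N x :=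
  (ex_t hμ hw x).elim fun t ht => h.nonneg' t ht

theorem IsN.zero [IsFiniteMeasure σ] (h : IsN w σ N) {x : X} {V : Set X} (hV : V ∈ 𝓝 x)
    (h0 : σ V = 0) : N x = 0 :=
  (ex_t hμ hw x).elim fun t ht => tendsto_nhds_unique (h t x ht) (Th_far t ht hV h0)

theorem loc_mon (x₀ : X) : ∃ (t : LocT w) (C : ℝ) (V : Set X), V ∈ 𝓝 x₀ ∧ V ⊆ t.κ.source ∧ 0 ≤ C ∧
    ∀ σ v N, RC w σ v → IsN w σ N → ∀ x ∈ V, ∀ a, 0 < a → a ≤ 1 →
      Th t.D (rl t σ) (t.κ x) a ≤ C * σ.real univ ∧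
      N x ≤ Th t.D (rl t σ) (t.κ x) a + C * σ.real univ * √(√a) := by
  obtain ⟨t, ht⟩ := ex_t hμ hw x₀
  obtain ⟨K, k1, k2, k3⟩ := exists_compact_subset t.κ.open_target (t.κ.map_source ht)
  obtain ⟨C, C0, hC⟩ := mon t.D _ K t.κ.open_target k1 k3
  refine ⟨t, C, t.κ.source ∩ t.κ ⁻¹' K, inter_mem (t.κ.open_source.mem_nhds ht)
    (t.κ.continuousAt ht (mem_interior_iff_mem_nhds.1 k2)), inter_subset_left, C0,
    fun σ v N h hN x hx a a0 a1 => ?_⟩
  have := h.fin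
  have m := mass_rl (σ := σ) t
  rw [← hN.eq t hx.1]
  refine ((hC _ _ (h.pc t) _ hx.2).2 a a0 a1).imp (fun h => h.trans ?_) fun h => h.trans ?_ <;>
    gcongr

theorem ub_N : ∃ C, 0 < C ∧ ∀ σ v N, RC w σ v → IsN w σ N → ∀ x, N x ≤ C * σ.real univ := by
  suffices ∃ C, 0 < C ∧ ∀ σ v N, RC w σ v → IsN w σ N → ∀ x ∈ univ, N x ≤ C * σ.real univ from
    this.imp fun C h => ⟨h.1, fun σ v N a b x => h.2 σ v N a b x trivial⟩
  refine isCompact_univ.induction_on (p := fun S => ∃ C, 0 < C ∧ ∀ σ v N, RC w σ v → IsN w σ N →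
    ∀ x ∈ S, N x ≤ C * σ.real univ) ⟨1, one_pos, fun _ _ _ _ _ _ h => h.elim⟩
    (fun s t hs ⟨C, h0, h⟩ => ⟨C, h0, fun σ v N a b x hx => h σ v N a b x (hs hx)⟩)
    (fun s t ⟨C, h0, h⟩ ⟨C', h0', h'⟩ => ⟨C + C', by positivity, fun σ v N a b x hx => ?_⟩)
    fun x _ => ?_
  · have m0 : 0 ≤ σ.real univ := measureReal_nonneg
    rcases hx with hx | hx
    exacts [(h σ v N a b x hx).trans (by nlinarith), (h' σ v N a b x hx).trans (by nlinarith)]
  · obtain ⟨t, C, V, h1, -, C0, h⟩ := loc_mon hμ hw x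
    refine ⟨V, mem_nhdsWithin_of_mem_nhds h1, 2 * C + 1, by positivity, fun σ v N a b y hy => ?_⟩
    have := h σ v N a b y hy 1 one_pos le_rfl
    have m0 : 0 ≤ σ.real univ := measureReal_nonneg
    simp only [Real.sqrt_one, mul_one] at this
    linarith [this.1, this.2]

theorem IsN.meas (hN : IsN w σ N) (h : RC w σ v) : Measurable N := by
  refine UpperSemicontinuous.measurable fun x b hb => ?_
  obtain ⟨t, C, V, h1, h2, -, h3⟩ := loc_mon hμ hw x
  have hx := h2 (mem_of_mem_nhds h1)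
  have := h.fin; have := Lt.fin_rl t σ
  obtain ⟨a, h4, a0, a1⟩ := ((((hN t x hx).add (sqrt2_lim.const_mul (C * σ.real univ))).eventually
    (gt_mem_nhds (by simpa using hb))).and ev_Ioc).exists
  filter_upwards [h1, ((((cont_Th t.D (rl t σ) a0).continuousAt.comp (t.κ.continuousAt hx)).add
    continuousAt_const).eventually (gt_mem_nhds h4))] with y hy h5
  exact (h3 σ v N h hN y hy a a0 a1).2.trans_lt h5

theorem RC.wd (h : RC w σ v) (hN : IsN w σ N) {f : ℝ → ℝ} (hf : Measurable f)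
    (h0 : ∀ s, 0 ≤ f s ∧ f s ≤ B) : RC w (wd σ fun x => f (N x)) v := by
  have := h.fin
  have mN := hN.meas hμ hw h
  have := fin_wd (m := σ) (g := fun x => f (N x)) (hf.comp mN) fun x => h0 (N x)
  obtain ⟨C, -, hC⟩ := ub_N hμ hw
  refine ⟨this, h.vr, fun φ _ => Lt.closed_of_loc _ h.vr (fun x => ?_) φ⟩
  obtain ⟨t, ht⟩ := ex_t hμ hw x
  obtain ⟨U, u1, u2, u3, u4⟩ := gc0 (h.pc t) (t.κ.map_source ht)
  refine ⟨t, U, ht, u1, u2, u3, fun l hl => ?_⟩
  rw [rl_wd t (g := fun x => f (N x)) (hf.comp mN), int_wd (g := fun y => f (N (ks t y)))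
    ((hf.comp mN).comp (meas_ks t)) fun y => (h0 _).1]
  exact u4 (fun y => N (ks t y)) _ (mN.comp (meas_ks t)) (fun y => ⟨hN.nonneg hμ hw _,
    hC σ v N h hN _⟩) (fun y hy => hN.eq' t hy) f B hf
    (fun s => by rw [abs_of_nonneg (h0 s).1]; exact (h0 s).2) l hl

omit hμ hw in
theorem den_wd (h : RC w σ v) (hN : IsN w σ N) (hg : Measurable g) (h0 : ∀ x, 0 ≤ g x ∧ g x ≤ B)
    {c : ℝ} (hc : ∀ x, 0 < g x → g x * N x = c) (t : LocT w) :
    ∀ᵐ y ∂rl t (wd σ g), Tendsto (Th t.D (rl t (wd σ g)) y) (𝓝[>] 0) (𝓝 c) := by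
  rw [rl_wd t hg]
  refine ae_wd (hg.comp (meas_ks t)) ?_
  filter_upwards [den mon _ _ _ _ (h.pc t) _ (hg.comp (meas_ks t)) ⟨B, fun y => h0 _⟩,
    Lt.ae_rl t σ] with y h1 h2 h3
  rw [← hc _ h3, hN.eq' t h2]
  exact h1

theorem ae_chart {P : LocT w → R4 → Prop} (h : ∀ t, ∀ᵐ y ∂rl t σ, P t y) :
    ∀ᵐ x ∂σ, ∃ t : LocT w, x ∈ t.κ.source ∧ P t (t.κ x) := by
  have := ChartedSpace.secondCountable_of_sigmaCompact E4 X
  refine measure_null_of_locally_null _ fun x _ => ?_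
  obtain ⟨t, ht⟩ := ex_t hμ hw x
  refine ⟨_, inter_mem_nhdsWithin _ (t.κ.open_source.mem_nhds ht), measure_mono_null
    (fun y hy => ?_) ((ae_restrict_iff' t.κ.open_source.measurableSet).1
      (ae_of_ae_map (Lt.aem_k t σ) (h t)))⟩
  exact fun a => hy.1 ⟨t, hy.2, a hy.2⟩

theorem icur (hI : INT) (h : RC w σ v) (hN : IsN w σ N) {f : ℝ → ℝ} (hf : Measurable f)
    (h0 : ∀ s, 0 ≤ f s ∧ f s ≤ B) (hc : ∀ s, 0 < f s → f s * s = Real.pi) :
    ICurX w (cur w (wd σ fun x => f (N x)) v) := by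
  have h1 := h.wd hμ hw hN hf h0
  refine ⟨h1.pcur, fun t b hb => ?_⟩
  obtain ⟨ν, n1, n2⟩ := hI _ _ _ _ (h1.pc t) ((den_wd h hN (hf.comp (hN.meas hμ hw h))
    (fun x => h0 _) (fun x => hc _) t).mono fun y hy => hy.limUnder_eq) b hb
  exact ⟨ν, n1, fun g g1 g2 g3 => ⟨(n2 g g1 g2 g3).1, fun φ ψ hφ hψ =>
    (Lt.cur_pb t _ h.vr hφ.cf.cont hψ).trans ((n2 g g1 g2 g3).2 φ hφ)⟩⟩

/-- an integral current has a definite mass -/
theorem gap : ∃ δ, 0 < δ ∧ ∀ (σ : Measure X) v N (f : ℝ → ℝ) B, RC w σ v → IsN w σ N →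
    Measurable f → (∀ s, 0 ≤ f s ∧ f s ≤ B) → (∀ s, 0 < f s → f s * s = Real.pi) →
    (wd σ fun x => f (N x)) univ = 0 ∨ δ ≤ ∫ x, f (N x) ∂σ := by
  obtain ⟨C, C0, hC⟩ := ub_N hμ hw
  refine ⟨Real.pi / C, div_pos Real.pi_pos C0, fun σ v N f B h hN hf h0 hc =>
    or_iff_not_imp_left.2 fun h1 => ?_⟩
  have h2 := h.wd hμ hw hN hf h0
  have mg : Measurable fun x => f (N x) := hf.comp (hN.meas hμ hw h)
  obtain ⟨N', hN'⟩ := h2.exists_N hμ hw
  have : (ae (wd σ fun x => f (N x))).NeBot := ae_neBot.2 fun a => h1 (by simp [a])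
  obtain ⟨x, t, ht, h3⟩ := (ae_chart hμ hw (den_wd h hN mg (fun x => h0 _) fun x => hc _)).exists
  have h4 := hC _ v N' h2 hN' x
  rw [tendsto_nhds_unique (hN' t x ht) h3, ← cur_w2 h.vr, cur_wd mg fun x => (h0 _).1] at h4
  rw [div_le_iff₀' C0]
  simpa only [h.vr.nrm, mul_one] using h4

end Vale.Agent.P247N
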