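import Vale.Agent.P247N.Ker

/-!
# P247, block N, row `INT`: measure theory (disintegration, constancy)
-/

set_option linter.all false

open scoped ContDiff Topology ENNReal
open Set MeasureTheory Filter Metric

noncomputable section

namespace Vale.Agent.P247N.It

open Vale.Agent.P247.H574 (IntM)
open Vale.Agent.P247N.Kr

theorem intM {ν : Measure ℂ} [IsFiniteMeasure ν] (h : ∀ᵐ y ∂ν, ν {y} = 1) : IntM ν := by
  classical
  intro r _
  have hS := ((ν.finite_const_le_meas_of_disjoint_iUnion one_pos (As := fun y => {y}) (by simp)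
    (fun _ _ h => by simpa using h) (measure_ne_top _ _)).subset
    (fun y (hy : ν {y} = 1) => hy.ge)).inter_of_left (ball (0 : ℂ) r)
  have h1 : ∀ T : Finset ℂ, (∀ y ∈ T, ν {y} = 1) → ν.restrict T = (T.1.map Measure.dirac).sum := by
    intro T
    induction T using Finset.induction_on with
    | empty => simp
    | insert y T hy ih =>
      intro h
      rw [Finset.coe_insert, insert_eq, Measure.restrict_union (by simpa) T.measurableSet,
        Measure.restrict_singleton, h y (by simp), ih fun z hz => h z (by simp [hz]),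
        Finset.insert_val_of_notMem hy]
      simp
  refine ⟨hS.toFinset.1, Eq.trans ?_ (h1 _ fun y hy => (hS.mem_toFinset.1 hy).1)⟩
  rw [hS.coe_toFinset]
  exact Measure.restrict_congr_set (h.mono fun y hy => propext ⟨fun k => ⟨hy, k⟩, fun k => k.2⟩)

/-- boxes over which the measure has one sheet -/
def GB (μ : Measure (ℂ × ℂ)) (ε : ℝ) (B : Set ℂ × Set ℂ) : Prop :=
  IsOpen B.1 ∧ IsOpen B.2 ∧ (∀ y ∈ B.2, B.2 ⊆ ball y ε) ∧
    (μ.restrict (B.1 ×ˢ B.2)).fst = volume.restrict B.1

theorem dis {μ : Measure (ℂ × ℂ)} [IsFiniteMeasure μ]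
    (h : ∀ ε > 0, ∀ᵐ p ∂μ, ∃ B, GB μ ε B ∧ p ∈ B.1 ×ˢ B.2) :
    ∃ ν : ℂ → Measure ℂ, (∀ᵐ z, IntM (ν z)) ∧ ∀ f : ℂ × ℂ → ℝ, Integrable f μ →
      Integrable (fun z => ∫ y, f (z, y) ∂ν z) ∧ ∫ p, f p ∂μ = ∫ z, ∫ y, f (z, y) ∂ν z := by
  choose T hT hc hu using fun n : ℕ => TopologicalSpace.isOpen_biUnion_countable
    {B | GB μ (1 / (n + 1)) B} (fun B => B.1 ×ˢ B.2) fun B hB => hB.1.prod hB.2.1
  have h1 : ∀ᵐ p ∂μ, ∀ n, ∃ B ∈ T n, p ∈ B.1 ×ˢ B.2 := ae_all_iff.2 fun n =>
    (h _ (Nat.one_div_pos_of_nat (n := n))).mono fun p ⟨B, h1, h2⟩ => by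
      simpa only [mem_iUnion, exists_prop] using (hu n).ge (mem_biUnion h1 h2)
  have h2 : ∀ n, ∀ B ∈ T n, ∀ A, MeasurableSet A → μ ((A ∩ B.1) ×ˢ B.2) = volume (A ∩ B.1) :=
    fun n B hB A hA => by
      rw [← Measure.restrict_apply hA, ← (hT n hB).2.2.2, Measure.fst_apply hA,
        Measure.restrict_apply (measurable_fst hA)]
      congr 1
      ext p; simp [and_assoc]
  have ac : μ.fst ≪ volume := .mk fun A hA h0 => by
    rw [Measure.fst_apply hA]
    refine measure_eq_zero_iff_ae_notMem.2 ?_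
    filter_upwards [h1, (ae_ball_iff (hc 0)).2 fun B hB => measure_eq_zero_iff_ae_notMem.1
      ((h2 0 B hB A hA).trans (measure_mono_null inter_subset_left h0))] with p hp hq k
    obtain ⟨B, hB, hp⟩ := hp 0
    exact hq B hB ⟨⟨k, hp.1⟩, hp.2⟩
  set ρ := μ.fst.rnDeriv volume
  have mρ : Measurable ρ := Measure.measurable_rnDeriv _ _
  have e1 : volume.withDensity ρ = μ.fst := Measure.withDensity_rnDeriv_eq _ _ ac
  have e2 := μ.disintegrate μ.condKernel
  have fin : ∀ᵐ z, ρ z < ⊤ := Measure.rnDeriv_lt_top _ _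
  set κ := μ.condKernel
  refine ⟨fun z => ρ z • κ z, ?_, fun f hf => ?_⟩
  · have h3 : ∀ᵐ z, ∀ n, ∀ B ∈ T n, z ∈ B.1 → ρ z * κ z B.2 = 1 :=
      ae_all_iff.2 fun n => (ae_ball_iff (hc n)).2 fun B hB => by
        have m1 := (hT n hB).1.measurableSet
        have m2 := (hT n hB).2.1.measurableSet
        refine (ae_restrict_iff' m1).1 (ae_eq_of_forall_setLIntegral_eq_of_sigmaFinite
          (mρ.mul (κ.measurable_coe m2)) measurable_const fun A hA _ => ?_)
        rw [Measure.restrict_restrict hA, setLIntegral_one, ← h2 n B hB A hA, ← e2,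
          Measure.compProd_apply_prod (hA.inter m1) m2, ← e1,
          setLIntegral_withDensity_eq_setLIntegral_mul _ mρ (κ.measurable_coe m2) (hA.inter m1)]
        rfl
    rw [← e2] at h1
    have h4 := Measure.ae_ae_of_ae_compProd h1
    rw [← e1, ae_withDensity_iff mρ] at h4
    filter_upwards [h3, h4, fin] with z h3 h4 h5
    have : IsFiniteMeasure (ρ z • κ z) := Measure.smul_finite _ h5.ne
    by_cases h0 : ρ z = 0
    · exact intM (by simp [h0])
    refine intM ((Measure.ae_smul_measure (h4 h0) _).mono fun y hy => le_antisymm ?_ ?_)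
    · obtain ⟨B, hB, hp⟩ := hy 0
      exact (measure_mono (singleton_subset_iff.2 hp.2)).trans_eq (h3 0 B hB hp.1)
    · rw [Set.measure_eq_iInf_isOpen]
      refine le_iInf fun U => le_iInf fun hU => le_iInf fun hU' => ?_
      obtain ⟨ε, hε, k⟩ := isOpen_iff.1 hU' y (hU rfl)
      obtain ⟨n, hn⟩ := exists_nat_one_div_lt hε
      obtain ⟨B, hB, hp⟩ := hy n
      exact (h3 n B hB hp.1).ge.trans (measure_mono (μ := ρ z • κ z)
        (((hT n hB).2.2.1 y hp.2).trans ((ball_subset_ball hn.le).trans k)))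
  · rw [← e2] at hf
    have h5 : Integrable (fun z => ∫ y, f (z, y) ∂κ z) μ.fst := by
      simpa using Integrable.integral_compProd hf
    simp only [integral_smul_measure]
    rw [← e1, integrable_withDensity_iff_integrable_smul' mρ fin] at h5
    refine ⟨h5, ?_⟩
    rw [← integral_withDensity_eq_integral_toReal_smul mρ fin, e1, ← Measure.integral_compProd hf, e2]

theorem int_kn : ∫ s : ℂ, kn 1 (‖s‖ ^ 2) = Real.pi := by
  rw [integral_fun_norm_addHaar volume fun t => kn 1 (t ^ 2),
    integral_Ioi_of_hasDerivAt_of_nonneg' (g := fun t : ℝ => -(1 / 2) * (t ^ 2 + 1)⁻¹)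
      (l := -(1 / 2) * 0) (fun t _ => ?_) (fun t ht => smul_nonneg (pow_nonneg ht.le _)
      (kn_nonneg one_pos _)) ((tendsto_inv_atTop_zero.comp (tendsto_atTop_add_const_right _ _
        (tendsto_pow_atTop two_ne_zero))).const_mul _)]
  · simp [Measure.real]; ring
  · refine ((((hasDerivAt_pow 2 t).add_const 1).inv (by positivity)).const_mul
      (-(1 / 2))).congr_deriv ?_
    rw [Complex.finrank_real_complex]; simp [kn]; ring

theorem int_knN {N : ℂ →L[ℝ] ℂ} (hN : N.det ≠ 0) :
    ∫ s : ℂ, kn 1 (‖N s‖ ^ 2) = |N.det⁻¹| * Real.pi := by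
  have h := integral_map (μ := volume) (φ := N) (f := fun s : ℂ => kn 1 (‖s‖ ^ 2))
    N.continuous.aemeasurable ((measurable_kn 1).comp (by fun_prop)).aestronglyMeasurable
  rw [← h, show Measure.map N volume = _ from
    Measure.map_linearMap_addHaar_eq_smul_addHaar volume (f := (N : ℂ →ₗ[ℝ] ℂ)) hN,
    integral_smul_measure, int_kn, ENNReal.toReal_ofReal (abs_nonneg _)]
  rfl

theorem const {m : Measure ℂ} [IsFiniteMeasure m] {z₀ : ℂ} {ρ : ℝ} (χ : ContDiffBump (0 : ℂ))
    (hρ : χ.rOut = ρ) {N : ℂ →L[ℝ] ℂ} (hN : N.det ≠ 0)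
    (h1 : ∀ ζ : ℂ → ℝ, ContDiff ℝ ∞ ζ → tsupport ζ ⊆ ball z₀ (4 * ρ) → ∀ v,
      ∫ z, fderiv ℝ ζ z v ∂m = 0)
    (h2 : Tendsto (fun a => ∫ z, χ (z - z₀) * kn a (‖N (z - z₀)‖ ^ 2) ∂m) (𝓝[>] 0)
      (𝓝 (|N.det⁻¹| * Real.pi))) : m.restrict (ball z₀ ρ) = volume.restrict (ball z₀ ρ) := by
  have ρ0 : 0 < ρ := hρ ▸ χ.rOut_pos
  set κ := |N.det⁻¹| * Real.pi with hκ
  have κ0 : κ ≠ 0 := mul_ne_zero (by simpa using hN) Real.pi_ne_zero
  set φ : ℝ → ℂ → ℝ := fun a z => χ z * kn a (‖N z‖ ^ 2) with hφ
  have φs : ∀ a > 0, ContDiff ℝ ∞ (φ a) := fun a ha => χ.contDiff.mul (contDiff_const.div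
    ((((contDiff_norm_sq ℝ).comp N.contDiff).add contDiff_const).pow 2) fun z => by positivity)
  have φc : ∀ a, HasCompactSupport (φ a) := fun a => χ.hasCompactSupport.mul_right
  have φb : ∀ a > 0, ∀ z, ‖φ a z‖ ≤ 1 / a := fun a ha z => by
    rw [norm_mul, Real.norm_of_nonneg χ.nonneg, Real.norm_of_nonneg (kn_nonneg ha _)]
    exact (mul_le_of_le_one_left (kn_nonneg ha _) χ.le_one).trans (kn_le ha (sq_nonneg _))
  have h3 : ∀ a > 0, ∀ c ∈ ball z₀ (3 * ρ), ∫ z, φ a (z - c) ∂m = ∫ z, φ a (z - z₀) ∂m := by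
    intro a ha c hc
    have c1 := (φs a ha).continuous
    have c2 := (φs a ha).continuous_fderiv (by simp)
    obtain ⟨B, hB⟩ := ((φc a).fderiv ℝ).exists_bound_of_continuous c2
    have d : ∀ c, HasFDerivAt (fun c => ∫ z, φ a (z - c) ∂m) (∫ z, -fderiv ℝ (φ a) (z - c) ∂m) c :=
      fun c => hasFDerivAt_integral_of_dominated_of_fderiv_le (bound := fun _ => B)
        (F := fun c z => φ a (z - c)) (F' := fun c z => -fderiv ℝ (φ a) (z - c)) univ_mem
        (.of_forall fun _ => Continuous.aestronglyMeasurable (by fun_prop))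
        ((integrable_const (1 / a)).mono' (Continuous.aestronglyMeasurable (by fun_prop))
          (.of_forall fun _ => φb a ha _)) (Continuous.aestronglyMeasurable (by fun_prop))
        (.of_forall fun z c _ => by rw [norm_neg]; exact hB _) (integrable_const B)
        (.of_forall fun z c _ => by
          simpa [Function.comp_def] using ((φs a ha).differentiable (by simp) _).hasFDerivAt.comp c
            ((hasFDerivAt_id c).const_sub z))
    refine isOpen_ball.is_const_of_fderiv_eq_zero (𝕜 := ℝ) (convex_ball _ _).isPreconnected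
      (fun c _ => (d c).differentiableAt.differentiableWithinAt) (fun c hc => ?_) hc
      (mem_ball_self (by positivity))
    rw [(d c).fderiv]
    ext1 v
    rw [ContinuousLinearMap.integral_apply ((integrable_const B).mono'
      (Continuous.aestronglyMeasurable (by fun_prop)) (.of_forall fun z => by
        rw [norm_neg]; exact hB _))]
    simpa [integral_neg, fderiv_comp_sub] using h1 (fun z => φ a (z - c))
      ((φs a ha).comp (contDiff_id.sub contDiff_const)) ((closure_minimal (fun z hz => by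
        by_contra k
        exact hz (by simp [hφ, χ.zero_of_le_dist (x := z - c) (by
          rw [hρ, dist_zero_right, ← dist_eq_norm]; exact (not_le.1 k).le)]))
        (isClosed_closedBall (x := c) (ε := ρ))).trans (closedBall_subset_ball' (by
          have := mem_ball.1 hc; linarith))) v
  have ik : Integrable fun s : ℂ => kn 1 (‖N s‖ ^ 2) := .of_integral_ne_zero (int_knN hN ▸ κ0)
  have h4 : ∀ ψ : ℂ → ℝ, Continuous ψ → (∀ z, z ∉ closedBall z₀ (2 * ρ) → ψ z = 0) →
      ∫ z, ψ z ∂m = ∫ z, ψ z := by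
    intro ψ hψ h0
    have ψc := HasCompactSupport.intro (isCompact_closedBall _ _) h0
    obtain ⟨B, hB⟩ := ψc.exists_bound_of_continuous hψ
    have e : ∀ a > 0, ∀ z, ∫ c, ψ c * φ a (z - c) =
        ∫ s, ψ (z - √a • s) * χ (√a • s) * kn 1 (‖N s‖ ^ 2) := fun a ha z => by
      have k := Measure.integral_comp_smul volume (fun c => ψ (z - c) * φ a (z - (z - c))) √a
      rw [Complex.finrank_real_complex, Real.sq_sqrt ha.le, abs_of_pos (inv_pos.2 ha)] at k
      rw [← integral_sub_left_eq_self _ _ z, ← smul_inv_smul₀ ha.ne' (∫ _, _), ← k, ← integral_smul]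
      congr 1
      funext s
      simp only [hφ, sub_sub_cancel, map_smul, norm_smul, mul_pow, Real.norm_eq_abs, sq_abs,
        Real.sq_sqrt ha.le, kn, smul_eq_mul]
      field_simp
    have bd : ∀ (a : ℝ) z s, ‖ψ (z - √a • s) * χ (√a • s) * kn 1 (‖N s‖ ^ 2)‖ ≤
        B * kn 1 (‖N s‖ ^ 2) := fun a z s => by
      rw [norm_mul, norm_mul, Real.norm_of_nonneg χ.nonneg, Real.norm_of_nonneg (kn_nonneg one_pos _)]
      exact mul_le_mul_of_nonneg_right ((mul_le_of_le_one_right (norm_nonneg _) χ.le_one).trans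
        (hB _)) (kn_nonneg one_pos _)
    have cχ := χ.continuous
    have ck : Continuous fun s : ℂ => kn 1 (‖N s‖ ^ 2) :=
      continuous_const.div (by fun_prop) fun s => by positivity
    have t1 : Tendsto (fun a => ∫ z, (∫ c, ψ c * φ a (z - c)) ∂m) (𝓝[>] 0)
        (𝓝 (∫ z, ψ z * κ ∂m)) := by
      refine tendsto_integral_filter_of_dominated_convergence (fun _ => ∫ s, B * kn 1 (‖N s‖ ^ 2))
        (eventually_mem_nhdsWithin.mono fun a ha => ?_) (eventually_mem_nhdsWithin.mono
          fun a ha => .of_forall fun z => ?_) (integrable_const _) (.of_forall fun z => ?_)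
      · have := (φs a ha).continuous
        exact (Continuous.stronglyMeasurable (f := fun p : ℂ × ℂ => ψ p.2 * φ a (p.1 - p.2))
          (by fun_prop)).integral_prod_right'.aestronglyMeasurable
      · rw [e a ha]
        exact norm_integral_le_of_norm_le (ik.const_mul B) (.of_forall (bd a z))
      · refine Tendsto.congr' (eventually_mem_nhdsWithin.mono fun a ha => (e a ha z).symm) ?_
        rw [hκ, ← int_knN hN, ← integral_const_mul]
        refine tendsto_integral_filter_of_dominated_convergence _ (.of_forall fun a =>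
          Continuous.aestronglyMeasurable (by fun_prop)) (.of_forall fun a => .of_forall (bd a z))
          (ik.const_mul B) (.of_forall fun s => Tendsto.mono_left ?_ nhdsWithin_le_nhds)
        exact Continuous.tendsto' (by fun_prop) _ _ (by
          simp [χ.one_of_mem_closedBall (mem_closedBall_self χ.rIn_pos.le)])
    have t2 := h2.const_mul (∫ z, ψ z)
    refine mul_right_cancel₀ κ0 ((integral_mul_const _ _).symm.trans (tendsto_nhds_unique t1
      (t2.congr' (eventually_mem_nhdsWithin.mono fun a ha => ?_))))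
    have := (φs a ha).continuous
    show _ = ∫ z, (∫ c, ψ c * φ a (z - c)) ∂m
    rw [integral_integral_swap (f := fun z c => ψ c * φ a (z - c)) ((((integrable_const (1 / a)).mul_prod
      (hψ.integrable_of_hasCompactSupport ψc).norm)).mono' (Continuous.aestronglyMeasurable (by
        unfold Function.uncurry; fun_prop)) (.of_forall fun p => by
        rw [Function.uncurry, norm_mul, mul_comm]
        exact mul_le_mul_of_nonneg_right (φb a ha _) (norm_nonneg _))), ← integral_mul_const]
    congr 1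
    funext c
    rw [integral_const_mul]
    by_cases k : c ∈ closedBall z₀ (2 * ρ)
    · rw [h3 a ha c (closedBall_subset_ball (by linarith) k)]
    · simp [h0 c k]
  let θ : ContDiffBump z₀ := ⟨ρ, 2 * ρ, ρ0, by linarith⟩
  have mθ : Measurable fun z => ENNReal.ofReal (θ z) := θ.continuous.measurable.ennreal_ofReal
  have iθ : ∀ (μ : Measure ℂ) [IsFiniteMeasureOnCompacts μ],
      IsFiniteMeasure (μ.withDensity fun z => ENNReal.ofReal (θ z)) := fun μ _ =>
    isFiniteMeasure_withDensity_ofReal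
      (θ.continuous.integrable_of_hasCompactSupport θ.hasCompactSupport).2
  have h5 : ∀ μ : Measure ℂ, (μ.withDensity fun z => ENNReal.ofReal (θ z)).restrict (ball z₀ ρ) =
      μ.restrict (ball z₀ ρ) := fun μ => by
    rw [restrict_withDensity measurableSet_ball, withDensity_congr_ae (g := 1)
      ((ae_restrict_mem measurableSet_ball).mono fun z hz => by
        simp [θ.one_of_mem_closedBall (ball_subset_closedBall hz)]), withDensity_one]
  have := iθ m
  have := iθ volume
  rw [← h5 m, ← h5 volume, ext_of_forall_integral_eq_of_IsFiniteMeasure (μ := m.withDensity _)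
    (ν := volume.withDensity fun z => ENNReal.ofReal (θ z)) fun f => ?_]
  simp only [integral_withDensity_eq_integral_toReal_smul mθ (.of_forall fun _ =>
    ENNReal.ofReal_lt_top), ENNReal.toReal_ofReal θ.nonneg]
  exact h4 _ (θ.continuous.smul f.continuous) fun z hz => by
    rw [θ.zero_of_le_dist (not_le.1 hz).le, zero_smul]

end Vale.Agent.P247N.It
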