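import Vale.Agent.P247N.Cha
import Vale.Agent.P247C.T2

/-!
# P247, block N: the row `IRL`
-/

set_option linter.all false

open scoped Manifold ContDiff Topology
open Set MeasureTheory Filter Metric

noncomputable section

namespace Vale.Agent.P247N

open Vale.Agent.P247.SCY Vale.Agent.P247.SCY.HS Vale.Agent.P247X Vale.Agent.P247C
open Vale.Agent.P247.H74 (R4 Data CForm)
open Vale.Agent.P247.H574 (F2 CF dd cf2)

namespace Lt

theorem continuous_cf2 (c : CForm) : Continuous (cf2 c) := by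
  have h2 := c.lam_smooth.continuous_fderiv (by simp)
  exact continuous_const.add (h2.sub ((ContinuousLinearMap.flipₗᵢ ℝ R4 R4 ℝ).continuous.comp h2))

theorem cf2_self (c : CForm) (x u : R4) : cf2 c x u u = 0 := by
  rw [← Kr.val_eq, CForm.val, c.κ_self]
  ring

theorem qf_cf2 (D : Data) (x u : R4) : qf D x u = cf2 D.om x u (D.J x u) := Kr.val_eq _ _ _ _

theorem continuous_qf₂ (D : Data) : Continuous fun p : R4 × R4 => qf D p.1 p.2 := by
  simp only [qf_cf2]
  exact (((continuous_cf2 _).comp continuous_fst).clm_apply continuous_snd).clm_apply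
    ((D.J_smooth.continuous.comp continuous_fst).clm_apply continuous_snd)

theorem cf_smul {f : R4 → ℝ} (hf : Continuous f) (hc : HasCompactSupport f) (c : CForm) :
    CF (fun y => f y • cf2 c y) ∧ tsupport (fun y => f y • cf2 c y) ⊆ tsupport f := by
  have h : tsupport (fun y => f y • cf2 c y) ⊆ tsupport f := by
    refine closure_mono ?_
    intro y hy h
    apply hy
    ext u v
    show f y * _ = 0
    rw [h, zero_mul]
  refine ⟨⟨hf.smul (continuous_cf2 c), hc.of_isClosed_subset (isClosed_tsupport _) h,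
    fun x u => ?_⟩, h⟩
  show f x * cf2 c x u u = 0
  rw [cf2_self, mul_zero]

/-- the quadratic form on a complex line -/
theorem qf_line (D : Data) (y : R4) {L : ℂ →L[ℝ] R4} (h : L Complex.I = D.J y (L 1)) (s : ℂ) :
    qf D y (L s) = qf D y (L 1) * ‖s‖ ^ 2 := by
  have e : s = s.re • (1 : ℂ) + s.im • Complex.I := by apply Complex.ext <;> simp
  have e1 : L s = s.re • L 1 + s.im • D.J y (L 1) := by
    conv_lhs => rw [e, map_add, map_smul, map_smul, h]
  rw [e1, Complex.sq_norm, Complex.normSq_apply, qf_cf2, qf_cf2]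
  simp only [map_add, map_smul, D.J_sq, map_neg, ContinuousLinearMap.add_apply,
    ContinuousLinearMap.smul_apply, smul_eq_mul, cf2_self,
    swap (cf2_self D.om y) (L 1) (D.J y (L 1))]
  ring

theorem le_int_ball {f : ℂ → ℝ} {S : Set ℂ} (hS : MeasurableSet S) (hf : IntegrableOn f S)
    (h0 : ∀ s ∈ S, 0 ≤ f s) {z : ℂ} {ρ c : ℝ} (hρ : 0 ≤ ρ) (h : ball z ρ ⊆ S)
    (h1 : ∀ s ∈ ball z ρ, c ≤ f s) : ρ ^ 2 * Real.pi * c ≤ ∫ s in S, f s := by
  refine le_trans ?_ (setIntegral_mono_set hf ((ae_restrict_mem hS).mono h0) h.eventuallyLE)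
  refine le_trans (le_of_eq ?_) (setIntegral_ge_of_const_le_real measurableSet_ball
    measure_ball_lt_top.ne h1 (hf.mono_set h))
  rw [mul_comm, Measure.real, Complex.volume_ball]
  simp [ENNReal.toReal_ofReal hρ]

variable {X : Type} [Cl4 X] {w : Tri X} (t : LocT w)

theorem pull2_pb {φ : R4 → F2} {ψ : Form X 2} (h : IsPb t φ ψ) {u : ℂ → X} {s : ℂ}
    (hJ : JAt (Jw w) u s) (hs : u s ∈ t.κ.source) : pull2 ψ u s =
      φ (t.κ (u s)) (dk t (u s) (dm u s 1)) (t.D.J (t.κ (u s)) (dk t (u s) (dm u s 1))) := by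
  rw [pull2, hJ]
  exact (h.2 _ hs _ _).trans (congrArg (φ (t.κ (u s)) (dk t (u s) (dm u s 1))) (dk_J t hs _))

end Lt

theorem irl : IRL := by
  intro X _ μ _ w _ K σ v _ hv hT t x hx hxs V hV
  obtain ⟨N, u, U, hb, hf⟩ := K.loc x hx
  set l : Fin N := ⟨0, hb.posN⟩
  have cm : ∀ s ∈ ball (0 : ℂ) 2, ContMDiffAt 𝓘(ℝ, ℂ) (𝓡 4) ∞ (u l) s := fun s hs =>
    (hb.smooth l).contMDiffAt (isOpen_ball.mem_nhds hs)
  have h0 : ∀ᶠ s in 𝓝 (0 : ℂ), u l s ∈ V ∩ (t.κ.source ∩ U) ∧ s ∈ ball (0 : ℂ) 1 := by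
    refine Eventually.and ((cm 0 (mem_ball_self two_pos)).continuousAt.eventually_mem ?_)
      (ball_mem_nhds _ one_pos)
    rw [hb.zero]
    exact inter_mem hV ((t.κ.open_source.inter hb.opn).mem_nhds ⟨hxs, hb.memU⟩)
  obtain ⟨z, ⟨⟨zV, zs, zU⟩, z1⟩, z0⟩ :=
    ((h0.filter_mono (nhdsWithin_le_nhds (s := {0}ᶜ))).and self_mem_nhdsWithin).exists
  refine ⟨u l z, zV, zs, ?_⟩
  set g := fun s => t.κ (u l s) with hg
  have z2 := b12 z1
  have cg : ContDiffAt ℝ ∞ g z := Lt.cd_k t (cm z z2) zs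
  have fg : ∀ s ∈ ball (0 : ℂ) 2, u l s ∈ t.κ.source → ∀ a,
      fderiv ℝ g s a = Lt.dk t (u l s) (dm (u l) s a) := fun s hs h a =>
    Lt.fderiv_k t ((cm s hs).mdifferentiableAt (by simp)) h a
  have hJ : fderiv ℝ g z Complex.I = t.D.J (g z) (fderiv ℝ g z 1) := by
    rw [fg z z2 zs, fg z z2 zs, hb.hol l z z2]
    exact Lt.dk_J t zs _
  set m := qf t.D (g z) (fderiv ℝ g z 1) with hm
  have m0 : 0 < m := t.D.tame _ _ fun h => hb.imm l z z2 z0 (by
    rw [fg z z2 zs] at h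
    exact (Lt.ds_dk t zs (dm (u l) z 1)).symm.trans (by rw [h, map_zero]; rfl))
  obtain ⟨χ, c1, c2, c3, c4, c5⟩ := exists_contDiff_tsupport_subset (n := ⊤)
    ((t.κ.symm.isOpen_inter_preimage hb.opn).mem_nhds (x := g z)
      ⟨t.κ.map_source zs, by rwa [mem_preimage, t.κ.left_inv zs]⟩)
  have c6 : ∀ y, 0 ≤ χ y ∧ χ y ≤ 1 := fun y => c4 ⟨y, rfl⟩
  obtain ⟨η, hη, hq⟩ := Lt.quad_near (B := Kr.qb t.D (g z)) (L := fderiv ℝ g z)
    (Q := fun s => m * ‖s‖ ^ 2) m0 (fun _ => le_rfl)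
    (fun s => by rw [← Kr.qf_eq, Lt.qf_line _ _ hJ]) (ε := 1 / 10) (by norm_num)
  have e1 : ContinuousAt (fun s => χ (g s) * qf t.D (g s) (fderiv ℝ g s 1)) z :=
    (c3.continuous.continuousAt.comp cg.continuousAt).mul
      ((Lt.continuous_qf₂ t.D).continuousAt.comp (cg.continuousAt.prodMk
        ((cg.fderiv_right (m := ∞) (by simp)).continuousAt.clm_apply continuousAt_const)))
  have e2 := e1.eventually (lt_mem_nhds (a := 9 / 10 * m) (by simp only [c5]; linarith))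
  obtain ⟨ρ, hρ, e3⟩ := Metric.eventually_nhds_iff_ball.1 (e2.and
    (((cg.differentiableAt (by simp)).hasFDerivAt.isLittleO.def hη).and
      (((cm z z2).continuousAt.eventually_mem (t.κ.open_source.mem_nhds zs)).and
        (isOpen_ball.eventually_mem z1))))
  filter_upwards [Ioo_mem_nhdsGT (show (0 : ℝ) < 11 / 10 * m * ρ ^ 2 by positivity)] with a ⟨ha, ha'⟩
  have k1 : Continuous fun y => kn a (qf t.D (g z) (y - g z)) :=
    continuous_const.div ((((Kr.continuous_qf _ _).comp (continuous_id.sub continuous_const)).add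
      continuous_const).pow 2) fun y => (pow_pos (add_pos_of_nonneg_of_pos
        (Kr.qf_nonneg _ _ _) ha) 2).ne'
  obtain ⟨f1, f2⟩ := Lt.cf_smul (c3.continuous.mul k1) c2.mul_right t.D.om
  have f3 := (f2.trans (tsupport_mul_subset_left)).trans c1
  obtain ⟨ψ, p1, p2, p3⟩ := Lt.exists_pb t f1 fun y hy => (f3 hy).1
  have p4 : SuppIn ψ U := ⟨_, Lt.compact_symm t f1.supp fun y hy => (f3 hy).1,
    image_subset_iff.2 fun y hy => (f3 hy).2, p3⟩
  have p5 : ∀ j, ∀ s ∈ ball (0 : ℂ) 2, u j s ∈ t.κ.source → pull2 ψ (u j) s =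
      χ (t.κ (u j s)) * kn a (qf t.D (g z) (t.κ (u j s) - g z)) *
        qf t.D (t.κ (u j s)) (Lt.dk t (u j s) (dm (u j) s 1)) := fun j s hs h => by
    rw [Lt.pull2_pb t p2 (hb.hol j s hs) h, Lt.qf_cf2 t.D (t.κ (u j s))]
    rfl
  have p6 : ∀ j, ∀ s ∈ ball (0 : ℂ) 1, 0 ≤ pull2 ψ (u j) s := fun j s hs => by
    by_cases h : u j s ∈ t.κ.source
    · rw [p5 j s (b12 hs) h]
      exact mul_nonneg (mul_nonneg (c6 _).1 (Kr.kn_nonneg ha _)) (Kr.qf_nonneg _ _ _)
    · rw [pull2, p2.1 _ h]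
      rfl
  haveI := Lt.fin_rl t σ
  have q1 : cur w σ v ψ ≤ Th t.D (rl t σ) (g z) a := by
    rw [Lt.cur_pb t σ hv f1.cont p2]
    have q : ∀ᵐ y ∂(rl t σ), ld t.D (vl t v)
        (fun y => (χ * fun y => kn a (qf t.D (g z) (y - g z))) y • cf2 t.D.om y) y =
          χ y * kn a (qf t.D (g z) (y - g z)) := (Lt.ae_rl t σ).mono fun y hy => by
      have h1 := Lt.nrm_vl t hv hy
      simp only [Lt.qf_cf2 t.D y] at h1
      simp only [ld, ContinuousLinearMap.smul_apply, smul_eq_mul, ← Finset.mul_sum, h1, mul_one,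
        Pi.mul_apply]
    rw [integral_congr_ae q]
    exact integral_mono_of_nonneg (.of_forall fun y => mul_nonneg (c6 y).1 (Kr.kn_nonneg ha _))
      (Kr.integrable_Th _ _ _ ha)
      (.of_forall fun y => mul_le_of_le_one_left (Kr.kn_nonneg ha _) (c6 y).2)
  refine le_trans ?_ q1
  rw [← hT ψ p1, hf ψ p1 p4]
  refine le_trans ?_ (Finset.single_le_sum (f := fun j => brX (u j) ψ)
    (fun j _ => setIntegral_nonneg measurableSet_ball (p6 j)) (Finset.mem_univ l))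
  have r2 : √(a / (11 / 10 * m)) ^ 2 = a / (11 / 10 * m) := Real.sq_sqrt (by positivity)
  have r3 : ball z √(a / (11 / 10 * m)) ⊆ ball z ρ := ball_subset_ball (by
    rw [Real.sqrt_le_left hρ.le, div_le_iff₀ (by positivity)]
    linarith)
  refine le_trans ?_ (Lt.le_int_ball measurableSet_ball (int_pull2 p1 (hb.smooth l)) (p6 l)
    (c := 1 / (4 * a) * (9 / 10 * m)) (Real.sqrt_nonneg _) (fun s hs => (e3 s (r3 hs)).2.2.2)
    fun s hs => ?_)
  · rw [r2]
    have : a / (11 / 10 * m) * Real.pi * (1 / (4 * a) * (9 / 10 * m)) = 9 / 44 * Real.pi := by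
      field_simp
      ring
    linarith [Real.pi_gt_three]
  · obtain ⟨h1, h2, h3, h4⟩ := e3 s (r3 hs)
    rw [p5 l s (b12 h4) h3, ← fg s (b12 h4) h3, mul_comm (χ _), mul_assoc]
    refine mul_le_mul (Kr.kn_ge ha (Kr.qf_nonneg _ _ _) ?_) h1.le (by positivity)
      (Kr.kn_nonneg ha _)
    have h5 := (abs_le.1 (hq _ _ h2)).2
    have h6 : ‖s - z‖ ^ 2 ≤ a / (11 / 10 * m) := by
      rw [← r2]
      exact pow_le_pow_left₀ (norm_nonneg _) (mem_ball_iff_norm.1 hs).le 2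
    rw [le_div_iff₀ (by positivity)] at h6
    rw [Kr.qf_eq]
    show Kr.qb t.D (g z) (g s - g z) (g s - g z) ≤ a
    linarith

end Vale.Agent.P247N
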