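import Vale.Agent.P247N.Sta

/-!
# P247, block N: elementary facts on the kernel; the lemmas `KER` and `LEB`; the row `DEN`
-/

set_option linter.all false

open scoped Topology
open Set MeasureTheory Filter Metric

noncomputable section

namespace Vale.Agent.P247N.Kr

open Vale.Agent.P247.H74 (R4 Data)
open Vale.Agent.P247.H574 (F2 cf2 dd)

variable {a t s : ℝ}

theorem kn_nonneg (ha : 0 < a) (t : ℝ) : 0 ≤ kn a t := div_nonneg ha.le (sq_nonneg _)

theorem kn_anti (ha : 0 < a) (hs : 0 ≤ s) (h : s ≤ t) : kn a t ≤ kn a s := by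
  unfold kn
  gcongr

theorem kn_le (ha : 0 < a) (ht : 0 ≤ t) : kn a t ≤ 1 / a := by
  refine (kn_anti ha le_rfl ht).trans_eq ?_
  unfold kn
  field_simp
  ring

theorem kn_far {δ : ℝ} (ha : 0 < a) (hδ : 0 < δ) (h : δ ≤ t) : kn a t ≤ 1 / δ ^ 2 * a := by
  rw [one_div_mul_eq_div]
  unfold kn
  gcongr
  linarith

theorem kn_ge (ha : 0 < a) (ht : 0 ≤ t) (h : t ≤ a) : 1 / (4 * a) ≤ kn a t := by
  refine le_trans (le_of_eq ?_) (kn_anti ha ht h)
  unfold kn
  field_simp
  ring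

theorem kn_tail {M : ℝ} (ha : 0 < a) (hM : 0 < M) (h : M * a ≤ t) :
    kn a t ≤ 4 / M * kn (M * a) t := by
  have h1 : 0 < M * a := by positivity
  have ht : 0 < t := by linarith
  calc kn a t ≤ a / t ^ 2 := by
        unfold kn
        gcongr
        linarith
    _ = 4 / M * (M * a / (t + t) ^ 2) := by
        field_simp
        ring
    _ ≤ 4 / M * kn (M * a) t := by
        unfold kn
        gcongr

theorem kn_near {ε : ℝ} (ha : 0 < a) (ht : 0 ≤ t) (hε : 0 ≤ ε) (h2 : ε ≤ 1 / 2)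
    (h : |s - t| ≤ ε * t) : |kn a s - kn a t| ≤ 12 * ε * kn a t := by
  obtain ⟨h3, h4⟩ := abs_le.1 h
  have h5 : ε * t ≤ t / 2 := by nlinarith
  have hs : 0 < s + a := by linarith
  have hta : 0 < t + a := by linarith
  have e : kn a s - kn a t = (t - s) * (t + s + 2 * a) / (s + a) ^ 2 * kn a t := by
    unfold kn
    field_simp
    ring
  rw [e, abs_mul, abs_of_nonneg (kn_nonneg ha t)]
  refine mul_le_mul_of_nonneg_right ?_ (kn_nonneg ha t)
  rw [abs_div, abs_mul, abs_sub_comm, abs_of_pos (pow_pos hs 2), div_le_iff₀ (pow_pos hs 2),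
    abs_of_pos (by linarith : 0 < t + s + 2 * a)]
  calc |s - t| * (t + s + 2 * a) ≤ ε * (2 * (s + a)) * (3 * (s + a)) := by
        refine mul_le_mul (h.trans ?_) (by linarith) (by linarith) (by positivity)
        exact mul_le_mul_of_nonneg_left (by linarith) hε
    _ ≤ 12 * ε * (s + a) ^ 2 := by nlinarith [mul_nonneg hε (sq_nonneg (s + a))]

theorem measurable_kn (a : ℝ) : Measurable (kn a) := by
  unfold kn
  fun_prop

section abs

variable {α : Type*} [MeasurableSpace α] {σ : Measure α} [IsFiniteMeasure σ]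

theorem integrable_kn {q : α → ℝ} (hq : AEMeasurable q σ) (h0 : ∀ᵐ x ∂σ, 0 ≤ q x) (ha : 0 < a) :
    Integrable (fun x => kn a (q x)) σ := by
  refine (integrable_const (1 / a)).mono'
    ((measurable_kn a).comp_aemeasurable hq).aestronglyMeasurable ?_
  filter_upwards [h0] with x hx
  rw [Real.norm_of_nonneg (kn_nonneg ha _)]
  exact kn_le ha hx

/-- comparison of two families of kernels -/
theorem KER0 {k k' : ℝ → α → ℝ} (hk : ∀ a > 0, Integrable (k a) σ)
    (hk' : ∀ a > 0, Integrable (k' a) σ)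
    (h : ∀ ε > 0, ∃ C, ∀ a > 0, ∀ᵐ x ∂σ, |k' a x - k a x| ≤ ε * k a x + C * a) {B : ℝ}
    (hB : ∀ᶠ a in 𝓝[>] (0 : ℝ), ∫ x, k a x ∂σ ≤ B) :
    Tendsto (fun a => ∫ x, k' a x ∂σ - ∫ x, k a x ∂σ) (𝓝[>] 0) (𝓝 0) := by
  rw [Metric.tendsto_nhds]
  intro ε hε
  have hB1 : 0 < |B| + 1 := by positivity
  obtain ⟨C, hC⟩ := h (ε / 2 / (|B| + 1)) (by positivity)
  have h1 : Tendsto (fun a : ℝ => σ.real univ * (C * a)) (𝓝[>] 0) (𝓝 (σ.real univ * (C * 0))) :=
    (tendsto_id.const_mul C |>.const_mul _).mono_left nhdsWithin_le_nhds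
  rw [mul_zero, mul_zero] at h1
  filter_upwards [hB, self_mem_nhdsWithin, h1.eventually (gt_mem_nhds (half_pos hε))]
    with a h2 ha h3
  rw [Real.dist_eq, sub_zero, ← integral_sub (hk' a ha) (hk a ha)]
  have h4 := norm_integral_le_of_norm_le (f := fun x => k' a x - k a x)
    (((hk a ha).const_mul (ε / 2 / (|B| + 1))).add (integrable_const (C * a))) (hC a ha)
  simp only [Pi.add_apply] at h4
  rw [integral_add ((hk a ha).const_mul _) (integrable_const _), integral_const_mul,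
    integral_const, smul_eq_mul] at h4
  have h5 : ε / 2 / (|B| + 1) * ∫ x, k a x ∂σ ≤ ε / 2 / (|B| + 1) * (|B| + 1) :=
    mul_le_mul_of_nonneg_left (by linarith [le_abs_self B]) (by positivity)
  rw [div_mul_cancel₀ _ hB1.ne'] at h5
  exact h4.trans_lt (by linarith)

theorem KER1 {k k' : ℝ → α → ℝ} (hk : ∀ a > 0, Integrable (k a) σ)
    (hk' : ∀ a > 0, Integrable (k' a) σ)
    (h : ∀ ε > 0, ∃ C, ∀ a > 0, ∀ᵐ x ∂σ, |k' a x - k a x| ≤ ε * k a x + C * a) {c : ℝ}
    (hc : Tendsto (fun a => ∫ x, k a x ∂σ) (𝓝[>] 0) (𝓝 c)) :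
    Tendsto (fun a => ∫ x, k' a x ∂σ) (𝓝[>] 0) (𝓝 c) := by
  have h1 := (KER0 hk hk' h ((hc.eventually (gt_mem_nhds (lt_add_one c))).mono
    fun _ h => h.le)).add hc
  simpa using h1

/-- the pointwise estimate behind `KER` -/
theorem kn_cmp {ε δ : ℝ} (ha : 0 < a) (ht : 0 ≤ t) (hε : 0 < ε) (hδ : 0 < δ)
    (h : |s - t| ≤ min (ε / 12) (1 / 2) * t ∨ (δ ≤ t ∧ δ ≤ s)) :
    |kn a s - kn a t| ≤ ε * kn a t + 1 / δ ^ 2 * a := by
  have h1 := kn_nonneg ha t
  have h2 := kn_nonneg ha s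
  rcases h with h | ⟨h, h'⟩
  · have h3 := kn_near ha ht (by positivity) (min_le_right _ _) h
    have h4 : 12 * min (ε / 12) (1 / 2) * kn a t ≤ ε * kn a t :=
      mul_le_mul_of_nonneg_right (by linarith [min_le_left (ε / 12) (1 / 2)]) h1
    have h5 : 0 ≤ 1 / δ ^ 2 * a := by positivity
    linarith
  · have h3 := kn_far ha hδ h
    have h4 := kn_far ha hδ h'
    have h5 := mul_nonneg hε.le h1
    rw [abs_le]
    constructor <;> linarith

/-- `KER`, difference form -/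
theorem KER' {q q' : α → ℝ} (hq : AEMeasurable q σ) (hq' : AEMeasurable q' σ)
    (h0 : ∀ᵐ x ∂σ, 0 ≤ q x) (h0' : ∀ᵐ x ∂σ, 0 ≤ q' x)
    (h : ∀ ε > 0, ∃ δ > 0, ∀ᵐ x ∂σ, |q' x - q x| ≤ ε * q x ∨ (δ ≤ q x ∧ δ ≤ q' x)) {B : ℝ}
    (hB : ∀ᶠ a in 𝓝[>] (0 : ℝ), ∫ x, kn a (q x) ∂σ ≤ B) :
    Tendsto (fun a => ∫ x, kn a (q' x) ∂σ - ∫ x, kn a (q x) ∂σ) (𝓝[>] 0) (𝓝 0) := by
  refine KER0 (fun a => integrable_kn hq h0) (fun a => integrable_kn hq' h0') (fun ε hε => ?_) hB
  obtain ⟨δ, hδ, h1⟩ := h (min (ε / 12) (1 / 2)) (by positivity)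
  refine ⟨1 / δ ^ 2, fun a ha => ?_⟩
  filter_upwards [h0, h1] with x h2 h3
  exact kn_cmp ha h2 hε hδ h3

/-- `KER` -/
theorem KER {q q' : α → ℝ} (hq : AEMeasurable q σ) (hq' : AEMeasurable q' σ)
    (h0 : ∀ᵐ x ∂σ, 0 ≤ q x) (h0' : ∀ᵐ x ∂σ, 0 ≤ q' x)
    (h : ∀ ε > 0, ∃ δ > 0, ∀ᵐ x ∂σ, |q' x - q x| ≤ ε * q x ∨ (δ ≤ q x ∧ δ ≤ q' x)) {c : ℝ}
    (hc : Tendsto (fun a => ∫ x, kn a (q x) ∂σ) (𝓝[>] 0) (𝓝 c)) :
    Tendsto (fun a => ∫ x, kn a (q' x) ∂σ) (𝓝[>] 0) (𝓝 c) := by
  have h1 := (KER' hq hq' h0 h0' h ((hc.eventually (gt_mem_nhds (lt_add_one c))).mono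
    fun _ h => h.le)).add hc
  simpa using h1

end abs

/-! ### the quadratic form -/

variable (D : Data) (x : R4)

theorem val_eq (c : P247.H74.CForm) (x u v : R4) : c.val x u v = cf2 c x u v := by
  simp [P247.H74.CForm.val, cf2, dd, add_sub_assoc]

/-- the bilinear form of `qf` -/
def qb : F2 := (cf2 D.om x).bilinearComp (.id ℝ R4) (D.J x)

theorem qf_eq (u : R4) : qf D x u = qb D x u u := val_eq _ _ _ _

theorem continuous_qf : Continuous (qf D x) := by
  rw [show qf D x = fun u => qb D x u u from funext (qf_eq D x)]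
  fun_prop

theorem qf_smul (c : ℝ) (u : R4) : qf D x (c • u) = c ^ 2 * qf D x u := by
  simp only [qf_eq, map_smul, ContinuousLinearMap.smul_apply, smul_eq_mul]
  ring

theorem qf_nonneg (u : R4) : 0 ≤ qf D x u := by
  rcases eq_or_ne u 0 with rfl | h
  · simp [qf_eq]
  · exact (D.tame x u h).le

theorem qf_le (u : R4) : qf D x u ≤ ‖qb D x‖ * ‖u‖ ^ 2 := by
  rw [qf_eq, sq, ← mul_assoc]
  exact (le_abs_self _).trans ((qb D x).le_opNorm₂ u u)

theorem qf_ge : ∃ c > 0, ∀ u, c * ‖u‖ ^ 2 ≤ qf D x u := by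
  obtain ⟨v, hv, hm⟩ := (isCompact_sphere (0 : R4) 1).exists_isMinOn
    (NormedSpace.sphere_nonempty.2 zero_le_one) (continuous_qf D x).continuousOn
  have h1 : v ≠ 0 := by
    rintro rfl
    simp at hv
  refine ⟨qf D x v, D.tame x v h1, fun u => ?_⟩
  rcases eq_or_ne u 0 with rfl | h
  · simp [qf_eq]
  · have hu := norm_pos_iff.2 h
    have h2 : qf D x v ≤ qf D x (‖u‖⁻¹ • u) := hm (by simp [norm_smul, hu.ne'])
    rw [qf_smul, inv_pow, ← div_eq_inv_mul, le_div_iff₀ (by positivity)] at h2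
    exact h2

variable (r : Measure R4) [IsFiniteMeasure r]

theorem integrable_Th (ha : 0 < a) : Integrable (fun y => kn a (qf D x (y - x))) r :=
  integrable_kn ((continuous_qf D x).comp (continuous_id.sub continuous_const)).aemeasurable
    (.of_forall fun _ => qf_nonneg _ _ _) ha

theorem Th_nonneg (ha : 0 < a) : 0 ≤ Th D r x a := integral_nonneg fun _ => kn_nonneg ha _

/-- the mass of a ball is bounded by the average -/
theorem real_ball_le {ρ : ℝ} (ha : 0 < a) (h : ‖qb D x‖ * ρ ^ 2 ≤ a) :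
    r.real (closedBall x ρ) ≤ 4 * a * Th D r x a := by
  have h1 : ∫ y in closedBall x ρ, 1 / (4 * a) ∂r ≤
      ∫ y in closedBall x ρ, kn a (qf D x (y - x)) ∂r := by
    refine setIntegral_mono_on (integrable_const _) (integrable_Th D x r ha).integrableOn
      measurableSet_closedBall fun y hy => kn_ge ha (qf_nonneg _ _ _) ((qf_le D x _).trans ?_)
    refine le_trans ?_ h
    rw [mem_closedBall, dist_eq_norm] at hy
    gcongr
  have h2 := h1.trans (setIntegral_le_integral (integrable_Th D x r ha)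
    (.of_forall fun _ => kn_nonneg ha _))
  rw [setIntegral_const, smul_eq_mul, mul_one_div, div_le_iff₀ (by positivity)] at h2
  rw [mul_comm]
  exact h2

/-- `LEB`: Lebesgue points -/
theorem LEB {C B : ℝ} (hC : ∀ᶠ a in 𝓝[>] (0 : ℝ), Th D r x a ≤ C) {f : R4 → ℝ}
    (hf : AEStronglyMeasurable f r) (hB : ∀ᵐ y ∂r, 0 ≤ f y ∧ f y ≤ B)
    (hL : Tendsto (fun ρ => ⨍ y in closedBall x ρ, f y ∂r) (𝓝[>] 0) (𝓝 0)) :
    Tendsto (fun a => ∫ y, kn a (qf D x (y - x)) * f y ∂r) (𝓝[>] 0) (𝓝 0) := by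
  obtain ⟨c, hc, hq⟩ := qf_ge D x
  have fi : Integrable f r := (integrable_const B).mono' hf (hB.mono fun y hy => by
    rw [Real.norm_of_nonneg hy.1]; exact hy.2)
  have sc : ∀ m : ℝ, 0 < m → Tendsto (fun a : ℝ => m * a) (𝓝[>] 0) (𝓝[>] 0) := fun m hm =>
    tendsto_nhdsWithin_iff.2 ⟨by
      simpa using ((continuous_const_mul m).tendsto (0 : ℝ)).mono_left nhdsWithin_le_nhds,
      eventually_mem_nhdsWithin.mono fun a ha => mul_pos hm ha⟩
  rw [Metric.tendsto_nhds]
  intro ε hε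
  set M : ℝ := 8 * (|B| * |C| + 1) / ε with hM
  have M0 : 0 < M := by positivity
  set N : ℝ := (‖qb D x‖ + 1) * (M / c) with hN
  have N0 : 0 < N := by positivity
  have t0 : Tendsto (fun a : ℝ => √a) (𝓝[>] 0) (𝓝[>] 0) := tendsto_nhdsWithin_iff.2 ⟨by
      simpa using (Real.continuous_sqrt.tendsto 0).mono_left nhdsWithin_le_nhds,
      eventually_mem_nhdsWithin.mono fun a ha => Real.sqrt_pos.2 ha⟩
  have t1 : Tendsto (fun a : ℝ => √(M / c * a)) (𝓝[>] 0) (𝓝[>] 0) :=
    t0.comp (sc (M / c) (by positivity))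
  have t2 := ((hL.comp t1).abs.const_mul (4 * N * |C|))
  rw [abs_zero, mul_zero] at t2
  filter_upwards [(sc M M0).eventually hC, (sc N N0).eventually hC, self_mem_nhdsWithin,
    t2.eventually (gt_mem_nhds (half_pos hε))] with a h1 h2 ha h3
  have ha : 0 < a := ha
  set ρ := √(M / c * a) with hρ
  have r2 : ρ ^ 2 = M / c * a := Real.sq_sqrt (by positivity)
  have i1 : Integrable ((closedBall x ρ).indicator f) r := fi.indicator measurableSet_closedBall
  have i2 := integrable_Th D x r (mul_pos M0 ha)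
  have h4 := norm_integral_le_of_norm_le (f := fun y => kn a (qf D x (y - x)) * f y)
    ((i1.const_mul (1 / a)).add (i2.const_mul (|B| * (4 / M)))) (hB.mono fun y hy => by
      have k0 := kn_nonneg ha (qf D x (y - x))
      have k1 := kn_nonneg (mul_pos M0 ha) (qf D x (y - x))
      rw [Real.norm_of_nonneg (mul_nonneg k0 hy.1), Pi.add_apply]
      by_cases hb : y ∈ closedBall x ρ
      · rw [indicator_of_mem hb]
        exact le_add_of_le_of_nonneg
          (mul_le_mul_of_nonneg_right (kn_le ha (qf_nonneg _ _ _)) hy.1) (by positivity)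
      · rw [indicator_of_notMem hb, mul_zero, zero_add, mul_comm, mul_assoc]
        refine mul_le_mul (hy.2.trans (le_abs_self B)) (kn_tail ha M0 (le_trans ?_ (hq _))) k0
          (abs_nonneg B)
        rw [mem_closedBall, dist_eq_norm, not_le] at hb
        calc M * a = c * ρ ^ 2 := by rw [r2]; field_simp
          _ ≤ c * ‖y - x‖ ^ 2 := by gcongr)
  simp only [Pi.add_apply] at h4
  rw [integral_add (i1.const_mul _) (i2.const_mul _), integral_const_mul, integral_const_mul,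
    integral_indicator measurableSet_closedBall,
    ← measure_smul_setAverage f (measure_ne_top r _), smul_eq_mul] at h4
  have h5 := real_ball_le D x r (ρ := ρ) (mul_pos N0 ha) (by
    rw [r2, hN, mul_assoc]
    gcongr
    linarith)
  have h6 : r.real (closedBall x ρ) * ⨍ y in closedBall x ρ, f y ∂r ≤
      4 * (N * a) * |C| * |⨍ y in closedBall x ρ, f y ∂r| :=
    (mul_le_mul_of_nonneg_left (le_abs_self _) measureReal_nonneg).trans
      (mul_le_mul_of_nonneg_right (h5.trans (mul_le_mul_of_nonneg_left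
        (h2.trans (le_abs_self C)) (by positivity))) (abs_nonneg _))
  have h7 : |B| * (4 / M) * Th D r x (M * a) ≤ ε / 2 := by
    calc _ ≤ |B| * (4 / M) * |C| :=
          mul_le_mul_of_nonneg_left (h1.trans (le_abs_self C)) (by positivity)
      _ = ε / 2 * (|B| * |C| / (|B| * |C| + 1)) := by rw [hM]; field_simp; ring
      _ ≤ ε / 2 := mul_le_of_le_one_right (by positivity)
          ((div_le_one (by positivity)).2 (by linarith))
  have h8 := mul_le_mul_of_nonneg_left h6 (one_div_pos.2 ha).le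
  have h9 : 1 / a * (4 * (N * a) * |C| * |⨍ y in closedBall x ρ, f y ∂r|) =
      4 * N * |C| * |⨍ y in closedBall x ρ, f y ∂r| := by field_simp
  rw [Real.dist_eq, sub_zero]
  refine lt_of_le_of_lt h4 ?_
  have h10 : 4 * N * |C| * |⨍ y in closedBall x ρ, f y ∂r| < ε / 2 := h3
  have h11 : |B| * (4 / M) * ∫ y, kn (M * a) (qf D x (y - x)) ∂r ≤ ε / 2 := h7
  linarith

/-- almost every point is a Lebesgue point -/
theorem ae_leb {E : Type*} [NormedAddCommGroup E] {g : R4 → E} (hg : Integrable g r) :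
    ∀ᵐ x ∂r, Tendsto (fun ρ => ⨍ y in closedBall x ρ, ‖g y - g x‖ ∂r) (𝓝[>] 0) (𝓝 0) := by
  filter_upwards [(Besicovitch.vitaliFamily r).ae_tendsto_average_norm_sub hg.locallyIntegrable]
    with x hx
  exact hx.comp (Besicovitch.tendsto_filterAt r x)

/-- weighted averages at a Lebesgue point -/
theorem LEB' {c B : ℝ} (hc : Tendsto (Th D r x) (𝓝[>] 0) (𝓝 c)) {g : R4 → ℝ}
    (hg : AEStronglyMeasurable g r) (hB : ∀ᵐ y ∂r, |g y| ≤ B)
    (hL : Tendsto (fun ρ => ⨍ y in closedBall x ρ, ‖g y - g x‖ ∂r) (𝓝[>] 0) (𝓝 0)) :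
    Tendsto (fun a => ∫ y, kn a (qf D x (y - x)) * g y ∂r) (𝓝[>] 0) (𝓝 (g x * c)) := by
  have h1 := LEB D x r (B := B + |g x|) ((hc.eventually (gt_mem_nhds (lt_add_one c))).mono
    fun _ h => h.le) (hg.sub aestronglyMeasurable_const).norm (hB.mono fun y hy =>
      ⟨norm_nonneg _, (abs_sub _ _).trans (by linarith)⟩) hL
  have h2 : Tendsto (fun a => ∫ y, kn a (qf D x (y - x)) * g y ∂r - g x * Th D r x a)
      (𝓝[>] 0) (𝓝 0) := by
    refine squeeze_zero_norm' ?_ h1
    filter_upwards [self_mem_nhdsWithin] with a ha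
    have i1 := integrable_Th D x r ha
    rw [Th, ← integral_const_mul, ← integral_sub (i1.mul_bdd hg hB) (i1.const_mul _)]
    refine (norm_integral_le_integral_norm _).trans_eq (integral_congr_ae (.of_forall fun y => ?_))
    simp only [Pi.sub_apply]
    rw [mul_comm (g x), ← mul_sub, norm_mul, Real.norm_of_nonneg (kn_nonneg ha _)]
  simpa using h2.add (hc.const_mul (g x))

end Vale.Agent.P247N.Kr

namespace Vale.Agent.P247N

theorem den (hM : MON) : DEN := by
  intro D W r w h g hg ⟨C, hC⟩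
  haveI := h.fin
  have hB : ∀ᵐ y ∂r, |g y| ≤ C := .of_forall fun y => by rw [abs_of_nonneg (hC y).1]; exact (hC y).2
  filter_upwards [h.ae, Kr.ae_leb r ((integrable_const C).mono' hg.aestronglyMeasurable hB)]
    with x hx hL
  obtain ⟨C', -, h1⟩ := hM D W {x} h.opn isCompact_singleton (singleton_subset_iff.2 hx)
  refine (Kr.LEB' D x r (h1 r w h x rfl).1 hg.aestronglyMeasurable hB hL).congr fun a => ?_
  rw [Th, integral_withDensity_eq_integral_toReal_smul hg.ennreal_ofReal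
    (.of_forall fun _ => ENNReal.ofReal_lt_top)]
  simp only [ENNReal.toReal_ofReal (hC _).1, smul_eq_mul, mul_comm]

end Vale.Agent.P247N
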