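import Vale.Agent.P247N.Pt

/-!
# P247, block N: the monotonicity inequalities in a frame
-/

set_option linter.all false

open scoped ContDiff Topology
open Set MeasureTheory Filter Metric

noncomputable section

namespace Vale.Agent.P247N

open Vale.Agent.P247.H74 (R4 Data)

variable {D : Data} {W U : Set R4} {A : R4 → R4 →L[ℝ] R4} {χ : R4 → ℝ} {ε C : ℝ}
  {μ : Measure (R4 × R4)} {x : R4}

/-- the average of the mass -/
def Bq (A : R4 → R4 →L[ℝ] R4) (χ : R4 → ℝ) (μ : Measure (R4 × R4)) (x : R4) (a : ℝ) : ℝ :=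
  ∫ q, χ q.1 * (a * rk a (A x (q.1 - x)) ^ 2) * n2 (A x q.2) ∂μ
/-- the excess -/
def Ex (A : R4 → R4 →L[ℝ] R4) (χ : R4 → ℝ) (μ : Measure (R4 × R4)) (x : R4) (a : ℝ) : ℝ :=
  ∫ q, χ q.1 * rk a (A x (q.1 - x)) ^ 2 * cd (A x (q.1 - x)) (A x q.2) ∂μ
/-- the almost monotone quantity -/
def Tq (D : Data) (A : R4 → R4 →L[ℝ] R4) (χ : R4 → ℝ) (μ : Measure (R4 × R4)) (x : R4) (a : ℝ) :
    ℝ := ∫ q, χ q.1 * (a * rk a (A x (q.1 - x)) ^ 2) * ip (i0 (A x q.2)) (A x (D.J q.1 q.2)) ∂μ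

theorem VC.int (h : VC D W μ) {f : R4 × R4 → ℝ} (hf : Continuous f) : Integrable f μ :=
  h.toCs.int hf

theorem VC.le (h : VC D W μ) {f g : R4 × R4 → ℝ} (hf : Continuous f) (hg : Continuous g)
    (hfg : ∀ q : R4 × R4, q.1 ∈ ball (0 : R4) 1 → qf D q.1 q.2 ≤ 1 → f q ≤ g q) :
    ∫ q, f q ∂μ ≤ ∫ q, g q ∂μ :=
  integral_mono_ae (h.int hf) (h.int hg) (h.ae.mono fun q hq => hfg q hq.2.1 hq.2.2)

section
variable {Y : Type*} [TopologicalSpace Y] [T2Space Y] [MeasurableSpace Y] [OpensMeasurableSpace Y]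
  {m : Measure Y} {f g : Y → ℝ}

theorem Cs.add (h : Cs m) (hf : Continuous f) (hg : Continuous g) :
    ∫ q, (f q + g q) ∂m = ∫ q, f q ∂m + ∫ q, g q ∂m := integral_add (h.int hf) (h.int hg)

theorem Cs.sub (h : Cs m) (hf : Continuous f) (hg : Continuous g) :
    ∫ q, (f q - g q) ∂m = ∫ q, f q ∂m - ∫ q, g q ∂m := integral_sub (h.int hf) (h.int hg)

@[fun_prop] theorem cont_mi {a : ℝ} (ha : 0 < a) {z w p : Y → R4} {c dw dp : Y → ℝ}
    (hz : Continuous z) (hw : Continuous w) (hp : Continuous p) (hc : Continuous c)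
    (h1 : Continuous dw) (h2 : Continuous dp) :
    Continuous fun q => mi a (z q) (w q) (p q) (c q) (dw q) (dp q) := by
  unfold mi bt; fun_prop (disch := assumption)
end

theorem Fr.cχ (F : Fr D W U A χ ε C) : Continuous χ := F.smχ.continuous
theorem Fr.cdχ (F : Fr D W U A χ ε C) : Continuous (fderiv ℝ χ) :=
  F.smχ.continuous_fderiv (by simp)

theorem VC.mi0 (h : VC D W μ) (F : Fr D W U A χ ε C) (x : R4) {a : ℝ} (ha : 0 < a) :
    ∫ q, mi a (A x (q.1 - x)) (A x q.2) (A x (D.J q.1 q.2)) (χ q.1)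
      (fderiv ℝ χ q.1 q.2) (fderiv ℝ χ q.1 (D.J q.1 q.2)) ∂μ = 0 := by
  refine Eq.trans ?_ (h.cl2 F.smχ F.cpt F.sub ha 0 (A x) (A x) (i0L ∘L A x) 0 x)
  congr 1
  funext q
  simp only [ContinuousLinearMap.comp_apply, i0L_apply, add_zero, mi, bt]
  have e1 := vo_rad (A x (q.1 - x)) (A x q.2) (A x (D.J q.1 q.2))
  have e2 := rk_mul ha (A x (q.1 - x))
  have e3 : ip (i0 (A x (D.J q.1 q.2))) (A x q.2) = -ip (i0 (A x q.2)) (A x (D.J q.1 q.2)) := by
    simp only [ip, i0_0, i0_1, i0_2, i0_3]; ring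
  rw [e3]
  push_cast
  linear_combination (2 * χ q.1 * rk a (A x (q.1 - x)) ^ 2) * e1 + (2 * χ q.1 *
    rk a (A x (q.1 - x)) * ip (i0 (A x q.2)) (A x (D.J q.1 q.2))) * e2

theorem Fr.Bq0 (F : Fr D W U A χ ε C) {a : ℝ} (ha : 0 < a) : 0 ≤ Bq A χ μ x a :=
  integral_nonneg fun q => by have := F.χ0 q.1; have := n2_nonneg (A x q.2); positivity

theorem Fr.Ex0 (F : Fr D W U A χ ε C) {a : ℝ} : 0 ≤ Ex A χ μ x a :=
  integral_nonneg fun q => by
    have := F.χ0 q.1; have := cd_nonneg (A x (q.1 - x)) (A x q.2); positivity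

variable (h : VC D W μ) (F : Fr D W U A χ ε C) (hx : x ∈ U)
include h F hx

theorem VC.m1 {a : ℝ} (ha : 0 < a) : Bq A χ μ x a + Ex A χ μ x a ≤ 10 * C ^ 5 * μ.real univ := by
  have := F.cχ; have := F.cdχ; have := h.fin
  have h1 := h.le (by fun_prop (disch := assumption)) (by fun_prop (disch := assumption))
    fun q a b => (F.pt hx a b).m1 ha
  rw [h.add, h.add, h.mi0 F x ha, integral_const, zero_add, smul_eq_mul, mul_comm] at h1
  · exact h1
  all_goals fun_prop (disch := assumption)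

theorem VC.Bq_le {a : ℝ} (ha : 0 < a) : Bq A χ μ x a ≤ 10 * C ^ 5 * μ.real univ := by
  linarith [h.m1 F hx ha, F.Ex0 (μ := μ) (x := x) (a := a)]

theorem VC.Ex_le {a : ℝ} (ha : 0 < a) : Ex A χ μ x a ≤ 10 * C ^ 5 * μ.real univ := by
  linarith [h.m1 F hx ha, F.Bq0 (μ := μ) (x := x) ha]

theorem VC.m2 {a a' : ℝ} (ha' : 0 < a') (ha : a' ≤ a) (h1 : a ≤ 1) :
    Tq D A χ μ x a' ≤ Tq D A χ μ x a + 50 * C ^ 6 * μ.real univ * √a := by
  have := F.cχ; have := F.cdχ; have := h.fin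
  have a0 : 0 < a := ha'.trans_le ha
  obtain ⟨σ, hσ, rfl⟩ : ∃ σ, 0 < σ ∧ a = σ ^ 2 := ⟨√a, Real.sqrt_pos.2 a0, (Real.sq_sqrt a0.le).symm⟩
  rw [Real.sqrt_sq hσ.le]
  have h2 := h.le (by fun_prop (disch := assumption)) (by fun_prop (disch := assumption))
    fun q a b => (F.pt hx a b).m2 ha' ha hσ (by nlinarith)
  rw [h.sub, h.add, h.add, h.sub, h.mi0 F x ha', h.mi0 F x a0, integral_const, integral_const_mul,
    integral_const_mul, integral_const_mul, smul_eq_mul] at h2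
  · have h3 := mul_le_mul_of_nonneg_left (h.Bq_le F hx hσ)
      (show 0 ≤ 8 * C * σ by have := F.C1; positivity)
    have h4 : 0 ≤ C ^ 6 * μ.real univ * σ := by have := F.C1; positivity
    unfold Tq; unfold Bq at h3
    nlinarith
  all_goals fun_prop (disch := assumption)

theorem VC.m4 {a : ℝ} (ha : 0 < a) : |Tq D A χ μ x a| ≤ 21 * C ^ 5 * μ.real univ := by
  have := F.cχ; have := h.fin
  have h2 := h.le (by fun_prop (disch := assumption)) (by fun_prop (disch := assumption))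
    fun q a b => (F.pt hx a b).m4 ha
  rw [integral_add (h.int (by fun_prop (disch := assumption))) (integrable_const _),
    integral_const, integral_const_mul, smul_eq_mul] at h2
  have h3 := h.Bq_le F hx ha
  have h4 := mul_le_mul_of_nonneg_left (pow_le_pow_right₀ F.C1 (show 2 ≤ 5 by norm_num))
    (measureReal_nonneg (μ := μ) (s := univ))
  refine abs_integral_le_integral_abs.trans ?_
  unfold Bq at h3
  linarith

theorem VC.m3 {a : ℝ} (ha : 0 < a) (h1 : a ≤ 1) :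
    |Tq D A χ μ x a - ∫ q, a * rk a (A x (q.1 - x)) ^ 2 * qf D q.1 q.2 ∂μ| ≤
      106 * C ^ 6 * μ.real univ * √(√a) := by
  have := F.cχ; have := h.fin
  obtain ⟨τ, hτ, rfl⟩ : ∃ τ, 0 < τ ∧ a = (τ ^ 2) ^ 2 := ⟨√(√a), Real.sqrt_pos.2 (Real.sqrt_pos.2 ha),
    by rw [Real.sq_sqrt (Real.sqrt_nonneg _), Real.sq_sqrt ha.le]⟩
  have s0 : 0 < τ ^ 2 := by positivity
  rw [Real.sqrt_sq s0.le, Real.sqrt_sq hτ.le]
  have h2 := h.le (by fun_prop (disch := assumption)) (by fun_prop (disch := assumption))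
    fun q a b => (F.pt hx a b).m3 hτ (by
      by_contra! h0
      nlinarith [one_lt_pow₀ (one_lt_pow₀ h0 two_ne_zero) two_ne_zero])
  rw [integral_add (h.int (by fun_prop (disch := assumption))) (integrable_const _),
    integral_add (h.int (by fun_prop (disch := assumption)))
    (h.int (by fun_prop (disch := assumption))), integral_const, integral_const_mul,
    integral_const_mul, smul_eq_mul] at h2
  have := F.C1
  have h3 := mul_le_mul_of_nonneg_left (h.Bq_le F hx s0) (show 0 ≤ 8 * C * τ by positivity)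
  have h4 := mul_le_mul_of_nonneg_left (h.Bq_le F hx ha) (show 0 ≤ 2 * τ by positivity)
  have h5 := mul_le_mul_of_nonneg_left (pow_le_pow_right₀ F.C1 (show 5 ≤ 6 by norm_num))
    (show 0 ≤ μ.real univ * τ by positivity)
  rw [Tq, ← integral_sub (h.int (by fun_prop (disch := assumption)))
    (h.int (by fun_prop (disch := assumption)))]
  refine abs_integral_le_integral_abs.trans ?_
  unfold Bq at h3 h4
  nlinarith

end Vale.Agent.P247N
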