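import Vale.Agent.P247N.Fr

/-!
# P247, block N: pointwise inequalities
-/

set_option linter.all false

open Set

noncomputable section

namespace Vale.Agent.P247N

open Vale.Agent.P247.H74 (R4 Data)

/-- the pointwise facts at a pair (point, vector) seen from the frame at `x` -/
structure Pt (C : ℝ) (z w p : R4) (c dw dp s : ℝ) : Prop where
  C1 : 1 ≤ C
  rho : n2 (p - i0 w) ≤ C * n2 z * n2 w
  nw : n2 w ≤ C
  nz : n2 z ≤ C
  c0 : 0 ≤ c
  c1 : c ≤ 1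
  hdw : dw ^ 2 ≤ C * n2 w
  hdp : dp ^ 2 ≤ C * n2 p
  far : (c = 1 ∧ dw = 0 ∧ dp = 0) ∨ 1 ≤ C * n2 z
  s0 : 0 ≤ s
  s1 : s ≤ 1
  lq : (s - n2 w) ^ 2 ≤ C * (n2 z * n2 w ^ 2)

theorem Fr.pt {D : Data} {W U : Set R4} {A : R4 → R4 →L[ℝ] R4} {χ : R4 → ℝ} {ε C : ℝ}
    (F : Fr D W U A χ ε C) {x y w : R4} (hx : x ∈ U) (hy : y ∈ Metric.ball (0 : R4) 1)
    (hw : qf D y w ≤ 1) : Pt C (A x (y - x)) (A x w) (A x (D.J y w)) (χ y) (fderiv ℝ χ y w)
      (fderiv ℝ χ y (D.J y w)) (qf D y w) :=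
  ⟨F.C1, by rw [← F.cx x hx, ← map_sub, mul_assoc]; exact F.lip x hx y hy w,
    (F.cq x hx y w).trans (mul_le_of_le_one_right (by linarith [F.C1]) hw), F.tb x hx y hy,
    F.χ0 y, F.χ1 y, F.dχ x hx y _, F.dχ x hx y _,
    (F.far x hx y).imp_left fun h => ⟨h.1, by simp [h.2], by simp [h.2]⟩, qf_nonneg D y w, hw,
    F.lq x hx y hy w⟩

theorem rk_mul {a : ℝ} (ha : 0 < a) (z : R4) : rk a z * (n2 z + a) = 1 :=
  inv_mul_cancel₀ (den_pos ha z).ne'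

theorem rk_t {a : ℝ} (ha : 0 < a) (z : R4) : rk a z * n2 z ≤ 1 := by
  nlinarith [rk_mul ha z, mul_pos (rk_pos ha z) ha]

theorem rk_a {a : ℝ} (ha : 0 < a) (z : R4) : a * rk a z ≤ 1 := by
  nlinarith [rk_mul ha z, mul_nonneg (rk_pos ha z).le (n2_nonneg z)]

theorem rk_far {a C : ℝ} (ha : 0 < a) {z : R4} (h : 1 ≤ C * n2 z) : rk a z ≤ C := by
  have hC : 0 < C := by
    by_contra! h0
    nlinarith [mul_nonneg (neg_nonneg.2 h0) (n2_nonneg z)]
  nlinarith [rk_t ha z, rk_pos ha z]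

theorem rk_anti {a a' : ℝ} (ha : 0 < a') (h : a' ≤ a) (z : R4) : rk a z ≤ rk a' z :=
  inv_anti₀ (den_pos ha z) (by linarith)

theorem rk_sqrt {s : ℝ} (hs : 0 < s) (z : R4) :
    s ^ 2 * rk (s ^ 2) z ≤ 4 * s * (s * rk s z ^ 2) + s := by
  have h2 : 0 < s ^ 2 := by positivity
  have := rk_pos hs z
  rcases le_total (n2 z) s with h | h
  · have h3 : 1 ≤ 2 * s * rk s z := by nlinarith [rk_mul hs z]
    nlinarith [rk_a h2 z]
  · have h3 : s * rk (s ^ 2) z ≤ 1 := by nlinarith [rk_t h2 z, rk_pos h2 z]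
    nlinarith [mul_pos h2 (pow_pos this 2)]

/-- the boundary term -/
def bt (z w p : R4) (dw dp : ℝ) : ℝ := dw * ip (i0 z) p - dp * ip (i0 z) w

/-- the integrand of the monotonicity identity -/
def mi (a : ℝ) (z w p : R4) (c dw dp : ℝ) : ℝ := rk a z * bt z w p dw dp +
  2 * (c * (a * rk a z ^ 2) * ip (i0 w) p) + 2 * (c * rk a z ^ 2 * vo z (i0 z) w p)

theorem abs_mul_le (x y : ℝ) : |x * y| ≤ (x ^ 2 + y ^ 2) / 2 :=
  abs_le.2 ⟨by nlinarith [sq_nonneg (x + y)], by nlinarith [sq_nonneg (x - y)]⟩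

namespace Pt

variable {C : ℝ} {z w p : R4} {c dw dp s : ℝ} (h : Pt C z w p c dw dp s)
include h

theorem pw (n : ℕ) (m : ℕ) (hn : n ≤ m) : C ^ n ≤ C ^ m :=
  pow_le_pow_right₀ h.C1 hn

theorem C0 : 0 < C := lt_of_lt_of_le one_pos h.C1

theorem peq : p = i0 w + (p - i0 w) := by abel

theorem np : n2 p ≤ 4 * C ^ 3 := by
  have h1 := n2_add_le (i0 w) (p - i0 w)
  rw [← h.peq, n2_i0] at h1
  have h2 : C * n2 z * n2 w ≤ C * C * C := by
    have := h.C0; have := n2_nonneg w; have := n2_nonneg z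
    gcongr
    exacts [h.nz, h.nw]
  nlinarith [h.rho, h.nw, h.pw 1 3 (by norm_num)]

theorem bt_le : |bt z w p dw dp| ≤ 5 * C ^ 4 := by
  have := h.C0
  have h1 := abs_mul_le dw (ip (i0 z) p)
  have h2 := abs_mul_le dp (ip (i0 z) w)
  have h3 := ip_sq (i0 z) p
  have h4 := ip_sq (i0 z) w
  rw [n2_i0] at h3 h4
  have h5 := mul_le_mul h.nz h.np (n2_nonneg _) this.le
  have h6 := mul_le_mul h.nz h.nw (n2_nonneg _) this.le
  have h7 := mul_le_mul_of_nonneg_left h.np this.le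
  have h8 := mul_le_mul_of_nonneg_left h.nw this.le
  refine (abs_sub _ _).trans ?_
  nlinarith [h.hdw, h.hdp, h.pw 2 4 (by norm_num)]

theorem bt_far : bt z w p dw dp = 0 ∨ 1 ≤ C * n2 z :=
  h.far.imp_left fun h => by simp [bt, h.2.1, h.2.2]

theorem om_sq : (ip (i0 w) p - n2 w) ^ 2 ≤ (C * n2 z * n2 w) * n2 w := by
  have h1 : ip (i0 w) p - n2 w = ip (i0 w) (p - i0 w) := by
    simp only [ip, n2, Pi.sub_apply, i0_0, i0_1, i0_2, i0_3]; ring
  rw [h1, mul_comm]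
  exact (ip_sq _ _).trans (by rw [n2_i0]; exact mul_le_mul_of_nonneg_left h.rho (n2_nonneg _))

theorem om_le {τ : ℝ} (hτ : 0 < τ) : |ip (i0 w) p - n2 w| ≤ τ * n2 w + C * n2 z * n2 w / τ :=
  am_gm h.om_sq (by have := h.C0; have := n2_nonneg z; have := n2_nonneg w; positivity)
    (n2_nonneg _) hτ

theorem X_ge : cd z w / 2 - C * n2 z ^ 2 * n2 w / 2 ≤ vo z (i0 z) w p := by
  have h1 := vo_ge z w (p - i0 w)
  rw [← h.peq] at h1
  nlinarith [mul_le_mul_of_nonneg_left h.rho (n2_nonneg z)]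

theorem m1 {a : ℝ} (ha : 0 < a) :
    c * (a * rk a z ^ 2) * n2 w + c * rk a z ^ 2 * cd z w ≤ mi a z w p c dw dp + 10 * C ^ 5 := by
  have := h.C0; have := h.c0; have := n2_nonneg w; have := n2_nonneg z
  have R0 := rk_pos ha z
  have h1 : -(5 * C ^ 5) ≤ rk a z * bt z w p dw dp := by
    rcases h.bt_far with h0 | h0
    · rw [h0, mul_zero, neg_nonpos]; positivity
    · have := rk_far ha h0
      nlinarith [mul_le_mul_of_nonneg_left (neg_le_of_abs_le h.bt_le) R0.le, pow_pos h.C0 4]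
  have h2 : n2 w / 2 - 2 * (C * n2 z * n2 w) ≤ ip (i0 w) p := by
    have := neg_le_of_abs_le (h.om_le (τ := 1 / 2) (by norm_num)); linarith
  have h3 := mul_le_mul_of_nonneg_left h2 (show 0 ≤ c * (a * rk a z ^ 2) by positivity)
  have h4 := mul_le_mul_of_nonneg_left h.X_ge (show 0 ≤ c * rk a z ^ 2 by positivity)
  have h5 : c * (a * rk a z) * (rk a z * n2 z) * C * n2 w ≤ 1 * 1 * 1 * C * C := by
    gcongr
    exacts [h.c1, rk_a ha z, rk_t ha z, h.nw]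
  have h6 : c * (rk a z * n2 z) * (rk a z * n2 z) * C * n2 w ≤ 1 * 1 * 1 * C * C := by
    gcongr
    exacts [h.c1, rk_t ha z, rk_t ha z, h.nw]
  unfold mi
  nlinarith [h.pw 2 5 (by norm_num), pow_pos h.C0 2]

theorem m2 {σ a' : ℝ} (ha' : 0 < a') (ha : a' ≤ σ ^ 2) (hσ : 0 < σ) (h1 : σ ≤ 1) :
    2 * (c * (a' * rk a' z ^ 2) * ip (i0 w) p) - 2 * (c * (σ ^ 2 * rk (σ ^ 2) z ^ 2) * ip (i0 w) p) ≤
      mi a' z w p c dw dp - mi (σ ^ 2) z w p c dw dp +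
        8 * C * σ * (c * (σ * rk σ z ^ 2) * n2 w) + 7 * C ^ 6 * σ := by
  have := h.C0; have := h.c0; have := n2_nonneg w; have := n2_nonneg z
  have a0 : 0 < σ ^ 2 := by positivity
  have R0 := rk_pos a0 z
  have R1 := rk_pos ha' z
  have R2 := rk_anti ha' ha z
  have e1 := rk_mul a0 z
  have e2 := rk_mul ha' z
  set R := rk (σ ^ 2) z
  set R' := rk a' z
  have e3 : R' - R = (σ ^ 2 - a') * R * R' := by linear_combination R * e2 - R' * e1
  have h2 : -((R' - R) * bt z w p dw dp) ≤ 5 * C ^ 6 * σ := by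
    rcases h.bt_far with h0 | h0
    · rw [h0, mul_zero, neg_zero]; positivity
    · have b1 : R' - R ≤ σ * C * C := by
        rw [e3]
        gcongr
        exacts [by nlinarith, rk_far a0 h0, rk_far ha' h0]
      nlinarith [mul_le_mul_of_nonneg_left (neg_le_of_abs_le h.bt_le) (sub_nonneg.2 R2),
        pow_pos h.C0 4]
  have h3 : 0 ≤ R' ^ 2 - R ^ 2 := by nlinarith
  have h4 : (R' ^ 2 - R ^ 2) * n2 z ^ 2 ≤ 2 * (σ ^ 2 * R) := by
    have b1 := rk_t ha' z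
    have b2 : R * n2 z = 1 - σ ^ 2 * R := by linarith
    have b3 : (R' * n2 z) ^ 2 ≤ 1 := pow_le_one₀ (by positivity) b1
    calc _ = (R' * n2 z) ^ 2 - (R * n2 z) ^ 2 := by ring
      _ ≤ _ := by rw [b2]; nlinarith [sq_nonneg (σ ^ 2 * R)]
  have h5 := mul_le_mul_of_nonneg_left h.X_ge (mul_nonneg h.c0 h3)
  have h6 := mul_le_mul_of_nonneg_left (h4.trans (mul_le_mul_of_nonneg_left (rk_sqrt hσ z)
    zero_le_two)) (show 0 ≤ c * C * n2 w by positivity)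
  have h7 : c * C * n2 w * σ ≤ 1 * C * C * σ := by
    gcongr
    exacts [h.c1, h.nw]
  have h8 := mul_nonneg (mul_nonneg h.c0 h3) (cd_nonneg z w)
  have h9 := mul_le_mul_of_nonneg_right (h.pw 2 6 (by norm_num)) hσ.le
  unfold mi
  nlinarith

theorem m4 {a : ℝ} (ha : 0 < a) :
    |c * (a * rk a z ^ 2) * ip (i0 w) p| ≤ 2 * (c * (a * rk a z ^ 2) * n2 w) + C ^ 2 := by
  have := h.C0; have := h.c0; have := n2_nonneg w; have := n2_nonneg z
  have R0 := rk_pos ha z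
  have h1 : |ip (i0 w) p| ≤ 2 * n2 w + C * n2 z * n2 w := by
    have h2 := abs_le.1 (h.om_le one_pos)
    exact abs_le.2 ⟨by nlinarith, by linarith⟩
  have h5 : c * (a * rk a z) * (rk a z * n2 z) * C * n2 w ≤ 1 * 1 * 1 * C * C := by
    gcongr
    exacts [h.c1, rk_a ha z, rk_t ha z, h.nw]
  rw [abs_mul, abs_of_nonneg (by positivity)]
  nlinarith [mul_le_mul_of_nonneg_left h1 (show 0 ≤ c * (a * rk a z ^ 2) by positivity)]

theorem m3 {τ : ℝ} (hτ : 0 < τ) (h1 : τ ≤ 1) :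
    |c * ((τ ^ 2) ^ 2 * rk ((τ ^ 2) ^ 2) z ^ 2) * ip (i0 w) p -
      (τ ^ 2) ^ 2 * rk ((τ ^ 2) ^ 2) z ^ 2 * s| ≤
      2 * τ * (c * ((τ ^ 2) ^ 2 * rk ((τ ^ 2) ^ 2) z ^ 2) * n2 w) +
        8 * C * τ * (c * (τ ^ 2 * rk (τ ^ 2) z ^ 2) * n2 w) + 6 * C ^ 5 * τ := by
  have := h.C0; have := h.c0; have := n2_nonneg w; have := n2_nonneg z
  have s0 : 0 < τ ^ 2 := by positivity
  have a0 : 0 < (τ ^ 2) ^ 2 := by positivity
  have R0 := rk_pos a0 z
  have R1 := rk_pos s0 z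
  have e1 := rk_sqrt s0 z
  have e2 := rk_t a0 z
  have e3 := fun h0 : 1 ≤ C * n2 z => rk_far a0 h0
  set R := rk ((τ ^ 2) ^ 2) z
  rcases h.far with h0 | h0
  · have b1 := h.om_le hτ
    have b2 : |s - n2 w| ≤ τ * n2 w + C * n2 z * n2 w / τ :=
      am_gm (h.lq.trans (le_of_eq (by ring))) (by positivity) (n2_nonneg _) hτ
    have b3 : |ip (i0 w) p - s| ≤ 2 * (τ * n2 w + C * n2 z * n2 w / τ) := by
      have := abs_le.1 b1; have := abs_le.1 b2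
      exact abs_le.2 ⟨by linarith, by linarith⟩
    rw [h0.1, one_mul, one_mul, ← mul_sub, abs_mul, abs_of_nonneg (by positivity)]
    refine (mul_le_mul_of_nonneg_left b3 (by positivity)).trans ?_
    have b4 : (τ ^ 2) ^ 2 * R * (R * n2 z) * (C * n2 w / τ) ≤
        (4 * τ ^ 2 * (τ ^ 2 * rk (τ ^ 2) z ^ 2) + τ ^ 2) * 1 * (C * n2 w / τ) := by gcongr
    have b5 : (4 * τ ^ 2 * (τ ^ 2 * rk (τ ^ 2) z ^ 2) + τ ^ 2) * 1 * (C * n2 w / τ) =
        4 * C * τ * (τ ^ 2 * rk (τ ^ 2) z ^ 2 * n2 w) + τ * (C * n2 w) := by field_simp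
    have b6 : τ * (C * n2 w) ≤ τ * C ^ 5 := by
      gcongr; nlinarith [h.nw, h.pw 2 5 (by norm_num)]
    have b7 : (τ ^ 2) ^ 2 * R ^ 2 * (2 * (τ * n2 w + C * n2 z * n2 w / τ)) =
        2 * τ * ((τ ^ 2) ^ 2 * R ^ 2 * n2 w) + 2 * ((τ ^ 2) ^ 2 * R * (R * n2 z) * (C * n2 w / τ)) := by
      ring
    nlinarith [mul_pos (pow_pos h.C0 5) hτ]
  · have b1 : |c * ip (i0 w) p - s| ≤ 4 * C ^ 3 := by
      have b2 := ip_sq (i0 w) p
      rw [n2_i0] at b2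
      have b3 : |ip (i0 w) p| ≤ 3 * C ^ 3 := abs_le_of_sq_le_sq (by
        nlinarith [mul_le_mul h.nw h.np (n2_nonneg _) h.C0.le, h.pw 4 6 (by norm_num)]) (by positivity)
      have b4 : |c * ip (i0 w) p| ≤ 1 * (3 * C ^ 3) := by
        rw [abs_mul, abs_of_nonneg h.c0]; gcongr; exact h.c1
      have := abs_le.1 b4; have := h.s0; have := h.s1; have := h.pw 0 3 (by norm_num)
      exact abs_le.2 ⟨by linarith, by linarith⟩
    have b2 : (τ ^ 2) ^ 2 * R ^ 2 ≤ τ * C ^ 2 := by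
      gcongr
      exacts [by nlinarith [pow_le_one₀ hτ.le h1 (n := 3)], e3 h0]
    rw [show ∀ k o : ℝ, c * k * o - k * s = k * (c * o - s) from fun k o => by ring, abs_mul,
      abs_of_nonneg (by positivity)]
    have b3 := mul_le_mul b2 b1 (abs_nonneg _) (by positivity)
    have : 0 ≤ 2 * τ * (c * ((τ ^ 2) ^ 2 * R ^ 2) * n2 w) := by positivity
    have : 0 ≤ 8 * C * τ * (c * (τ ^ 2 * rk (τ ^ 2) z ^ 2) * n2 w) := by positivity
    nlinarith [mul_pos (pow_pos h.C0 5) hτ]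

end Pt

end Vale.Agent.P247N
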