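import Vale.Agent.P247N.Rep2

/-!
# P247, block N, row REP: representation of positive currents
-/

set_option linter.all false

open scoped BigOperators ContDiff Topology Manifold
open Set Filter Metric MeasureTheory

noncomputable section

namespace Vale.Agent.P247N.Rep

open Vale.Agent.P204 Vale.Agent.P204.T4 Vale.Agent.P204.Mfd Vale.Agent.P247.SCY
open Vale.Agent.P247.H74 (R4 Data CForm e)
open Vale.Agent.P247.H574 (F2 CF)
open Vale.Agent.P247X Vale.Agent.P247L

variable {X : Type} [Cl4 X] {w : Tri X}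

theorem meas_on {Y : Type} [TopologicalSpace Y] [MeasurableSpace Y] [BorelSpace Y] [Zero Y]
    {f : X → Y} {S : Set X} (hS : IsOpen S) (hf : ContinuousOn f S) :
    Measurable (S.indicator f) := by
  classical
  rw [← piecewise_eq_indicator]
  exact hf.measurable_piecewise continuousOn_const hS.measurableSet

/-- chart changes are smooth -/
theorem cont_dk_dki (t t' : LocT w) (u : R4) :
    ContinuousOn (fun x => (dk t' x).comp (dki t (t.κ x))) (t.κ.source ∩ t'.κ.source) := by
  have key : ∀ x ∈ t.κ.source ∩ t'.κ.source, ContDiffAt ℝ ∞ (t'.κ ∘ t.κ.symm) (t.κ x) ∧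
      (dk t' x).comp (dki t (t.κ x)) = fderiv ℝ (t'.κ ∘ t.κ.symm) (t.κ x) := by
    intro x hx
    have h1 := smAt_symm t (t.κ.map_source hx.1)
    have h2 : ContMDiffAt (𝓡 4) 𝓘(ℝ, R4) ∞ t'.κ (t.κ.symm (t.κ x)) := by
      rw [t.κ.left_inv hx.1]; exact smAt t' hx.2
    refine ⟨(h2.comp _ h1).contDiffAt, ?_⟩
    have h3 := mfderiv_comp (I := 𝓘(ℝ, R4)) (I' := 𝓡 4) (I'' := 𝓘(ℝ, R4)) (t.κ x)
      (h2.mdifferentiableAt (by simp)) (h1.mdifferentiableAt (by simp))
    rw [mfderiv_eq_fderiv] at h3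
    have h4 : fderiv ℝ (t'.κ ∘ t.κ.symm) (t.κ x) =
        (dk t' (t.κ.symm (t.κ x))).comp (dki t (t.κ x)) := h3
    rw [h4, t.κ.left_inv hx.1]
  intro x hx
  refine ContinuousWithinAt.congr ?_ (fun y hy => (key y hy).2) (key x hx).2
  exact (ContinuousAt.comp (f := t.κ) ((key x hx).1.fderiv_right (m := ∞)
    (by simp)).continuousAt (t.κ.continuousAt hx.1)).continuousWithinAt

section glue

variable (F : ℕ → FC w) (hF : ∀ x, ∃ a, x ∈ (F a).V) (z : ℕ → Fin 2 → X → V4)

open Classical in
/-- the first chart which contains the point -/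
def ix (x : X) : ℕ := Nat.find (hF x)

theorem ix_mem (x : X) : x ∈ (F (ix F hF x)).V := by
  classical
  exact Nat.find_spec (hF x)

theorem meas_ix {Y : Type} [MeasurableSpace Y] {f : ℕ → X → Y} (hf : ∀ a, Measurable (f a)) :
    Measurable fun x => f (ix F hF x) x := by
  classical
  exact Measurable.find (p := fun a x => x ∈ (F a).V) hf (fun a => (F a).opn.measurableSet) hF

/-- the glued vector fields -/
def gv : VF X := fun i x => ((F (ix F hF x)).E x (z (ix F hF x) i x) : E4)

theorem dn_gv (φ : HS.Form X 2) (x : X) : dn w (gv F hF z) φ x =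
    ∑ i, ev ((F (ix F hF x)).co x (P247L.vl φ x)) (z (ix F hF x) i x) (i0 (z (ix F hF x) i x)) := by
  refine Finset.sum_congr rfl fun i _ => ?_
  rw [FC.ev_co, FC.E_i0 _ (ix_mem F hF x)]
  rfl

variable (hz : ∀ a i, Measurable (z a i))
include hz

omit hz in
theorem meas_ev {a : X → L2} {b : X → V4} (ha : Measurable a) (hb : Measurable b) :
    Measurable fun x => ev (a x) (b x) (i0 (b x)) := by
  have h1 : ∀ k, Measurable fun x => a x k := fun k => (measurable_pi_apply k).comp ha
  have h2 : ∀ k, Measurable fun x => b x k := fun k => (measurable_pi_apply k).comp hb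
  simp only [ev_i0]
  fun_prop

theorem meas_dn {φ : HS.Form X 2} (hφ : Cont φ) : Measurable (dn w (gv F hF z) φ) := by
  set g : ℕ → X → L2 := fun a => (F a).V.indicator (fun x => (F a).co x (P247L.vl φ x)) with hg
  have h1 : ∀ a, Measurable (g a) := fun a => meas_on (F a).opn ((F a).cont_co hφ)
  have h := meas_ix F hF (f := fun a x => ∑ i, ev (g a x) (z a i x) (i0 (z a i x))) fun a =>
    Finset.measurable_sum _ fun i _ => meas_ev (h1 a) (hz a i)
  have e : dn w (gv F hF z) φ = fun x =>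
      ∑ i, ev (g (ix F hF x) x) (z (ix F hF x) i x) (i0 (z (ix F hF x) i x)) := by
    funext x
    rw [dn_gv, hg]
    simp only [indicator_of_mem (ix_mem F hF x)]
  rw [e]
  exact h

theorem meas_vl (t : LocT w) (i : Fin 2) : Measurable (P247N.vl t (gv F hF z) i) := by
  classical
  have h := meas_ix F hF (f := fun a x => ∑ j, z a i x j • ((F a).V ∩ t.κ.source).indicator
    (fun x => dk t x ((F a).E x (eb j))) x) fun a => by
      refine Finset.measurable_sum _ fun j _ => ((measurable_pi_apply j).comp (hz a i)).smul ?_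
      refine meas_on ((F a).opn.inter t.κ.open_source) ?_
      exact ((cont_dk_dki (F a).t t 0).mono fun x hx => ⟨hx.1.1, hx.2⟩).clm_apply
        (((F a).cP.comp ((F a).t.κ.continuousOn.mono fun x hx => hx.1.1)
          fun x hx => hx.1.2).clm_apply continuousOn_const)
  obtain ⟨x₀⟩ : Nonempty X := inferInstance
  have h1 : Measurable (t.κ.target.piecewise t.κ.symm fun _ => x₀) :=
    t.κ.continuousOn_symm.measurable_piecewise continuousOn_const t.κ.open_target.measurableSet
  have h2 := (h.comp h1).indicator t.κ.open_target.measurableSet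
  refine (funext fun y => ?_ : P247N.vl t (gv F hF z) i = _) ▸ h2
  by_cases hy : y ∈ t.κ.target
  · rw [indicator_of_mem hy, Function.comp_apply, piecewise_eq_of_mem _ _ _ hy]
    refine Eq.trans (if_pos hy) ?_
    have hm : t.κ.symm y ∈ (F (ix F hF (t.κ.symm y))).V ∩ t.κ.source :=
      ⟨ix_mem F hF _, t.κ.map_target hy⟩
    simp only [indicator_of_mem hm]
    show dk t _ ((F _).E _ _) = _
    conv_lhs => rw [vec_eq (z _ i _)]
    simp only [map_add, map_smul, Fin.sum_univ_four]
  · rw [indicator_of_notMem hy]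
    exact if_neg hy

end glue

theorem rep : REP := by
  intro X _ μ hμ w hw T hT hp
  classical
  obtain ⟨σ, lam, hσ, h2, hl⟩ := exists_lam hμ hw hT hp
  obtain ⟨n, F₀, hF₀⟩ := exists_cover hμ hw
  obtain ⟨x₀⟩ : Nonempty X := inferInstance
  set F : ℕ → FC w := fun m => if h : m < n then F₀ ⟨m, h⟩ else F₀ (hF₀ x₀).choose with hFd
  have hF : ∀ x, ∃ a, x ∈ (F a).V := fun x => by
    obtain ⟨a, ha⟩ := hF₀ x
    exact ⟨a, by simpa [hFd] using ha⟩
  have c2 : Cont (w 2) := cont_of_smooth (hw.smooth 2)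
  have hf : ∀ {φ}, Cont φ → ∀ f : X → ℝ, Continuous f →
      T (fun x => f x • φ x) = ∫ x, f x * lam x (P247L.vl φ x) ∂σ := fun {φ} hφ f hf => by
    rw [(hl _ (P247C.cont_fsmul hf hφ)).2.2]
    exact integral_congr_ae (Eventually.of_forall fun x => map_smul (lam x) (f x) (P247L.vl φ x))
  set h : ℕ → X → L2 := fun a x k => lam x (P247L.vl ((F a).ψ (Pi.single k 1)) x) with hh
  have hm : ∀ a, Measurable (h a) := fun a =>
    measurable_pi_lambda _ fun k => (hl _ ((F a).cont_ψ _)).1
  have hs : ∀ a x q, lam x (P247L.vl ((F a).ψ q) x) = ∑ k, q k * h a x k := fun a x q => by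
    rw [FC.ψ_sum, map_sum]
    simp only [map_smul, smul_eq_mul, hh]
  set G : ℕ → Set X := fun a => {x | Ok (h a x) ∧ lam x (P247L.vl (w 2) x) = 1} with hG
  have mG : ∀ a, MeasurableSet (G a) := fun a =>
    (hm a measurableSet_ok).inter (measurableSet_eq_fun (hl _ c2).1 measurable_const)
  have ae1 : ∀ᵐ x ∂σ, lam x (P247L.vl (w 2) x) = 1 := by
    obtain ⟨m2, ⟨C, hC⟩, -⟩ := hl _ c2
    have key : ∀ s : ℝ, ∀ᵐ x ∂σ, 0 ≤ s * (lam x (P247L.vl (w 2) x) - 1) := fun s => by
      refine ae_nonneg σ ((m2.sub_const 1).const_mul s) (C := |s| * (C + 1)) (fun y => ?_)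
        fun f cf _ => ?_
      · rw [abs_mul]
        exact mul_le_mul_of_nonneg_left ((abs_sub _ _).trans (by rw [abs_one]; linarith [hC y]))
          (abs_nonneg _)
      · obtain ⟨B, hB⟩ := isCompact_univ.exists_bound_of_continuousOn cf.continuousOn
        have i1 : Integrable f σ := Integrable.of_bound cf.aestronglyMeasurable B
          (Eventually.of_forall fun x => hB x trivial)
        have i2 : Integrable (fun x => f x * lam x (P247L.vl (w 2) x)) σ :=
          i1.mul_bdd m2.aestronglyMeasurable (Eventually.of_forall hC)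
        have e : ∫ y, f y * (s * (lam y (P247L.vl (w 2) y) - 1)) ∂σ =
            s * (∫ y, f y * lam y (P247L.vl (w 2) y) ∂σ - ∫ y, f y ∂σ) := by
          rw [← integral_sub i2 i1, ← integral_const_mul]
          congr 1; funext y; ring
        rw [e, ← hf c2 f cf, h2 f cf, sub_self, mul_zero]
    filter_upwards [key 1, key (-1)] with x a b
    linarith
  have ae2 : ∀ᵐ x ∂σ, ∀ a, Ok (h a x) := by
    refine ae_all_iff.2 fun a => ?_
    have : ∀ᵐ x ∂σ, ∀ q : Fin 6 → ℚ, (∀ z, 0 ≤ ev (fun k => (q k : ℝ)) z (i0 z)) →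
        0 ≤ ∑ k, (q k : ℝ) * h a x k := by
      refine ae_all_iff.2 fun q => ?_
      by_cases hq : ∀ z, 0 ≤ ev (fun k => (q k : ℝ)) z (i0 z)
      · have c := (F a).cont_ψ fun k => (q k : ℝ)
        obtain ⟨m, ⟨C, hC⟩, -⟩ := hl _ c
        filter_upwards [ae_nonneg σ m hC fun f cf f0 => by
          rw [← hf c f cf]
          exact hp _ (P247C.cont_fsmul cf c) fun x v => mul_nonneg (f0 x) ((F a).ψ_pos hq x v)]
          with x hx _
        rwa [hs] at hx
      · exact Eventually.of_forall fun x h => absurd h hq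
    exact this.mono fun x hx => ok_of_tests hx
  set z : ℕ → Fin 2 → X → V4 := fun a i => (G a).piecewise (fun x => ch (h a x) i)
    fun _ => (![eb 0, 0] : Fin 2 → V4) i with hzd
  have hz : ∀ a i, Measurable (z a i) := fun a i =>
    Measurable.piecewise (mG a) ((measurable_ch i).comp (hm a)) measurable_const
  have good : ∀ φ x, x ∈ G (ix F hF x) → dn w (gv F hF z) φ x = lam x (P247L.vl φ x) := by
    intro φ x hx
    rw [dn_gv]
    simp only [hzd, piecewise_eq_of_mem _ _ _ hx]
    rw [← ch_spec hx.1, ← hs, FC.ψ_co _ (ix_mem F hF x)]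
  have nrm : ∀ x, dn w (gv F hF z) (w 2) x = 1 := by
    intro x
    by_cases hx : x ∈ G (ix F hF x)
    · rw [good _ x hx, hx.2]
    · have hV := ix_mem F hF x
      rw [dn_gv, Fin.sum_univ_two]
      simp only [hzd, piecewise_eq_of_notMem _ _ _ hx]
      show ev _ (eb 0) (i0 (eb 0)) + ev _ 0 (i0 0) = 1
      rw [FC.ev_co, FC.E_i0 _ hV, w2_chart _ hV.1, FC.dk_E _ hV, FC.qA _ _ hV.2, FC.AP _ _ hV.2]
      simp [n2, eb, ev_eq]
  refine ⟨σ, gv F hF z, hσ, ⟨meas_vl F hF z hz, fun φ hφ => ⟨meas_dn F hF z hz hφ, ?_⟩, nrm⟩,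
    fun φ hφ => ?_⟩
  · obtain ⟨C, -, hC⟩ := dom hμ hw hφ
    refine ⟨C, fun x => ?_⟩
    rw [← mul_one C, ← nrm x, dn, dn, Finset.mul_sum]
    exact (Finset.abs_sum_le_sum_abs _ _).trans (Finset.sum_le_sum fun i _ => hC x _)
  · rw [(hl φ hφ).2.2]
    refine integral_congr_ae ?_
    filter_upwards [ae1, ae2] with x a b
    exact (good φ x ⟨b _, a⟩).symm

end Vale.Agent.P247N.Rep
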