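import Vale.Agent.P247N.Rep1

/-!
# P247, block N, row REP: framed charts and the fibrewise functional
-/

set_option linter.all false

open scoped BigOperators ContDiff Topology Manifold
open Set Filter Metric MeasureTheory

noncomputable section

namespace Vale.Agent.P247N.Rep

open Vale.Agent.P204 Vale.Agent.P204.T4 Vale.Agent.P204.Mfd Vale.Agent.P247.SCY
open Vale.Agent.P247.H74 (R4 Data CForm e)
open Vale.Agent.P247.H574 (F2 CF)
open Vale.Agent.P247X Vale.Agent.P247L

variable {X : Type} [Cl4 X] {w : Tri X}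

/-- two-covectors of the model space -/
abbrev AE := E4 [⋀^Fin 2]→L[ℝ] ℝ

theorem ae_ext {A B : AE} (h : ∀ u v, A ![u, v] = B ![u, v]) : A = B := by
  ext m
  have : m = ![m 0, m 1] := by funext i; fin_cases i <;> rfl
  rw [this]; exact h _ _

/-- a chart with a unitary frame -/
structure FC (w : Tri X) where
  t : LocT w
  c : Cut t
  A : R4 → R4 →L[ℝ] R4
  P : R4 → R4 →L[ℝ] R4
  cA : Continuous A
  cP : ContinuousOn P c.W
  AP : ∀ y ∈ c.W, ∀ z, A y (P y z) = z
  PA : ∀ y ∈ c.W, ∀ z, P y (A y z) = z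
  cx : ∀ y, c.χ y ≠ 0 → ∀ u, A y (t.D.J y u) = i0 (A y u)
  qA : ∀ y ∈ c.W, ∀ u, qf t.D y u = n2 (A y u)

namespace FC

variable (F : FC w)

/-- the domain -/
def V : Set X := F.t.κ.source ∩ F.t.κ ⁻¹' F.c.W

theorem opn : IsOpen F.V := F.t.κ.isOpen_inter_preimage F.c.opn

/-- constant forms in the frame -/
def fr (q : L2) (y : R4) : F2 := b2 ((toAlt q).compContinuousLinearMap (F.A y))

theorem fr_apply (q : L2) (y u v : R4) : F.fr q y u v = ev q (F.A y u) (F.A y v) := by
  rw [fr, b2_apply, comp_apply2, toAlt_apply]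

/-- the basic forms -/
def ψ (q : L2) : HS.Form X 2 := pb F.t (F.c.sm (F.fr q))

theorem cont_ψ (q : L2) : Cont (F.ψ q) := by
  have h : Continuous (F.fr q) := b2.continuous.comp (continuous_iff_continuousAt.2 fun y =>
    continuousAt_comp_alt continuousAt_const F.cA.continuousAt)
  exact P247L.cont_pb F.t (F.c.cont.smul h).continuousOn F.c.cpt F.c.sub
    fun _ hy => F.c.sm_zero _ hy

theorem sm_alt (q : L2) (y u : R4) : F.c.sm (F.fr q) y u u = 0 := by
  show F.c.χ y * F.fr q y u u = 0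
  rw [fr_apply, ev_self, mul_zero]

theorem ψ_apply (q : L2) {x : X} (hx : x ∈ F.t.κ.source) (u v : E4) :
    P247L.vl (F.ψ q) x ![u, v] = F.c.χ (F.t.κ x) *
      ev q (F.A (F.t.κ x) (dk F.t x u)) (F.A (F.t.κ x) (dk F.t x v)) := by
  rw [ψ, pb_apply F.t (F.sm_alt q) hx, ← fr_apply]; rfl

theorem ψ_pos {q : L2} (hq : ∀ z, 0 ≤ ev q z (i0 z)) (x : X) (v : TangentSpace (𝓡 4) x) :
    0 ≤ F.ψ q x ![v, Jw w x v] := by
  refine pb_pos F.t (F.sm_alt q) (fun y _ u => ?_) x v
  show 0 ≤ F.c.χ y * F.fr q y u (F.t.D.J y u)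
  by_cases h : F.c.χ y = 0
  · rw [h, zero_mul]
  · rw [fr_apply, F.cx y h]; exact mul_nonneg (F.c.nn y) (hq _)

theorem ψ_sum (q : L2) (x : X) :
    P247L.vl (F.ψ q) x = ∑ k, q k • P247L.vl (F.ψ (Pi.single k 1)) x := by
  by_cases hx : x ∈ F.t.κ.source
  · refine ae_ext fun u v => ?_
    rw [ContinuousAlternatingMap.sum_apply, Finset.sum_congr rfl fun k _ =>
      (ContinuousAlternatingMap.smul_apply _ _ _).trans (congrArg _ (F.ψ_apply _ hx u v)),
      F.ψ_apply _ hx]
    simp only [smul_eq_mul, Fin.sum_univ_six, ev_eq]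
    simp
    ring
  · have h : ∀ q, P247L.vl (F.ψ q) x = 0 := fun q =>
      ek_of_notMem F.t (fun y => a2 (F.c.sm (F.fr q) y)) hx
    simp only [h, smul_zero, Finset.sum_const_zero]

/-- the frame, as a map to the tangent space -/
def E (x : X) : R4 →L[ℝ] E4 := (dki F.t (F.t.κ x)).comp (F.P (F.t.κ x))

/-- components in the frame -/
def co (x : X) : AE →L[ℝ] L2 :=
  compL.comp (ContinuousAlternatingMap.compContinuousLinearMapCLM (F.E x))

theorem ev_co (x : X) (B : AE) (u v : V4) : ev (F.co x B) u v = B ![F.E x u, F.E x v] :=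
  (ev_compL (B.compContinuousLinearMap (F.E x)) u v).trans (comp_apply2 B (F.E x) u v)

theorem ψ_co {x : X} (hx : x ∈ F.V) (B : AE) : P247L.vl (F.ψ (F.co x B)) x = B := by
  refine ae_ext fun u v => ?_
  have h : ∀ u, F.E x (F.A (F.t.κ x) (dk F.t x u)) = u := fun u => by
    show dki F.t _ (F.P _ (F.A _ _)) = u
    rw [F.PA _ hx.2, dki_dk F.t hx.1]
  rw [F.ψ_apply _ hx.1, F.c.one _ hx.2, one_mul, ev_co, h, h]

theorem dk_E {x : X} (hx : x ∈ F.V) (z : V4) : dk F.t x (F.E x z) = F.P (F.t.κ x) z := by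
  have h := dk_dki F.t (F.t.κ.map_source hx.1) (F.P (F.t.κ x) z)
  rwa [F.t.κ.left_inv hx.1] at h

theorem P_i0 {y : R4} (hy : y ∈ F.c.W) (z : V4) : F.P y (i0 z) = F.t.D.J y (F.P y z) := by
  rw [← F.PA y hy (F.t.D.J y _), F.cx y (by rw [F.c.one y hy]; exact one_ne_zero), F.AP y hy]

theorem E_i0 {x : X} (hx : x ∈ F.V) (z : V4) : F.E x (i0 z) = Jat (Jw w) x (F.E x z) := by
  rw [← dki_dk F.t hx.1 (Jat (Jw w) x (F.E x z)), dk_J F.t hx.1, F.dk_E hx, ← F.P_i0 hx.2]
  rfl

theorem cont_co {φ : HS.Form X 2} (hφ : Cont φ) :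
    ContinuousOn (fun x => F.co x (P247L.vl φ x)) F.V := by
  intro x hx
  have h2 := F.t.κ.continuousAt hx.1
  have h1 : ContinuousAt (fun x => compL ((pk F.t φ (F.t.κ x)).compContinuousLinearMap
      (F.P (F.t.κ x)))) x := compL.continuous.continuousAt.comp (continuousAt_comp_alt
    (ContinuousAt.comp (f := F.t.κ) ((continuousOn_pk F.t hφ).continuousAt
      (F.t.κ.open_target.mem_nhds (F.t.κ.map_source hx.1))) h2)
    (ContinuousAt.comp (f := F.t.κ) (F.cP.continuousAt (F.c.opn.mem_nhds hx.2)) h2))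
  refine (h1.congr ?_).continuousWithinAt
  filter_upwards [F.t.κ.open_source.mem_nhds hx.1] with x hx
  rw [pk_of_mem F.t φ (F.t.κ.map_source hx), F.t.κ.left_inv hx]
  rfl

end FC

theorem exists_Cut' (t : LocT w) {y : R4} {U : Set R4} (hU : U ∈ 𝓝 y) (ht : U ⊆ t.κ.target) :
    ∃ c : Cut t, y ∈ c.W ∧ tsupport c.χ ⊆ U := by
  obtain ⟨r, hr, hb⟩ := Metric.nhds_basis_closedBall.mem_iff.1 hU
  let b : ContDiffBump y := ⟨r / 2, r, by positivity, by linarith⟩
  have hs : tsupport b ⊆ U := by rw [b.tsupport_eq]; exact hb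
  exact ⟨⟨b, ball y (r / 2), b.continuous, b.hasCompactSupport, hs.trans ht,
    fun _ => b.nonneg, isOpen_ball, fun z hz => b.one_of_mem_closedBall (ball_subset_closedBall hz)⟩,
    mem_ball_self (by positivity), hs⟩

variable {μ : HS.Form X 4} (hμ : HS.Volume μ) (hw : HS.Hypersymplectic μ w)
include hμ hw

theorem exists_FC (x : X) : ∃ F : FC w, x ∈ F.V := by
  obtain ⟨t, hx, -⟩ := TRANS X μ hμ w hw x univ univ_mem
  obtain ⟨U, A, χ, ε, C, hxU, hU, h⟩ := exists_fr t.D t.κ.open_target (t.κ.map_source hx)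
  obtain ⟨c, hc, hs⟩ := exists_Cut' t (h.opn.mem_nhds hxU) hU
  have hW : ∀ y ∈ c.W, y ∈ U := fun y hy =>
    hs (subset_tsupport _ (by rw [Function.mem_support, c.one y hy]; exact one_ne_zero))
  have hi : ∀ y ∈ c.W, ∃ L : R4 ≃L[ℝ] R4, (L : R4 →L[ℝ] R4) = A y := by
    intro y hy
    have h1 : Function.Injective (A y) := (injective_iff_map_eq_zero _).2 fun u hu => by
      by_contra hn
      have h2 : 0 < qf t.D y u := t.D.tame y u hn
      rw [h.qA y (hW y hy), hu] at h2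
      simp [n2] at h2
    exact ⟨(LinearEquiv.ofInjectiveEndo (A y).toLinearMap h1).toContinuousLinearEquiv, rfl⟩
  refine ⟨⟨t, c, A, fun y => (A y).inverse, h.smA.continuous, fun y hy => ?_, fun y hy z => ?_,
    fun y hy z => ?_, fun y hy => h.cx y (hs (subset_tsupport _ hy)),
    fun y hy => h.qA y (hW y hy)⟩, hx, hc⟩
  · obtain ⟨L, hL⟩ := hi y hy
    have h1 := (contDiffAt_map_inverse (𝕜 := ℝ) (n := 0) L).continuousAt
    rw [hL] at h1
    exact (h1.comp h.smA.continuous.continuousAt).continuousWithinAt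
  · obtain ⟨L, hL⟩ := hi y hy
    rw [← hL, ContinuousLinearMap.inverse_equiv]; exact L.apply_symm_apply z
  · obtain ⟨L, hL⟩ := hi y hy
    rw [← hL, ContinuousLinearMap.inverse_equiv]; exact L.symm_apply_apply z

theorem exists_cover : ∃ (n : ℕ) (F : Fin n → FC w), ∀ x, ∃ a, x ∈ (F a).V := by
  choose F hF using exists_FC hμ hw
  obtain ⟨s, hs⟩ := isCompact_univ.elim_finite_subcover (fun x => (F x).V) (fun x => (F x).opn)
    fun x _ => mem_iUnion.2 ⟨x, hF x⟩
  refine ⟨s.card, fun a => F (s.equivFin.symm a), fun x => ?_⟩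
  obtain ⟨y, hy, h⟩ := mem_iUnion₂.1 (hs (mem_univ x))
  exact ⟨s.equivFin ⟨y, hy⟩, by simpa using h⟩

omit hμ hw in
theorem lin_sum {T : HS.Form X 2 → ℝ} (hT : LinC T) {ι : Type} (s : Finset ι)
    {α : ι → HS.Form X 2} (h : ∀ i, Cont (α i)) :
    T (fun x => ∑ i ∈ s, α i x) = ∑ i ∈ s, T (α i) := by
  classical
  induction s using Finset.induction_on with
  | empty =>
    have := hT.smul 0 _ (P247C.cont_zero (X := X) (k := 2))
    simpa using this
  | insert a s ha ih =>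
    simp only [Finset.sum_insert ha]
    rw [hT.add _ _ (h a) (P247C.cont_sum s fun i _ => h i), ih]

/-- the current is the integral of a fibrewise functional -/
theorem exists_lam {T : HS.Form X 2 → ℝ} (hT : LinC T) (hp : PosF (Jw w) T) :
    ∃ (σ : Measure X) (lam : X → AE →ₗ[ℝ] ℝ), IsFiniteMeasure σ ∧
      (∀ f : X → ℝ, Continuous f → T (fun x => f x • w 2 x) = ∫ x, f x ∂σ) ∧
      ∀ φ, Cont φ → Measurable (fun x => lam x (P247L.vl φ x)) ∧
        (∃ C, ∀ x, |lam x (P247L.vl φ x)| ≤ C) ∧ T φ = ∫ x, lam x (P247L.vl φ x) ∂σ := by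
  obtain ⟨σ, hσ, h2, hg⟩ := riesz hμ hw hT hp
  obtain ⟨n, F, hF⟩ := exists_cover hμ hw
  obtain ⟨ρ, hρ⟩ := PartitionOfUnity.exists_isSubordinate isClosed_univ (fun a => (F a).V)
    (fun a => (F a).opn) fun x _ => mem_iUnion.2 (hF x)
  choose l hm hb hl using fun p : Fin n × Fin 6 => hg _ ((F p.1).cont_ψ (Pi.single p.2 1))
  choose B hB using hb
  refine ⟨σ, fun x => ∑ p : Fin n × Fin 6, (ρ p.1 x * l p x) •
    (LinearMap.proj p.2).comp ((F p.1).co x).toLinearMap, hσ, h2, fun φ hφ => ?_⟩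
  set f : Fin n × Fin 6 → X → ℝ := fun p x => ρ p.1 x * (F p.1).co x (P247L.vl φ x) p.2 with hf
  have cf : ∀ p, Continuous (f p) := fun p =>
    ContinuousOn.continuous_of_tsupport_subset ((ρ p.1).continuous.continuousOn.mul
      ((continuous_apply p.2).comp_continuousOn ((F p.1).cont_co hφ))) (F p.1).opn
      ((tsupport_mul_subset_left).trans (hρ p.1))
  have e : ∀ x, (∑ p : Fin n × Fin 6, (ρ p.1 x * l p x) •
      (LinearMap.proj p.2).comp ((F p.1).co x).toLinearMap : AE →ₗ[ℝ] ℝ) (P247L.vl φ x) =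
      ∑ p, f p x * l p x := by
    intro x
    rw [LinearMap.sum_apply]
    refine Finset.sum_congr rfl fun p _ => ?_
    show (ρ p.1 x * l p x) * (F p.1).co x (P247L.vl φ x) p.2 = _
    simp only [hf]; ring
  choose C hC using fun p => isCompact_univ.exists_bound_of_continuousOn (cf p).continuousOn
  have bd : ∀ p x, |f p x * l p x| ≤ C p * B p := fun p x => by
    rw [abs_mul]
    exact mul_le_mul (hC p x trivial) (hB p x) (abs_nonneg _) ((norm_nonneg _).trans (hC p x trivial))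
  simp only [e]
  refine ⟨Finset.measurable_sum _ fun p _ => (cf p).measurable.mul (hm p),
    ⟨∑ p, C p * B p, fun x => (Finset.abs_sum_le_sum_abs _ _).trans
      (Finset.sum_le_sum fun p _ => bd p x)⟩, ?_⟩
  rw [integral_finsetSum (f := fun p x => f p x * l p x) _ fun p _ => Integrable.of_bound
    ((cf p).measurable.mul (hm p)).aestronglyMeasurable _ (Eventually.of_forall (bd p)),
    ← Finset.sum_congr rfl fun p _ => hl p _ (cf p),
    ← lin_sum hT _ fun p => P247C.cont_fsmul (cf p) ((F p.1).cont_ψ _)]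
  congr 1
  funext x
  show P247L.vl φ x = ∑ p : Fin n × Fin 6, f p x • P247L.vl ((F p.1).ψ (Pi.single p.2 1)) x
  rw [Fintype.sum_prod_type]
  have h1 : ∑ a, ρ a x = 1 := by
    rw [← finsum_eq_sum_of_fintype]; exact ρ.sum_eq_one (mem_univ x)
  conv_lhs => rw [← one_smul ℝ (P247L.vl φ x), ← h1, Finset.sum_smul]
  refine Finset.sum_congr rfl fun a _ => ?_
  by_cases ha : ρ a x = 0
  · simp only [hf, ha, zero_mul, zero_smul, Finset.sum_const_zero]
  · have hx := hρ a (subset_tsupport _ ha)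
    conv_lhs => rw [← (F a).ψ_co hx (P247L.vl φ x), (F a).ψ_sum, Finset.smul_sum]
    simp only [hf, mul_smul]

end Vale.Agent.P247N.Rep
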