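import Vale.Agent.P247N.Mon

/-!
# P247, block N: sequences, cut-off functions, pointwise bounds for the energy
-/

set_option linter.all false

open scoped ContDiff Topology Manifold
open Set MeasureTheory Filter Metric

noncomputable section

namespace Vale.Agent.P247N

open Vale.Agent.P247.H74 (R4 Data)

theorem seq2 {P : ℕ → ℝ} {K : ℝ} (hK : 0 < K) (h : ∀ m τ, 0 < τ →
    P m ≤ K * τ * (1 + ∑ j ∈ Finset.range (m + 1), P j) + K / τ + K) (m : ℕ) :
    ∑ j ∈ Finset.range m, P j ≤ (1 + 2 * K ^ 2 + K) * (m + 1) ^ 2 := by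
  induction m with
  | zero => simp; positivity
  | succ m ih =>
    have m0 : (0 : ℝ) ≤ m := Nat.cast_nonneg m
    have h1 := mul_le_mul_of_nonneg_left (h m (1 / (K * (m + 2))) (by positivity))
      (show (0 : ℝ) ≤ m + 2 by positivity)
    have h2 : ∀ S : ℝ, (m + 2) * (K * (1 / (K * (m + 2))) * (1 + S) + K / (1 / (K * (m + 2))) + K) =
        1 + S + K ^ 2 * (m + 2) ^ 2 + K * (m + 2) := fun S => by field_simp
    rw [h2] at h1
    rw [Finset.sum_range_succ] at h1 ⊢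
    push_cast
    refine le_of_mul_le_mul_left ?_ (show (0 : ℝ) < m + 1 by positivity)
    have h3 := mul_le_mul_of_nonneg_left ih (show (0 : ℝ) ≤ m + 2 by positivity)
    nlinarith [mul_nonneg (sq_nonneg K) m0, mul_nonneg (mul_nonneg (sq_nonneg K) m0) m0,
      mul_nonneg hK.le m0, mul_nonneg (mul_nonneg hK.le m0) m0, mul_nonneg m0 m0]

theorem seq1 {c P E o : ℕ → ℝ} {L M B : ℝ} (hc : Tendsto c atTop (𝓝 L)) (ho : Tendsto o atTop (𝓝 0))
    (P0 : ∀ j, 0 ≤ P j) (hP : ∀ m, ∑ j ∈ Finset.range m, P j ≤ M * (m + 1) ^ 2) (hE : Monotone E)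
    (hB : ∀ j, E j ≤ B) (h : ∀ j τ, 0 < τ → |c j| ≤ τ * P j + (E (j + 1) - E j) / τ + o j) :
    L = 0 := by
  by_contra hL
  have L0 := abs_pos.2 hL
  have M0 : 0 ≤ M := by simpa using hP 0
  set δ := |L| / (36 * (M + 1)) with hδ
  have δ0 : 0 < δ := by positivity
  have h1 := tendsto_atTop_ciSup hE ⟨B, by rintro _ ⟨j, rfl⟩; exact hB j⟩
  have h2 := (h1.comp (tendsto_id.atTop_add_atTop tendsto_id)).sub h1
  have h3 := hc.abs.sub ho
  rw [sub_self] at h2
  obtain ⟨N, hN⟩ := eventually_atTop.1 (h3.eventually (lt_mem_nhds (show |L| / 2 < |L| - 0 by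
    linarith)))
  obtain ⟨m, ⟨h4, h5⟩, h6⟩ := (((h2.eventually (gt_mem_nhds (show 0 < δ * |L| / 4 by positivity))).and
    (eventually_ge_atTop N)).and (eventually_ge_atTop 1)).exists
  have m1 : (1 : ℝ) ≤ m := by exact_mod_cast h6
  have h7 : ∑ j ∈ Finset.Ico m (m + m), |L| / 2 ≤ ∑ j ∈ Finset.Ico m (m + m),
      (δ / m * P j + (E (j + 1) - E j) / (δ / m)) := Finset.sum_le_sum fun j hj => by
    linarith [hN j (h5.trans (Finset.mem_Ico.1 hj).1), h j (δ / m) (by positivity)]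
  rw [Finset.sum_const, Finset.sum_add_distrib, ← Finset.mul_sum, ← Finset.sum_div,
    Finset.sum_Ico_sub _ (Nat.le_add_right m m), Nat.card_Ico,
    Nat.add_sub_cancel, nsmul_eq_mul] at h7
  have h8 : ∑ j ∈ Finset.Ico m (m + m), P j ≤ (M + 1) * (9 * m ^ 2) := by
    refine (Finset.sum_le_sum_of_subset_of_nonneg (fun j hj => Finset.mem_range.2
      (Finset.mem_Ico.1 hj).2) fun j _ _ => P0 j).trans ((hP _).trans ?_)
    push_cast
    gcongr
    exacts [by linarith, by nlinarith]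
  have h9 : δ / m * ((M + 1) * (9 * m ^ 2)) = m * |L| / 4 := by rw [hδ]; field_simp; norm_num
  have h10 : (E (m + m) - E m) / (δ / m) < m * |L| / 4 := by
    rw [div_lt_iff₀ (by positivity)]
    exact lt_of_lt_of_eq h4 (by field_simp)
  linarith [mul_le_mul_of_nonneg_left h8 (show 0 ≤ δ / m by positivity)]

theorem exists_cut {K U : Set R4} (hK : IsCompact K) (hU : IsOpen U) (h : K ⊆ U) :
    ∃ κ : R4 → ℝ, ContDiff ℝ ∞ κ ∧ HasCompactSupport κ ∧ tsupport κ ⊆ U ∧ (∀ x ∈ K, κ x = 1) ∧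
      ∀ x, 0 ≤ κ x ∧ κ x ≤ 1 := by
  obtain ⟨L, h1, h2, h3⟩ := exists_compact_between hK hU h
  obtain ⟨f, f1, f2, f3⟩ := exists_contMDiffMap_one_nhds_of_subset_interior 𝓘(ℝ, R4) (n := ⊤)
    hK.isClosed h2
  exact ⟨f, f.contMDiff.contDiff, HasCompactSupport.intro h1 f2, (closure_minimal
    (fun y (hy : f y ≠ 0) => by_contra fun a => hy (f2 y a)) h1.isClosed).trans h3,
    f1.self_of_nhdsSet, f3⟩

theorem tel {a : ℝ} (ha : 0 < a) (z : R4) : rk a z ^ 2 - rk (4 * a) z ^ 2 ≤ 6 * (a * rk a z ^ 3) ∧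
    a * rk a z ^ 3 ≤ 2 * (rk a z ^ 2 - rk (4 * a) z ^ 2) := by
  have a4 : 0 < 4 * a := by positivity
  have R0 := rk_pos ha z
  have R1 := rk_pos a4 z
  have R2 := rk_anti ha (show a ≤ 4 * a by linarith) z
  have e1 := rk_mul ha z
  have e2 := rk_mul a4 z
  have e4 := rk_a ha z
  set R := rk a z
  set S := rk (4 * a) z
  have e3 : R - S = 3 * a * R * S := by linear_combination S * e1 - R * e2
  have e5 : R ≤ 4 * S := by nlinarith
  have e6 : R ^ 2 - S ^ 2 = 3 * a * R * (S * (R + S)) := by linear_combination (R + S) * e3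
  have := mul_pos ha R0
  rw [e6]
  constructor
  · nlinarith [mul_le_mul_of_nonneg_left (show S * (R + S) ≤ 2 * R ^ 2 by nlinarith) this.le]
  · nlinarith [mul_le_mul_of_nonneg_left (show R ^ 2 ≤ 4 * (S * (R + S)) by nlinarith) this.le]

theorem rk_cmp {a C : ℝ} (ha : 0 < a) (hC : 1 ≤ C) {z z' : R4} (h : n2 z' ≤ C * n2 z) :
    rk a z ≤ C * rk a z' := by
  rw [rk, rk, ← div_eq_mul_inv, le_div_iff₀ (den_pos ha _), ← div_eq_inv_mul,
    div_le_iff₀ (den_pos ha _)]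
  nlinarith

theorem n2_neg (z : R4) : n2 (-z) = n2 z := by simp [n2]

/-- the intersection density -/
def pp (z v w : R4) : ℝ := cd v w + n2 z * n2 v * n2 w
/-- the excess density -/
def ee (z w : R4) : ℝ := cd z w + n2 z ^ 2 * n2 w

theorem pp0 (z v w : R4) : 0 ≤ pp z v w := by
  have := cd_nonneg v w; have := n2_nonneg z; have := n2_nonneg v; have := n2_nonneg w
  unfold pp; positivity

theorem ee0 (z w : R4) : 0 ≤ ee z w := by
  have := cd_nonneg z w; have := n2_nonneg w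
  unfold ee; positivity

theorem Pt.vo_le {C : ℝ} {z w p : R4} {c dw dp s : ℝ} (h : Pt C z w p c dw dp s) {u v b : R4}
    (hv : n2 v ≤ 1) (hu : n2 u = n2 z) (hu' : cd w u = cd z w) {L : ℝ} (hL : 0 ≤ L)
    (hb : n2 b ≤ L * n2 v ^ 2) (hb' : cd w b ≤ L * n2 v * pp z v w) (k : ℝ) {τ : ℝ} (hτ : 0 < τ) :
    |k * vo u b w p| ≤ τ * (k ^ 2 * pp z v w) + 6 * C * L * ee z w / τ := by
  have h1 := vo_ep h.C1 rfl h.rho hu hu' hL hb hb'
  rw [← h.peq] at h1
  have := h.C0; have := ee0 z w; have := pp0 z v w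
  refine am_gm ?_ (by positivity) (by positivity) hτ
  calc _ = k ^ 2 * vo u b w p ^ 2 := by ring
    _ ≤ k ^ 2 * (6 * C * L * ((ee z w * n2 v) * pp z v w)) := by gcongr; exact h1
    _ ≤ k ^ 2 * (6 * C * L * ((ee z w * 1) * pp z v w)) := by gcongr
    _ = _ := by ring

theorem cx_le {α β Λ : ℝ} {v : R4} (h : α ^ 2 + β ^ 2 ≤ Λ * n2 v) (hΛ : 0 ≤ Λ) (z w : R4) :
    n2 (α • v - β • i0 v) ≤ Λ * n2 v ^ 2 ∧ cd w (α • v - β • i0 v) ≤ Λ * n2 v * pp z v w := by
  have := n2_nonneg v; have := n2_nonneg z; have := n2_nonneg w; have := cd_nonneg v w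
  rw [n2_cx, cd_cx, cd_comm]
  refine ⟨by nlinarith [mul_le_mul_of_nonneg_right h (n2_nonneg v)], ?_⟩
  gcongr
  unfold pp
  nlinarith [show 0 ≤ n2 z * n2 v * n2 w by positivity]

theorem Fr.lam {D : Data} {W U : Set R4} {A : R4 → R4 →L[ℝ] R4} {χ : R4 → ℝ} {ε C : ℝ}
    (F : Fr D W U A χ ε C) {l : R4 → R4 →L[ℝ] ℝ} (hl : Continuous l) (hc : HasCompactSupport l) :
    ∃ Λ, 0 ≤ Λ ∧ ∀ x ∈ U, ∀ v, l x (D.J x v) ^ 2 + l x v ^ 2 ≤ Λ * n2 (A x v) := by
  obtain ⟨B, hB⟩ := hc.exists_bound_of_continuous hl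
  have := F.C1
  have h : ∀ x ∈ U, ∀ v, l x v ^ 2 ≤ B ^ 2 * (C * n2 (A x v)) := fun x hx v => by
    have h1 := pow_le_pow_left₀ (norm_nonneg _) ((l x).le_of_opNorm_le (hB x) v) 2
    rw [Real.norm_eq_abs, sq_abs, mul_pow] at h1
    exact h1.trans (mul_le_mul_of_nonneg_left ((le_n2 v).trans (F.lo x hx _)) (sq_nonneg _))
  refine ⟨2 * B ^ 2 * C, by positivity, fun x hx v => ?_⟩
  have h1 := h x hx (D.J x v)
  rw [F.cx x hx, n2_i0] at h1
  linarith [h x hx v]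

theorem Cs.cont_int {μ : Measure (R4 × R4)} (h : Cs μ) {X : Type*} [TopologicalSpace X]
    [FirstCountableTopology X] [LocallyCompactSpace X] {f : X → R4 × R4 → ℝ}
    (hf : Continuous f.uncurry) : Continuous fun x => ∫ q, f x q ∂μ := by
  obtain ⟨K, k1, k2⟩ := h.cpt
  have := h.fin
  rw [← Measure.restrict_eq_self_of_ae_mem k2]
  exact continuous_parametric_integral_of_continuous hf k1

end Vale.Agent.P247N
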