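import Vale.Agent.P247N.Gl
import Vale.Agent.P247N.Rep
import Vale.Agent.P247N.Irl

/-!
# P247, block N: the decomposition theorems
-/

set_option linter.all false

open scoped Manifold ContDiff Topology ENNReal
open Set MeasureTheory Filter Metric

noncomputable section

namespace Vale.Agent.P247N

open Vale.Agent.P247.SCY Vale.Agent.P247.SCY.HS Vale.Agent.P247X Vale.Agent.P247C
open Vale.Agent.P247.H74 (R4 Data)
open Vale.Agent.P247.H574 (dd cf2)

theorem atoms {m : Measure ℝ} [IsFiniteMeasure m] {ε : ℝ≥0∞} (hε : 0 < ε)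
    (h : ∀ A, MeasurableSet A → m A = 0 ∨ ε ≤ m A) : ∃ F : Finset ℝ, ∀ᵐ s ∂m, s ∈ F := by
  have h1 := Measure.finite_const_le_meas_of_disjoint_iUnion m hε (As := fun s : ℝ => {s})
    (fun s => measurableSet_singleton s) (fun a b hab => by simpa using hab) (measure_ne_top _ _)
  refine ⟨h1.toFinset, measure_null_of_locally_null _ fun s hs => ?_⟩
  have h2 : m {s} < ε := by simpa using hs
  obtain ⟨U, u1, u2, u3⟩ := Set.exists_isOpen_lt_of_lt _ _ h2
  exact ⟨U, mem_nhdsWithin_of_mem_nhds (u2.mem_nhds (u1 rfl)),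
    (h U u2.measurableSet).resolve_right u3.not_ge⟩

variable {X : Type} [Cl4 X] {w : Tri X} {σ : Measure X} {v : VF X} {N g : X → ℝ}

theorem wd_zero (hg : Measurable g) (h : wd σ g univ = 0) : ∀ᵐ x ∂σ, g x ≤ 0 := by
  rw [wd, withDensity_apply _ .univ, Measure.restrict_univ,
    lintegral_eq_zero_iff hg.ennreal_ofReal] at h
  exact h.mono fun x hx => by simpa using hx

theorem cur_test (t : LocT w) {f : R4 → ℝ} (hf : Continuous f) (hc : HasCompactSupport f)
    (ht : tsupport f ⊆ t.κ.target) : ∃ ψ, Cont ψ ∧ ∀ (σ : Measure X) v, VR w v →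
      cur w σ v ψ = ∫ y, f y ∂rl t σ := by
  obtain ⟨f1, f2⟩ := Lt.cf_smul hf hc t.D.om
  obtain ⟨ψ, p1, p2, -⟩ := Lt.exists_pb t f1 (f2.trans ht)
  refine ⟨ψ, p1, fun σ v hv => ?_⟩
  rw [Lt.cur_pb t σ hv f1.cont p2]
  refine integral_congr_ae ((Lt.ae_rl t σ).mono fun y hy => ?_)
  have h1 := Lt.nrm_vl t hv hy
  simp only [Lt.qf_cf2 t.D y] at h1
  simp only [ld, ContinuousLinearMap.smul_apply, smul_eq_mul, ← Finset.mul_sum, h1, mul_one]

variable {μ : Form X 4} (hμ : Volume μ) (hw : Hypersymplectic μ w)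
include hμ hw

theorem exists_rc {T : Form X 2 → ℝ} (hT : PCur (Jw w) T) :
    ∃ σ v, RC w σ v ∧ ∀ φ, Cont φ → T φ = cur w σ v φ := by
  obtain ⟨σ, v, h1, h2, h3⟩ := Rep.rep X μ hμ w hw T hT.toLinC hT.pos
  exact ⟨σ, v, ⟨h1, h2, fun φ a b => h3 φ (cont_of_smooth a) ▸ hT.closed φ a b⟩, h3⟩

theorem cur_bd {φ : Form X 2} (hφ : Cont φ) : ∃ C, 0 ≤ C ∧ ∀ (σ : Measure X) v, RC w σ v →
    |cur w σ v φ| ≤ C * σ.real univ := by
  obtain ⟨C, C0, hC⟩ := Rep.dom hμ hw hφ
  refine ⟨C, C0.le, fun σ v h => ?_⟩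
  have := h.fin
  refine norm_integral_le_of_norm_le_const (μ := σ) (f := dn w v φ) (.of_forall fun x => ?_)
  rw [← mul_one C, ← h.vr.nrm x, dn, dn, Finset.mul_sum]
  exact (Finset.abs_sum_le_sum_abs _ _).trans (Finset.sum_le_sum fun i _ => hC x _)

theorem lim_half {ι : Type} (𝒰 : Ultrafilter ι) (K : ι → Irr (Jw w)) {M : ℝ} {s : ι → Measure X}
    {u : ι → VF X} (hs : ∀ n, RC w (s n) (u n)) (hK : ∀ n φ, Cont φ → (K n).T φ = cur w (s n) (u n) φ)
    (hM : ∀ n, (s n).real univ ≤ M) (h : RC w σ v) (hN : IsN w σ N)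
    (hT : ∀ φ, Cont φ → Tendsto (fun n => (K n).T φ) 𝒰 (𝓝 (cur w σ v φ))) {x : X}
    (hx : ∀ U ∈ 𝓝 x, ∀ᶠ n in (𝒰 : Filter ι), (U ∩ (K n).K).Nonempty) : 1 / 2 ≤ N x := by
  obtain ⟨t, C, V, h1, h2, C0, h3⟩ := loc_mon hμ hw x
  have xs := h2 (mem_of_mem_nhds h1)
  obtain ⟨c, c0, hc⟩ := qf_lo t.D
  obtain ⟨ρ, ρ0, hρ⟩ := nhds_basis_closedBall.mem_iff.1
    (t.κ.open_target.mem_nhds (t.κ.map_source xs))
  let χ : ContDiffBump (t.κ x) := ⟨ρ / 2, ρ, half_pos ρ0, half_lt_self ρ0⟩
  have := h.fin; have := Lt.fin_rl t σ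
  have M0 : 0 ≤ M := measureReal_nonneg.trans (hM (Filter.nonempty_of_neBot (𝒰 : Filter ι)).some)
  refine ge_of_tendsto (f := fun a => Th t.D (rl t σ) (t.κ x) a + (1 / (c * (ρ / 2) ^ 2) ^ 2 * a * M +
    C * M * √(√a))) (x := 𝓝[>] 0) ?_ (ev_Ioc.mono fun a ⟨a0, a1⟩ => ?_)
  · have := (hN t x xs).add (((Continuous.tendsto' (f := fun a : ℝ => 1 / (c * (ρ / 2) ^ 2) ^ 2 * a *
      M) (by fun_prop) 0 0 (by simp)).mono_left nhdsWithin_le_nhds).add (sqrt2_lim.const_mul (C * M)))
    simpa only [mul_zero, add_zero] using this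
  have ck : Continuous fun z => kn a (qf t.D (t.κ x) (z - t.κ x)) :=
    (cont_kn t.D a0).comp (f := fun z => (t.κ x, z)) (by fun_prop)
  have cf : Continuous fun z => χ z * kn a (qf t.D (t.κ x) (z - t.κ x)) := χ.continuous.mul ck
  have sf : HasCompactSupport fun z => χ z * kn a (qf t.D (t.κ x) (z - t.κ x)) :=
    χ.hasCompactSupport.mul_right
  obtain ⟨ψ, p1, p2⟩ := cur_test t cf sf (tsupport_mul_subset_left.trans (χ.tsupport_eq ▸ hρ))
  refine le_of_forall_pos_le_add fun ε hε => ?_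
  have e1 : ∀ᶠ y in 𝓝 (t.κ x), ∀ z ∈ closedBall (0 : R4) 1, kn a (qf t.D y (z - y)) <
      kn a (qf t.D (t.κ x) (z - t.κ x)) + ε / (M + 1) :=
    (isCompact_closedBall _ _).eventually_forall_of_forall_eventually fun z _ =>
      (isOpen_lt (cont_kn t.D a0) ((ck.comp continuous_snd).add continuous_const)).mem_nhds
        (lt_add_of_pos_right _ (show 0 < ε / (M + 1) by positivity))
  have e2 := inter_mem h1 (t.κ.continuousAt xs e1)
  have e3 : cur w σ v ψ ≤ Th t.D (rl t σ) (t.κ x) a := by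
    rw [p2 σ v h.vr]
    exact integral_mono (cf.integrable_of_hasCompactSupport sf) (Kr.integrable_Th _ _ _ a0)
      fun y => mul_le_of_le_one_left (Kr.kn_nonneg a0 _) χ.le_one
  refine le_trans (ge_of_tendsto ((hT ψ p1).add_const ((1 / (c * (ρ / 2) ^ 2) ^ 2 * a * M +
    C * M * √(√a)) + ε)) ((hx _ (interior_mem_nhds.2 e2)).mono fun n ⟨y, y1, y2⟩ => ?_))
    (by linarith)
  obtain ⟨z, z1, z2, z3⟩ := irl X μ hμ w hw (K n) _ _ (hs n).fin (hs n).vr (hK n) t y y2
    (h2 (interior_subset y1).1) _ (mem_interior_iff_mem_nhds.1 y1)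
  obtain ⟨N', hN'⟩ := (hs n).exists_N hμ hw
  have := (hs n).fin; have := Lt.fin_rl t (s n)
  have b1 := (ge_of_tendsto (hN' t z z2) z3).trans (h3 _ _ N' (hs n) hN' z z1.1 a a0 a1).2
  have b2 : Th t.D (rl t (s n)) (t.κ z) a ≤ (K n).T ψ +
      (rl t (s n)).real univ * (1 / (c * (ρ / 2) ^ 2) ^ 2 * a + ε / (M + 1)) := by
    rw [hK n ψ p1, p2 _ _ (hs n).vr, ← smul_eq_mul ((rl t (s n)).real univ), ← integral_const,
      ← integral_add (cf.integrable_of_hasCompactSupport sf) (integrable_const _)]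
    refine integral_mono_ae (Kr.integrable_Th _ _ _ a0) ((cf.integrable_of_hasCompactSupport sf).add
      (integrable_const _)) ((Lt.ae_rl t _).mono fun p hp => ?_)
    have b3 := z1.2 p (ball_subset_closedBall (((hs n).pc t).sub hp))
    have b4 : 0 ≤ 1 / (c * (ρ / 2) ^ 2) ^ 2 * a := by positivity
    by_cases b5 : p ∈ closedBall (t.κ x) (ρ / 2)
    · simp only [χ.one_of_mem_closedBall b5]; linarith
    · have b6 := Kr.kn_far a0 (show 0 < c * (ρ / 2) ^ 2 by positivity) (le_trans (by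
        rw [mem_closedBall, dist_eq_norm, not_le] at b5; gcongr) (hc (t.κ x) (p - t.κ x)))
      have b7 := mul_nonneg (χ.nonneg (x := p)) (Kr.kn_nonneg a0 (qf t.D (t.κ x) (p - t.κ x)))
      simp only; linarith
  have b3 := mul_le_mul_of_nonneg_right ((mass_rl t).trans (hM n))
    (show 0 ≤ 1 / (c * (ρ / 2) ^ 2) ^ 2 * a + ε / (M + 1) by positivity)
  have b4 : M * (ε / (M + 1)) ≤ ε := by
    rw [← mul_div_assoc, div_le_iff₀ (by positivity)]; nlinarith
  have b5 : C * (s n).real univ * √(√a) ≤ C * M * √(√a) := by gcongr; exact hM n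
  linarith

theorem fin_val (h : RC w σ v) (hN : IsN w σ N) (h2 : ∀ᵐ x ∂σ, 1 / 2 ≤ N x) :
    ∃ F : Finset ℝ, (∀ s ∈ F, 0 < s) ∧ ∀ᵐ x ∂σ, N x ∈ F := by
  classical
  obtain ⟨δ, δ0, hδ⟩ := gap hμ hw
  have mN := hN.meas hμ hw h
  have := h.fin
  have pp := Real.pi_pos
  obtain ⟨F, hF⟩ := atoms (m := σ.map N) (ε := ENNReal.ofReal (δ / (2 * Real.pi)))
    (ENNReal.ofReal_pos.2 (by positivity)) fun A hA => by
      have mf : Measurable ((A ∩ Ici (1 / 2)).indicator fun s => Real.pi / s) :=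
        (measurable_const.div measurable_id).indicator (hA.inter measurableSet_Ici)
      have bf : ∀ s, (A ∩ Ici (1 / 2)).indicator (fun s => Real.pi / s) s ≤
          A.indicator (fun _ => 2 * Real.pi) s := fun s => indicator_apply_le' (fun hs => by
        have : 1 / 2 ≤ s := hs.2
        rw [indicator_of_mem hs.1, div_le_iff₀ (by positivity)]; nlinarith)
        fun _ => indicator_nonneg (fun _ _ => by positivity) _
      have f0 : ∀ s, 0 ≤ (A ∩ Ici (1 / 2)).indicator (fun s => Real.pi / s) s := fun s =>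
        indicator_nonneg (fun s hs => by have : 1 / 2 ≤ s := hs.2; positivity) s
      rw [Measure.map_apply mN hA]
      refine (hδ σ v N _ (2 * Real.pi) h hN mf (fun s => ⟨f0 s, (bf s).trans
        (indicator_le_self' (fun _ _ => by positivity) s)⟩) fun s hs => ?_).imp (fun h0 => ?_)
        fun h0 => ?_
      · have h1 := mem_of_indicator_ne_zero hs.ne'
        have : 1 / 2 ≤ s := h1.2
        rw [indicator_of_mem h1, div_mul_cancel₀ _ (by positivity)]
      · refine measure_eq_zero_iff_ae_notMem.2 ?_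
        filter_upwards [wd_zero (mf.comp mN) h0, h2] with x a b hx
        rw [Function.comp_apply, indicator_of_mem (show N x ∈ A ∩ Ici (1 / 2) from ⟨hx, b⟩)] at a
        exact a.not_gt (by positivity)
      · refine ENNReal.ofReal_le_of_le_toReal ?_
        have h1 := h0.trans (integral_mono_of_nonneg (.of_forall fun x => f0 (N x))
          ((integrable_const (2 * Real.pi)).indicator (mN hA)) (.of_forall fun x => bf (N x)))
        rw [integral_indicator_const _ (mN hA), smul_eq_mul] at h1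
        rwa [div_le_iff₀ (by positivity)]
  refine ⟨F.filter (0 < ·), fun s hs => (Finset.mem_filter.1 hs).2, ?_⟩
  filter_upwards [ae_of_ae_map mN.aemeasurable hF, h2] with x a b
  exact Finset.mem_filter.2 ⟨a, by linarith⟩

omit hμ hw

theorem siua (hI : INT) (hS : SQ) : SIUA_statement := by
  intro X _ μ hμ w hw T hT α hα h0
  obtain ⟨σ, v, h, hr⟩ := exists_rc hμ hw hT
  obtain ⟨N, hN⟩ := h.exists_N hμ hw
  have mN := hN.meas hμ hw h
  have := h.fin
  have pp := Real.pi_pos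
  by_cases h1 : ∀ n : ℕ, ∀ᵐ x ∂σ, N x ≤ 1 / (n + 1)
  · refine (h0.not_ge (hS X μ hμ w hw σ v h.fin h.vr h.pcur ((ae_all_iff.2 h1).mono fun x hx => ?_)
      α ⟨hα.1, fun φ hφ => hr φ hφ.cont ▸ hα.2 φ hφ⟩)).elim
    obtain ⟨t, ht⟩ := ex_t hμ hw x
    exact ⟨t, ht, le_antisymm (ge_of_tendsto' tendsto_one_div_add_atTop_nhds_zero_nat hx)
      (hN.nonneg hμ hw x) ▸ hN t x ht⟩
  obtain ⟨n, hn⟩ := not_forall.1 h1
  set c : ℝ := 1 / (n + 1)
  have c0 : 0 < c := Nat.one_div_pos_of_nat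
  have mf : Measurable ((Ioi c).indicator fun s => Real.pi / s) :=
    (measurable_const.div measurable_id).indicator measurableSet_Ioi
  have bf : ∀ s, 0 ≤ (Ioi c).indicator (fun s => Real.pi / s) s ∧
      (Ioi c).indicator (fun s => Real.pi / s) s ≤ Real.pi / c := fun s =>
    ⟨indicator_nonneg (fun s hs => div_nonneg pp.le (c0.trans hs).le) s, indicator_apply_le'
      (fun hs => div_le_div_of_nonneg_left pp.le c0 (le_of_lt hs)) fun _ => by positivity⟩
  refine ⟨c / Real.pi, _, by positivity, icur hμ hw hI h hN mf bf fun s hs => ?_, ?_,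
    fun φ hφ h2 => ?_⟩
  · have h1 := mem_of_indicator_ne_zero hs.ne'
    rw [indicator_of_mem h1, div_mul_cancel₀ _ (c0.trans h1).ne']
  · by_contra h2
    refine hn ((wd_zero (mf.comp mN) (isCompact_univ.measure_zero_of_nhdsWithin fun x _ =>
      (null_of_supp (h.wd hμ hw hN mf bf) (hyp_sc hw 2).cont fun a => h2 ⟨x, a⟩).imp
        fun V hV => ⟨mem_nhdsWithin_of_mem_nhds hV.1, hV.2⟩)).mono fun x hx => not_lt.1 fun a => ?_)
    rw [Function.comp_apply, indicator_of_mem (mem_Ioi.2 a)] at hx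
    exact hx.not_gt (div_pos pp (c0.trans a))
  · have hi := Lt.integrable_dn σ h.vr hφ
    have mg : Measurable fun x => (Ioi c).indicator (fun s => Real.pi / s) (N x) := mf.comp mN
    rw [sub_nonneg, hr φ hφ, cur_wd mg fun x => (bf _).1, ← integral_const_mul]
    refine integral_mono ((int_bm hi mg fun x => by
      rw [abs_of_nonneg (bf _).1]; exact (bf _).2).const_mul _) hi fun x => ?_
    have h3 : 0 ≤ dn w v φ x := Finset.sum_nonneg fun i _ => h2 x _
    have h4 := mul_le_mul_of_nonneg_left (bf (N x)).2 (show 0 ≤ c / Real.pi by positivity)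
    rw [show c / Real.pi * (Real.pi / c) = 1 by field_simp] at h4
    simp only [← mul_assoc]
    exact mul_le_of_le_one_left h3 h4

theorem siud (hI : INT) (hR : IRR_statement) : SIUD_statement := by
  intro X _ μ hμ w hw ι 𝒰 K M hM
  classical
  have hP := fun n => (hR X μ hμ w hw (K n)).1
  choose s u hs hK using fun n => exists_rc hμ hw (hP n)
  have w2 := (hyp_sc hw 2).cont
  have hM' : ∀ n, (s n).real univ ≤ M := fun n => by rw [← cur_w2 (hs n).vr, ← hK n _ w2]; exact hM n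
  have hT : ∀ φ, Cont φ → Tendsto (fun n => (K n).T φ) 𝒰 (𝓝 (limUnder 𝒰 fun n => (K n).T φ)) :=
    fun φ hφ => by
      obtain ⟨C, C0, hC⟩ := cur_bd hμ hw hφ
      obtain ⟨c, -, hc⟩ := (isCompact_Icc (a := -(C * M)) (b := C * M)).ultrafilter_le_nhds
        (𝒰.map fun n => (K n).T φ) (le_principal_iff.2 (mem_map.2 (univ_mem' fun n => abs_le.1
          (((congrArg abs (hK n φ hφ)).trans_le (hC _ _ (hs n))).trans
            (mul_le_mul_of_nonneg_left (hM' n) C0)))))
      exact tendsto_nhds_limUnder ⟨c, hc⟩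
  obtain ⟨σ, v, h, hr⟩ := exists_rc hμ hw (T := fun φ => limUnder 𝒰 fun n => (K n).T φ)
    ⟨⟨fun φ ψ a b => tendsto_nhds_unique (hT _ (a.add b)) (((hT φ a).add (hT ψ b)).congr
      fun n => ((hP n).add φ ψ a b).symm), fun c φ a => tendsto_nhds_unique (hT _ (a.smul c))
      (((hT φ a).const_mul c).congr fun n => ((hP n).smul c φ a).symm)⟩,
    fun φ a b => tendsto_nhds_unique (hT φ (cont_of_smooth a))
      (tendsto_const_nhds.congr fun n => ((hP n).closed φ a b).symm),
    fun φ a b => ge_of_tendsto' (hT φ a) fun n => (hP n).pos φ a b⟩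
  have hT' := fun φ hφ => hr φ hφ ▸ hT φ hφ
  obtain ⟨N, hN⟩ := h.exists_N hμ hw
  have half := fun x => lim_half hμ hw 𝒰 K hs hK hM' h hN hT' (x := x)
  have := ChartedSpace.secondCountable_of_sigmaCompact E4 X
  have := h.fin
  obtain ⟨F, F0, hF⟩ := fin_val hμ hw h hN (measure_null_of_locally_null _ fun x hx => by
    obtain ⟨U, hU, h1⟩ : ∃ U ∈ 𝓝 x, ∀ᶠ n in (𝒰 : Filter ι), ¬(U ∩ (K n).K).Nonempty := by
      by_contra h1
      exact hx (half x fun U hU => by_contra fun a => h1 ⟨U, hU, 𝒰.eventually_not.2 a⟩)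
    refine (null_nhds h w2 hU fun φ a ⟨C, c1, c2, c3⟩ => tendsto_nhds_unique (hT' φ a)
      (tendsto_const_nhds.congr' (h1.mono fun n hn => ((K n).off φ a ⟨C, c1, fun y hy b =>
        hn ⟨y, c2 hy, b⟩, c3⟩).symm))).imp fun V hV => ⟨mem_nhdsWithin_of_mem_nhds hV.1, hV.2⟩)
  have pp := Real.pi_pos
  have mN := hN.meas hμ hw h
  set f : F → ℝ → ℝ := fun i s => if s = i then Real.pi / i else 0 with hf
  have mf : ∀ i, Measurable (f i) := fun i =>
    Measurable.ite (measurableSet_singleton _) measurable_const measurable_const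
  have bf : ∀ i s, 0 ≤ f i s ∧ f i s ≤ Real.pi / i := fun i s => by
    have := div_pos pp (F0 i i.2)
    simp only [hf]; split_ifs <;> constructor <;> linarith
  have key : ∀ φ, Cont φ → cur w σ v φ = ∑ i : F, i / Real.pi * cur w (wd σ fun x => f i (N x)) v φ :=
    fun φ hφ => by
      have hi := Lt.integrable_dn σ h.vr hφ
      have mg : ∀ i, Measurable fun x => f i (N x) := fun i => (mf i).comp mN
      simp only [fun i => cur_wd (σ := σ) (w := w) (v := v) (mg i) (fun x => (bf i _).1) φ,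
        ← integral_const_mul]
      rw [← integral_finset_sum _ fun i _ => (int_bm hi (mg i) fun x => by
        rw [abs_of_nonneg (bf _ _).1]; exact (bf _ _).2).const_mul _]
      refine integral_congr_ae (hF.mono fun x hx => ?_)
      have := F0 _ hx
      beta_reduce
      rw [Finset.sum_eq_single ⟨N x, hx⟩ (fun i _ hi => by
        simp only [hf, if_neg fun a : N x = i => hi (Subtype.ext a.symm), zero_mul, mul_zero])
        (by simp)]
      simp only [hf, if_true]
      field_simp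
  refine ⟨F.card, fun i => cur w (wd σ fun x => f (F.equivFin.symm i) (N x)) v,
    fun i => F.equivFin.symm i / Real.pi, fun i => ⟨div_pos (F0 _ (F.equivFin.symm i).2) pp,
      icur hμ hw hI h hN (mf _) (bf _) fun s hs => ?_⟩, fun φ hφ => ?_, fun x hx => ?_⟩
  · have h1 : s = F.equivFin.symm i := by
      by_contra a
      simp [hf, a] at hs
    simp only [hf, if_pos h1]
    rw [h1, div_mul_cancel₀ _ (F0 _ (F.equivFin.symm i).2).ne']
  · rw [F.equivFin.symm.sum_comp fun i : F => i / Real.pi * cur w (wd σ fun x => f i (N x)) v φ,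
      ← key φ hφ]
    exact hT' φ hφ
  · by_contra! h1
    simp only [suppT, mem_setOf_eq, not_forall, not_exists, not_and, not_not] at h1
    choose U hU h2 using h1
    obtain ⟨V, hV, h3⟩ := null_nhds h w2 (iInter_mem.2 hU) fun φ a ⟨C, c1, c2, c3⟩ => by
      rw [key φ a]
      refine Finset.sum_eq_zero fun i _ => ?_
      have := h2 (F.equivFin i) φ a ⟨C, c1, c2.trans (iInter_subset _ _), c3⟩
      rw [Equiv.symm_apply_apply] at this
      rw [this, mul_zero]
    linarith [half x hx, hN.zero hμ hw hV h3]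

theorem siub (hI : INT) (hR : IRR_statement) (hE : EMB_statement) : SIUB_statement := by
  intro X _ μ hμ w hw ι 𝒰 K M hM
  choose L h1 _ h2 using fun n => (hE X μ hμ w hw).2 (K n)
  obtain ⟨m, S, c, a1, a2, a3⟩ := siud hI hR X μ hμ w hw ι 𝒰 L M fun n =>
    h2 n _ (hyp_sc hw 2).cont ▸ hM n
  exact ⟨m, S, c, a1, fun φ hφ => (a2 φ hφ).congr fun n => h2 n φ hφ,
    fun x hx => a3 x fun U hU => by simpa only [h1] using hx U hU⟩

end Vale.Agent.P247N
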