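import Vale.Agent.P204.CV.G1
import Vale.Agent.P204.CV.F1

/-!
# P247, block N: a closed positive current of density zero has nonnegative square (abstract form)
-/

set_option linter.all false

open MeasureTheory Set Filter Topology
open scoped ContDiff InnerProductSpace

namespace Vale.Agent.P247N.Sq

open Vale.Agent.P204.T4 Vale.Agent.P204.GX Vale.Agent.P204.GX.FnSys _root_.P204.GX

variable {X : Type} [MetricSpace X] [CompactSpace X] [MeasurableSpace X] [BorelSpace X]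
  (Z : FnSys X)

theorem mean_tendsto {t : Measure X} [IsFiniteMeasure t] {c : ℝ} (hc : 0 < c)
    (hb : ∃ C : ℝ, ∀ x (r : ℝ), 0 < r → r ≤ 1 → (t (Metric.ball x r)).toReal ≤ C * r ^ 2)
    (hf : ∀ᵐ x ∂t, Tendsto (fun δ : ℝ => (δ ^ 2)⁻¹ * (t (Metric.ball x (c * δ))).toReal)
      (𝓝[>] 0) (𝓝 0)) :
    Tendsto (fun δ : ℝ => ∫ x, (δ ^ 2)⁻¹ * (t (Metric.ball x (c * δ))).toReal ∂t)
      (𝓝[>] 0) (𝓝 0) := by
  obtain ⟨C, hC⟩ := hb
  have h1 : Tendsto (fun δ : ℝ => ∫ x, (δ ^ 2)⁻¹ *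
      (t (Metric.ball x (c * δ))).toReal ∂t) (𝓝[>] 0) (𝓝 (∫ _x : X, (0 : ℝ) ∂t)) := by
    apply tendsto_integral_filter_of_dominated_convergence (fun _ => C * c ^ 2)
    · exact .of_forall fun δ => ((G9.measurable_ball_real t _).const_mul _).aestronglyMeasurable
    · have h2 : Ioo (0 : ℝ) (1 / c) ∈ 𝓝[>] (0 : ℝ) := Ioo_mem_nhdsGT (by positivity)
      filter_upwards [h2] with δ hδ
      refine .of_forall fun x => ?_
      have hδ0 : 0 < δ := hδ.1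
      have h3 : c * δ ≤ 1 := by
        have := hδ.2
        rw [lt_div_iff₀ hc] at this
        linarith
      rw [Real.norm_eq_abs, abs_of_nonneg (by positivity)]
      have h4 := hC x (c * δ) (by positivity) h3
      calc (δ ^ 2)⁻¹ * (t (Metric.ball x (c * δ))).toReal
          ≤ (δ ^ 2)⁻¹ * (C * (c * δ) ^ 2) := by gcongr
        _ = C * c ^ 2 := by field_simp
    · exact integrable_const _
    · exact hf
  rwa [integral_zero] at h1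

/-- lower bound for the square of the smoothing of a positive current -/
theorem self_pair {t : Measure X} {D : X → L2} (ht : Cur t D) {δ : ℝ} {w : Lp E6 2 Z.μ}
    (h0 : 0 < δ) (h1 : δ ≤ Z.Y.δ0) (hw : Z.Rep t D δ w) :
    -(64 * (Z.c ^ 7 * ∫ x, (δ ^ 2)⁻¹ * (t (Metric.ball x (2 * Z.c * δ))).toReal ∂t)) ≤
      ⟪w, Z.Y.st w⟫_ℝ := by
  have := ht.fin
  rw [Z.inner_st_Q]
  have hpt : ∀ᵐ x ∂Z.μ, -(64 * δ ^ 2 * (Z.maj t δ x * Z.maj t δ x))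
      ≤ Q (ofE (w x)) (ofE (w x)) := by
    filter_upwards [Z.rep_cone ht h0 h1 hw, Z.pmH_eq w, F2.rep_ae Z ht h0 h1 hw,
      F2.rep_pm_ae Z ht h0 h1 hw] with x e1 e3 a1 a3
    have m1 := Z.maj_nonneg (t := t) h0 x
    have e6 := pair_lower (by positivity) (by positivity) e1 e1
    rw [e3] at a3
    rw [G9.toE_ofE] at e6
    refine le_trans ?_ e6
    set P := Z.maj t δ x
    have b1 : 2 * (δ ^ 2 * P) * ‖w x‖ ≤ 2 * (δ ^ 2 * P) * (6 * P) :=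
      mul_le_mul_of_nonneg_left a1 (by positivity)
    have b3 : ‖toE (pM J0 (ofE (w x)))‖ * ‖toE (pM J0 (ofE (w x)))‖
        ≤ (6 * δ * P) * (6 * δ * P) :=
      mul_le_mul a3 a3 (norm_nonneg _) (by positivity)
    have hδ1 : δ ≤ 1 := h1.trans Z.Y.δ0_le
    have b4 : 2 * (δ ^ 2 * P) * (δ ^ 2 * P) ≤ 4 * δ ^ 2 * (P * P) := by
      have c1 : δ ^ 2 ≤ 1 := pow_le_one₀ h0.le hδ1
      have c2 : δ ^ 2 * (δ ^ 2 * (P * P)) ≤ 1 * (δ ^ 2 * (P * P)) :=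
        mul_le_mul_of_nonneg_right c1 (by positivity)
      have c3 : 0 ≤ δ ^ 2 * (P * P) := by positivity
      linarith only [c2, c3]
    linarith only [b1, b3, b4]
  have hmm : Integrable (fun x => Z.maj t δ x * Z.maj t δ x) Z.μ := by
    refine (Z.maj_integrable t h0).mul_bdd (Z.maj_meas t δ).aestronglyMeasurable
      (c := Z.c * (δ ^ 4)⁻¹ * (t univ).toReal) (.of_forall fun y => ?_)
    rw [Real.norm_eq_abs, abs_of_nonneg (Z.maj_nonneg h0 y)]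
    exact Z.maj_le t h0 y
  have hI : Integrable (fun x => -(64 * δ ^ 2 * (Z.maj t δ x * Z.maj t δ x))) Z.μ :=
    (hmm.const_mul _).neg
  refine le_trans ?_ (integral_mono_ae hI (Z.Q_integrable w w) hpt)
  rw [integral_neg, integral_const_mul (64 * δ ^ 2)]
  have h5 := F2.int_maj_maj Z t t h0
  linarith only [h5]

theorem abs_sq (hPG : HasPG Z) {t : Measure X} {D : X → L2} (ht : Cur t D)
    (hb : ∃ C : ℝ, ∀ x (r : ℝ), 0 < r → r ≤ 1 → (t (Metric.ball x r)).toReal ≤ C * r ^ 2)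
    (hf : ∀ c > 0, ∀ᵐ x ∂t, Tendsto (fun δ : ℝ => (δ ^ 2)⁻¹ * (t (Metric.ball x (c * δ))).toReal)
      (𝓝[>] 0) (𝓝 0))
    (hk : ∀ e ∈ Z.Y.Ex, fn t D (e : X → L2) = 0) (g : Z.Om)
    (hP : ∀ c ∈ Z.Y.Cl, fn t D (c : X → L2) = ⟪Z.Y.ι g, Z.Y.st (Z.Y.ι c)⟫_ℝ) :
    0 ≤ fn t D (g : X → L2) := by
  have := ht.fin
  have hc : 0 < 2 * Z.c := by have := Z.c_pos; positivity
  have hκ1 := ((mean_tendsto hc hb (hf _ hc)).const_mul (Z.c ^ 7)).const_mul 64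
  obtain ⟨κ3, hκ3, k3⟩ := Z.rep_tendsto hPG ht g 0
  have key : ∀ δ, 0 < δ → δ ≤ Z.Y.δ0 → 0 ≤ fn t D (g : X → L2) +
      (64 * (Z.c ^ 7 * ∫ x, (δ ^ 2)⁻¹ * (t (Metric.ball x (2 * Z.c * δ))).toReal ∂t) + κ3 δ) := by
    intro δ h0 h1
    obtain ⟨wT, hwT⟩ := Z.exists_Rep ht h0 h1
    obtain ⟨wg, hwg⟩ := Z.exists_repL (Z.Y.ι g) h0 h1
    have hwT' : ∀ u, ⟪wT, Z.Y.st u⟫_ℝ = fn t D (Z.Y.S δ u : X → L2) := hwT
    have ha : wT ∈ Z.Y.Zw := Z.Y.mem_Zw_of_kill fun c hc => by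
      rw [hwT']
      exact hk _ (Z.Y.S_Ex δ c h0 h1 hc)
    have hb : ∀ c ∈ Z.Y.Cl, ⟪wT - wg, Z.Y.st (Z.Y.ι c)⟫_ℝ = 0 := by
      intro c hc
      rw [inner_sub_left, hwT', hwg, hP _ (Z.Y.S_mem_Cl δ h0 h1 (Z.Y.ι_mem_Zw hc)), sub_self]
    have hz := Z.Y.pair_zero hb ha
    rw [Z.h586_symm, map_sub, inner_sub_right] at hz
    have e1 := self_pair Z ht h0 h1 hwT
    obtain ⟨e3, -⟩ := k3 δ wg wT 0 h0 h1 hwg hwT fun u => by
      rw [inner_zero_left, inner_zero_left]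
    rw [abs_le] at e3
    linarith [e3.2]
  have hlim := (hκ1.add hκ3).const_add (fn t D (g : X → L2))
  have := ge_of_tendsto hlim (by
    filter_upwards [Ioc_mem_nhdsGT Z.Y.δ0_pos] with δ hδ
    exact key δ hδ.1 hδ.2)
  linarith

/-- the statement for a concrete manifold -/
theorem cm_sq [Nonempty X] (M : CM X) {t : Measure X} {D : X → L2} (ht : Cur t D)
    (hb : ∃ C : ℝ, ∀ x (r : ℝ), 0 < r → r ≤ 1 → (t (Metric.ball x r)).toReal ≤ C * r ^ 2)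
    (hf : ∀ c > 0, ∀ᵐ x ∂t, Tendsto (fun δ : ℝ => (δ ^ 2)⁻¹ * (t (Metric.ball x (c * δ))).toReal)
      (𝓝[>] 0) (𝓝 0))
    (hk : ∀ e ∈ M.Ex, fn t D (e : X → L2) = 0) {g : X → L2} (hg : g ∈ M.Om)
    (hP : ∀ c ∈ M.Om, (∀ a, Closed (M.cf a c)) → fn t D c = M.pr g c) :
    0 ≤ fn t D g := by
  obtain ⟨Z, hμ, hO, hC, hE, -, hPG⟩ := sysStatementC X M
  refine abs_sq Z hPG ht hb hf (fun e he => ?_) ⟨g, (hO g).2 hg⟩ fun c hc => ?_
  · obtain ⟨e', h1, h2⟩ := (hE e).1 he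
    rw [← h2]
    exact hk e' h1
  · rw [Z.h586_inner, hP c ((hO c).1 c.2) ((hC c).1 hc), hμ]
    rfl

end Vale.Agent.P247N.Sq
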