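import Vale.Agent.P247N.Alg
import Vale.Agent.P247.H264.Mass

/-!
# P247, block N: currents as measures on pairs (point, vector); test forms
-/

set_option linter.all false

open scoped ContDiff Topology
open Set MeasureTheory Filter Metric

noncomputable section

namespace Vale.Agent.P247N

open Vale.Agent.P247.H74 (R4 Data)
open Vale.Agent.P247.H574 (F2 dd)

variable {D : Data} {W : Set R4} {μ : Measure (R4 × R4)}

theorem qf_lo (D : Data) : ∃ c > 0, ∀ x u, c * ‖u‖ ^ 2 ≤ qf D x u := by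
  obtain ⟨c, c0, h⟩ := P247.H264.exists_tame D
  exact ⟨c, c0, fun x u => by rw [qf, ← P247.H264.cf2_apply]; exact h x u⟩

theorem qf_nonneg (D : Data) (x u : R4) : 0 ≤ qf D x u := by
  obtain ⟨c, c0, h⟩ := qf_lo D
  exact le_trans (by positivity) (h x u)

section
variable {X : Type*} [TopologicalSpace X] {a b c : X → R4}

@[fun_prop] theorem cont_J (ha : Continuous a) (hb : Continuous b) :
    Continuous fun x => D.J (a x) (b x) := (D.J_smooth.continuous.comp ha).clm_apply hb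

@[fun_prop] theorem cont_qf (ha : Continuous a) (hb : Continuous b) :
    Continuous fun x => qf D (a x) (b x) := by
  simp only [qf, ← P247.H264.cf2_apply]
  exact P247.H264.continuous_apply_F2 ((P247.H264.continuous_cf2 _).comp ha) hb (cont_J ha hb)

theorem cont_dd {l : R4 → R4 →L[ℝ] ℝ} (hl : ContDiff ℝ ∞ l) (ha : Continuous a) (hb : Continuous b)
    (hc : Continuous c) : Continuous fun x => dd l (a x) (b x) (c x) := by
  have h := (hl.continuous_fderiv (by simp)).comp ha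
  exact ((h.clm_apply hb).clm_apply hc).sub ((h.clm_apply hc).clm_apply hb)
end

/-- finite measures with compact support -/
structure Cs {Y : Type*} [TopologicalSpace Y] [MeasurableSpace Y] (μ : Measure Y) : Prop where
  fin : IsFiniteMeasure μ
  cpt : ∃ K, IsCompact K ∧ ∀ᵐ q ∂μ, q ∈ K

theorem Cs.int {Y : Type*} [TopologicalSpace Y] [T2Space Y] [MeasurableSpace Y]
    [OpensMeasurableSpace Y] {μ : Measure Y} (h : Cs μ) {f : Y → ℝ} (hf : Continuous f) :
    Integrable f μ := by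
  obtain ⟨K, k1, k2⟩ := h.cpt
  have := h.fin
  rw [← Measure.restrict_eq_self_of_ae_mem k2]
  exact hf.continuousOn.integrableOn_compact k1

theorem Cs.prod {μ' : Measure (R4 × R4)} (h' : Cs μ') (h : Cs μ) : Cs (μ'.prod μ) := by
  obtain ⟨K, k1, k2⟩ := h.cpt
  obtain ⟨K', k3, k4⟩ := h'.cpt
  have := h.fin; have := h'.fin
  refine ⟨inferInstance, K' ×ˢ K, k3.prod k1, ?_⟩
  filter_upwards [Measure.quasiMeasurePreserving_fst.ae k4,
    Measure.quasiMeasurePreserving_snd.ae k2] with q a b using ⟨a, b⟩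

/-- a positive closed current as a measure on pairs (point, vector) -/
structure VC (D : Data) (W : Set R4) (μ : Measure (R4 × R4)) : Prop extends Cs μ where
  ae : ∀ᵐ q ∂μ, q.1 ∈ W ∧ q.1 ∈ ball 0 1 ∧ qf D q.1 q.2 ≤ 1
  closed : ∀ l, TF W l → ∫ q, dd l q.1 q.2 (D.J q.1 q.2) ∂μ = 0

/-- the measure of a current -/
def vm (r : Measure R4) (w : Fin 2 → R4 → R4) : Measure (R4 × R4) :=
  r.map (fun y => (y, w 0 y)) + r.map fun y => (y, w 1 y)

variable {r : Measure R4} {w : Fin 2 → R4 → R4}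

theorem PC.mp (h : PC D W r w) (i : Fin 2) : Measurable fun y => (y, w i y) :=
  measurable_id.prodMk (h.meas i)

theorem PC.le_one (h : PC D W r w) {y : R4} (hy : y ∈ W) (i : Fin 2) : qf D y (w i y) ≤ 1 :=
  h.nrm y hy ▸ Finset.single_le_sum (fun j _ => qf_nonneg D y (w j y)) (Finset.mem_univ i)

theorem PC.ae_vm (h : PC D W r w) {S : Set (R4 × R4)} (hS : MeasurableSet S)
    (h1 : ∀ y ∈ W, ∀ i, (y, w i y) ∈ S) : ∀ᵐ q ∂vm r w, q ∈ S :=
  ae_add_measure_iff.2 ⟨(ae_map_iff (h.mp 0).aemeasurable hS).2 (h.ae.mono fun y hy => h1 y hy 0),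
    (ae_map_iff (h.mp 1).aemeasurable hS).2 (h.ae.mono fun y hy => h1 y hy 1)⟩

theorem PC.cs (h : PC D W r w) : Cs (vm r w) := by
  obtain ⟨c, c0, hc⟩ := qf_lo D
  have := h.fin
  have hK := (isCompact_closedBall (0 : R4) 1).prod (isCompact_closedBall (0 : R4) (c⁻¹ + 1))
  refine ⟨by unfold vm; infer_instance, _, hK, h.ae_vm hK.measurableSet fun y hy i =>
    ⟨ball_subset_closedBall (h.sub hy), mem_closedBall_zero_iff.2 ?_⟩⟩
  have h1 := (hc y (w i y)).trans (h.le_one hy i)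
  have h2 : ‖w i y‖ ^ 2 ≤ c⁻¹ := by rw [← one_div, le_div_iff₀ c0]; linarith
  show ‖w i y‖ ≤ _
  nlinarith [sq_nonneg (‖w i y‖ - 1), inv_pos.2 c0]

theorem PC.int (h : PC D W r w) {Φ : R4 × R4 → ℝ} (hΦ : Continuous Φ) (i : Fin 2) :
    Integrable (fun y => Φ (y, w i y)) r := by
  have h1 := integrable_add_measure.1 (h.cs.int hΦ)
  fin_cases i
  · exact (integrable_map_measure hΦ.aestronglyMeasurable (h.mp 0).aemeasurable).1 h1.1
  · exact (integrable_map_measure hΦ.aestronglyMeasurable (h.mp 1).aemeasurable).1 h1.2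

theorem PC.integral_vm (h : PC D W r w) {Φ : R4 × R4 → ℝ} (hΦ : Continuous Φ) :
    ∫ q, Φ q ∂vm r w = ∫ y, ∑ i, Φ (y, w i y) ∂r := by
  have h1 := integrable_add_measure.1 (h.cs.int hΦ)
  rw [vm, integral_add_measure h1.1 h1.2, integral_map (h.mp 0).aemeasurable
    hΦ.aestronglyMeasurable, integral_map (h.mp 1).aemeasurable hΦ.aestronglyMeasurable,
    ← integral_add (h.int hΦ 0) (h.int hΦ 1)]
  simp only [Fin.sum_univ_two]

theorem PC.vc (h : PC D W r w) : VC D W (vm r w) := by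
  refine ⟨h.cs, h.ae_vm (S := {q | q.1 ∈ W ∧ q.1 ∈ ball 0 1 ∧ qf D q.1 q.2 ≤ 1})
    ((measurable_fst h.opn.measurableSet).inter ((measurable_fst measurableSet_ball).inter
      (isClosed_le (cont_qf continuous_fst continuous_snd) continuous_const).measurableSet))
    fun y hy i => ⟨hy, h.sub hy, h.le_one hy i⟩, fun l hl => ?_⟩
  rw [h.integral_vm (cont_dd hl.sm continuous_fst continuous_snd (by fun_prop))]
  exact h.closed l hl

theorem PC.mass (h : PC D W r w) : (vm r w).real univ = 2 * r.real univ := by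
  have := h.fin
  have h1 := h.integral_vm (Φ := fun _ => 1) continuous_const
  simpa [mul_comm] using h1

/-! ## test forms -/

theorem dd_apply (l : R4 → R4 →L[ℝ] ℝ) (y u v : R4) :
    dd l y u v = fderiv ℝ l y u v - fderiv ℝ l y v u := rfl

theorem VC.cl0 (h : VC D W μ) {g : R4 → ℝ} {g' : R4 → R4 → ℝ} {η : R4 → R4 →L[ℝ] ℝ}
    (hg : ContDiff ℝ ∞ g) (hg' : ∀ y u, fderiv ℝ g y u = g' y u) (hη : ContDiff ℝ ∞ η)
    {K : Set R4} (hK : IsCompact K) (hW : K ⊆ W) (h0 : ∀ y, y ∉ K → g y = 0 ∨ η y = 0) :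
    ∫ q, (g' q.1 q.2 * η q.1 (D.J q.1 q.2) - g' q.1 (D.J q.1 q.2) * η q.1 q.2 +
      g q.1 * dd η q.1 q.2 (D.J q.1 q.2)) ∂μ = 0 := by
  have h1 : ∀ y, y ∉ K → g y • η y = 0 := fun y hy => by rcases h0 y hy with a | a <;> simp [a]
  have h2 := HasCompactSupport.intro hK h1
  refine Eq.trans ?_ (h.closed (fun y => g y • η y) ⟨hg.smul hη, h2, (closure_minimal
    (fun y (hy : g y • η y ≠ 0) => by_contra fun a => hy (h1 y a)) hK.isClosed).trans hW⟩)
  congr 1
  funext q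
  rw [dd_apply, dd_apply, fderiv_fun_smul (hg.differentiable (by simp) _)
    (hη.differentiable (by simp) _)]
  simp only [ContinuousLinearMap.add_apply, ContinuousLinearMap.smul_apply, smul_eq_mul,
    ContinuousLinearMap.smulRight_apply, hg']
  ring

/-- the resolvent kernel -/
def rk (a : ℝ) (z : R4) : ℝ := (n2 z + a)⁻¹

theorem den_pos {a : ℝ} (ha : 0 < a) (z : R4) : 0 < n2 z + a := by
  have := n2_nonneg z; positivity

theorem rk_pos {a : ℝ} (ha : 0 < a) (z : R4) : 0 < rk a z := inv_pos.2 (den_pos ha z)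

theorem sm_n2 : ContDiff ℝ ∞ n2 := by unfold n2; fun_prop

theorem sm_rk {a : ℝ} (ha : 0 < a) : ContDiff ℝ ∞ (rk a) :=
  (sm_n2.add contDiff_const).inv fun z => (den_pos ha z).ne'

@[fun_prop] theorem cont_rk {X : Type*} [TopologicalSpace X] {z : X → R4} {a : ℝ} (ha : 0 < a)
    (hz : Continuous z) : Continuous fun x => rk a (z x) := (sm_rk ha).continuous.comp hz

theorem fd_ip {f g : R4 → R4} {f' g' : R4 →L[ℝ] R4} {y : R4} (hf : HasFDerivAt f f' y)
    (hg : HasFDerivAt g g' y) : ∃ L : R4 →L[ℝ] ℝ, HasFDerivAt (fun y => ip (f y) (g y)) L y ∧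
      ∀ u, L u = ip (f' u) (g y) + ip (f y) (g' u) :=
  ⟨_, by simpa only [ipL_apply] using ipL.hasFDerivAt_of_bilinear hf hg, fun u => by
    simp [ipL_apply, add_comm]⟩

theorem fd_rk {a : ℝ} (ha : 0 < a) (n : ℕ) {f : R4 → R4} {f' : R4 →L[ℝ] R4} {y : R4}
    (hf : HasFDerivAt f f' y) : ∃ L : R4 →L[ℝ] ℝ, HasFDerivAt (fun y => rk a (f y) ^ (n + 1)) L y ∧
      ∀ u, L u = -(2 * (n + 1) * rk a (f y) ^ (n + 2) * ip (f y) (f' u)) := by
  obtain ⟨L, h1, h2⟩ := fd_ip hf hf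
  simp only [ip_self] at h1
  have h3 := (((hasDerivAt_inv (den_pos ha (f y)).ne').fun_pow (n + 1)).comp_hasFDerivAt y
    (h1.add_const a))
  refine ⟨_, h3, fun u => ?_⟩
  simp only [ContinuousLinearMap.smul_apply, h2, rk, ip, smul_eq_mul, ← inv_pow,
    Nat.add_sub_cancel]
  push_cast
  ring

theorem VC.cl2 (h : VC D W μ) {χ : R4 → ℝ} (hχ : ContDiff ℝ ∞ χ) (hc : HasCompactSupport χ)
    (hW : tsupport χ ⊆ W) {a : ℝ} (ha : 0 < a) (n : ℕ) (A B L : R4 →L[ℝ] R4) (c x : R4) :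
    ∫ q, ((fderiv ℝ χ q.1 q.2 * rk a (A (q.1 - x)) ^ (n + 1) - χ q.1 * (2 * (n + 1) *
        rk a (A (q.1 - x)) ^ (n + 2) * ip (A (q.1 - x)) (A q.2))) *
        ip (L (q.1 - x) + c) (B (D.J q.1 q.2)) -
      (fderiv ℝ χ q.1 (D.J q.1 q.2) * rk a (A (q.1 - x)) ^ (n + 1) - χ q.1 * (2 * (n + 1) *
        rk a (A (q.1 - x)) ^ (n + 2) * ip (A (q.1 - x)) (A (D.J q.1 q.2)))) *
        ip (L (q.1 - x) + c) (B q.2) +
      χ q.1 * rk a (A (q.1 - x)) ^ (n + 1) *
        (ip (L q.2) (B (D.J q.1 q.2)) - ip (L (D.J q.1 q.2)) (B q.2))) ∂μ = 0 := by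
  have s1 : ContDiff ℝ ∞ fun y : R4 => y - x := contDiff_id.sub contDiff_const
  have d0 : ∀ (L : R4 →L[ℝ] R4) y, HasFDerivAt (fun y => L (y - x)) L y := fun L y => by
    simpa only [map_sub] using L.hasFDerivAt.sub_const (L x)
  set M : R4 →L[ℝ] R4 →L[ℝ] ℝ := ((ipL.flip ∘L B).flip : R4 →L[ℝ] R4 →L[ℝ] ℝ) with hM
  have e1 : ∀ u v, M u v = ip u (B v) := fun u v => by simp [hM, ipL_apply]
  have d1 : ∀ y, HasFDerivAt (fun y => M (L (y - x) + c)) (M ∘L L) y := fun y =>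
    M.hasFDerivAt.comp y ((d0 L y).add_const c)
  refine Eq.trans ?_ (h.cl0 (g := fun y => χ y * rk a (A (y - x)) ^ (n + 1))
    (η := fun y => M (L (y - x) + c))
    (g' := fun y u => fderiv ℝ χ y u * rk a (A (y - x)) ^ (n + 1) - χ y * (2 * (n + 1) *
      rk a (A (y - x)) ^ (n + 2) * ip (A (y - x)) (A u)))
    (hχ.mul (((sm_rk ha).comp (A.contDiff.comp s1)).pow _)) (fun y u => ?_)
    (M.contDiff.comp ((L.contDiff.comp s1).add contDiff_const)) hc hW
    fun y hy => .inl (by rw [image_eq_zero_of_notMem_tsupport hy, zero_mul]))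
  · congr 1
    funext q
    simp only [dd_apply, (d1 _).fderiv, e1, ContinuousLinearMap.comp_apply]
  · obtain ⟨L', h1, h2⟩ := fd_rk ha n (d0 A y)
    rw [((hχ.differentiable (by simp) y).hasFDerivAt.fun_mul h1).fderiv]
    simp [h2]
    ring

end Vale.Agent.P247N
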